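import Crest.Agent.R307.AA

set_option autoImplicit false
set_option maxRecDepth 100000
set_option linter.unusedVariables false

namespace Crest.Agent.R307.BA
open Crest.Agent.R307.AA

noncomputable section

theorem k0 : |2 ^ 48 * (0 : ℝ) - (((4722366482869645213696 : ℕ) : ℝ) - 2 ^ 72)| ≤ ((0 : ℕ) : ℝ) := by norm_num [abs_le]
theorem k1 : |2 ^ 48 * (-1 : ℝ) - (((4722366201394668503040 : ℕ) : ℝ) - 2 ^ 72)| ≤ ((0 : ℕ) : ℝ) := by norm_num [abs_le]
theorem k2 : |2 ^ 48 * (1 : ℝ) - (((4722366764344621924352 : ℕ) : ℝ) - 2 ^ 72)| ≤ ((0 : ℕ) : ℝ) := by norm_num [abs_le]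
theorem k3 : |2 ^ 48 * (-1 / 64 : ℝ) - (((4722366478471598702592 : ℕ) : ℝ) - 2 ^ 72)| ≤ ((0 : ℕ) : ℝ) := by norm_num [abs_le]
theorem k4 : |2 ^ 48 * (9 / 10 : ℝ) - (((4722366736197124253286 : ℕ) : ℝ) - 2 ^ 72)| ≤ ((1 : ℕ) : ℝ) := by norm_num [abs_le]
theorem k5 : |2 ^ 48 * (19 / 10 : ℝ) - (((4722367017672100963942 : ℕ) : ℝ) - 2 ^ 72)| ≤ ((1 : ℕ) : ℝ) := by norm_num [abs_le]
theorem k6 : |2 ^ 48 * (1 / 10 : ℝ) - (((4722366511017142884761 : ℕ) : ℝ) - 2 ^ 72)| ≤ ((1 : ℕ) : ℝ) := by norm_num [abs_le]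
theorem k7 : (2 : ℝ) = val 4722367045819598635008 := by norm_num [val]
theorem k8 : |2 ^ 48 * (2 : ℝ) - (((4722367045819598635008 : ℕ) : ℝ) - 2 ^ 72)| ≤ ((0 : ℕ) : ℝ) := by norm_num [abs_le]
theorem k9 : (1 / 2 : ℝ) = val 4722366623607133569024 := by norm_num [val]
def a_B11 (gs gt ps : ℕ) (z80 z100 z366 z203 z274 z251 z197 z190 : AF) : Bool :=
  subK z197 z190 fun z198 =>
  sqrtK z198 fun z199 =>
  invK z199 fun z252 =>
  subK z199 z100 fun z253 =>
  normK z253 fun z254 =>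
  sqrK z254 fun z255 =>
  subK z255 z203 fun z256 =>
  normK z256 fun z257 =>
  mulK z252 z257 fun z258 =>
  addK z197 z190 fun z200 =>
  sqrtK z200 fun z201 =>
  invK z201 fun z259 =>
  subK z201 z100 fun z260 =>
  normK z260 fun z261 =>
  sqrK z261 fun z262 =>
  addK z262 z203 fun z263 =>
  normK z263 fun z264 =>
  mulK z259 z264 fun z265 =>
  addK z258 z265 fun z266 =>
  normK z266 fun z267 =>
  mulK z80 z267 fun z268 =>
  subK z251 z268 fun z269 =>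
  addK z274 z269 fun z275 =>
  smulK z275 4722366623607133569024 fun z276 =>
  subK z366 z276 fun z367 =>
  posK z367 <|
  true

def a_R11 (gs gt ps : ℕ) (z80 z100 z366 z203 z274 z251 z197 z190 : ℝ) : Prop :=
  letR (z197 - z190) fun z198 =>
  letR (√z198) fun z199 =>
  invR z199 fun z252 =>
  letR (z199 - z100) fun z253 =>
  letR z253 fun z254 =>
  letR (z254 ^ 2) fun z255 =>
  letR (z255 - z203) fun z256 =>
  letR z256 fun z257 =>
  letR (z252 * z257) fun z258 =>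
  letR (z197 + z190) fun z200 =>
  letR (√z200) fun z201 =>
  invR z201 fun z259 =>
  letR (z201 - z100) fun z260 =>
  letR z260 fun z261 =>
  letR (z261 ^ 2) fun z262 =>
  letR (z262 + z203) fun z263 =>
  letR z263 fun z264 =>
  letR (z259 * z264) fun z265 =>
  letR (z258 + z265) fun z266 =>
  letR z266 fun z267 =>
  letR (z80 * z267) fun z268 =>
  letR (z251 - z268) fun z269 =>
  letR (z274 + z269) fun z275 =>
  letR ((1 / 2 : ℝ) * z275) fun z276 =>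
  letR (z366 - z276) fun z367 =>
  posR z367 <|
  True

theorem a_S11 {ε : Fin 4 → ℝ} (gs gt : ℕ) (hε : ∀ i, |ε i| ≤ 1) (ps : ℕ) (z80 z100 z366 z203 z274 z251 z197 z190 : AF) (t80 t100 t366 t203 t274 t251 t197 t190 : ℝ)
    (g80 : Rel ε z80 t80) (g100 : Rel ε z100 t100) (g366 : Rel ε z366 t366) (g203 : Rel ε z203 t203) (g274 : Rel ε z274 t274) (g251 : Rel ε z251 t251) (g197 : Rel ε z197 t197) (g190 : Rel ε z190 t190) :
    a_B11 gs gt ps z80 z100 z366 z203 z274 z251 z197 z190 = true → a_R11 gs gt ps t80 t100 t366 t203 t274 t251 t197 t190 := by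
  delta a_B11 a_R11
  exact subS g197 g190 fun z198 t198 g198 =>
  sqrtS hε g198 fun z199 t199 g199 =>
  invS hε g199 fun z252 t252 g252 =>
  subS g199 g100 fun z253 t253 g253 =>
  normS g253 fun z254 t254 g254 =>
  sqrS hε g254 fun z255 t255 g255 =>
  subS g255 g203 fun z256 t256 g256 =>
  normS g256 fun z257 t257 g257 =>
  mulS hε g252 g257 fun z258 t258 g258 =>
  addS g197 g190 fun z200 t200 g200 =>
  sqrtS hε g200 fun z201 t201 g201 =>
  invS hε g201 fun z259 t259 g259 =>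
  subS g201 g100 fun z260 t260 g260 =>
  normS g260 fun z261 t261 g261 =>
  sqrS hε g261 fun z262 t262 g262 =>
  addS g262 g203 fun z263 t263 g263 =>
  normS g263 fun z264 t264 g264 =>
  mulS hε g259 g264 fun z265 t265 g265 =>
  addS g258 g265 fun z266 t266 g266 =>
  normS g266 fun z267 t267 g267 =>
  mulS hε g80 g267 fun z268 t268 g268 =>
  subS g251 g268 fun z269 t269 g269 =>
  addS g274 g269 fun z275 t275 g275 =>
  smulS hε g275 k9 fun z276 t276 g276 =>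
  subS g366 g276 fun z367 t367 g367 =>
  posS hε g367 <|
  fun _ => trivial

def a_B10 (gs gt ps : ℕ) (z80 z100 z102 z86 z104 z366 z178 z176 z165 z180 z203 z274 z172 : AF) : Bool :=
  normK z172 fun z173 =>
  sqrK z176 fun z177 =>
  mulK z177 z178 fun z187 =>
  normK z187 fun z188 =>
  smulK z177 4722367045819598635008 fun z191 =>
  subK z188 z191 fun z192 =>
  addcK z192 4722366764344621924352 0 fun z193 =>
  sqrtK z193 fun z194 =>
  invK z194 fun z237 =>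
  mulK z173 z237 fun z238 =>
  normK z238 fun z239 =>
  subK z102 z194 fun z240 =>
  normK z240 fun z241 =>
  sqrK z241 fun z242 =>
  mulK z239 z242 fun z243 =>
  mulK z165 z86 fun z174 =>
  normK z174 fun z175 =>
  rsubK z188 4722366764344621924352 0 fun z195 =>
  sqrtK z195 fun z196 =>
  invK z196 fun z244 =>
  mulK z175 z244 fun z245 =>
  normK z245 fun z246 =>
  subK z104 z196 fun z247 =>
  normK z247 fun z248 =>
  sqrK z248 fun z249 =>
  mulK z246 z249 fun z250 =>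
  addK z243 z250 fun z251 =>
  rsubK z177 4722366764344621924352 0 fun z197 =>
  mulK z177 z180 fun z189 =>
  normK z189 fun z190 =>
  a_B11 gs gt ps z80 z100 z366 z203 z274 z251 z197 z190

def a_R10 (gs gt ps : ℕ) (z80 z100 z102 z86 z104 z366 z178 z176 z165 z180 z203 z274 z172 : ℝ) : Prop :=
  letR z172 fun z173 =>
  letR (z176 ^ 2) fun z177 =>
  letR (z177 * z178) fun z187 =>
  letR z187 fun z188 =>
  letR ((2 : ℝ) * z177) fun z191 =>
  letR (z188 - z191) fun z192 =>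
  letR (z192 + (1 : ℝ)) fun z193 =>
  letR (√z193) fun z194 =>
  invR z194 fun z237 =>
  letR (z173 * z237) fun z238 =>
  letR z238 fun z239 =>
  letR (z102 - z194) fun z240 =>
  letR z240 fun z241 =>
  letR (z241 ^ 2) fun z242 =>
  letR (z239 * z242) fun z243 =>
  letR (z165 * z86) fun z174 =>
  letR z174 fun z175 =>
  letR ((1 : ℝ) - z188) fun z195 =>
  letR (√z195) fun z196 =>
  invR z196 fun z244 =>
  letR (z175 * z244) fun z245 =>
  letR z245 fun z246 =>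
  letR (z104 - z196) fun z247 =>
  letR z247 fun z248 =>
  letR (z248 ^ 2) fun z249 =>
  letR (z246 * z249) fun z250 =>
  letR (z243 + z250) fun z251 =>
  letR ((1 : ℝ) - z177) fun z197 =>
  letR (z177 * z180) fun z189 =>
  letR z189 fun z190 =>
  a_R11 gs gt ps z80 z100 z366 z203 z274 z251 z197 z190

theorem a_S10 {ε : Fin 4 → ℝ} (gs gt : ℕ) (hε : ∀ i, |ε i| ≤ 1) (ps : ℕ) (z80 z100 z102 z86 z104 z366 z178 z176 z165 z180 z203 z274 z172 : AF) (t80 t100 t102 t86 t104 t366 t178 t176 t165 t180 t203 t274 t172 : ℝ)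
    (g80 : Rel ε z80 t80) (g100 : Rel ε z100 t100) (g102 : Rel ε z102 t102) (g86 : Rel ε z86 t86) (g104 : Rel ε z104 t104) (g366 : Rel ε z366 t366) (g178 : Rel ε z178 t178) (g176 : Rel ε z176 t176) (g165 : Rel ε z165 t165) (g180 : Rel ε z180 t180) (g203 : Rel ε z203 t203) (g274 : Rel ε z274 t274) (g172 : Rel ε z172 t172) :
    a_B10 gs gt ps z80 z100 z102 z86 z104 z366 z178 z176 z165 z180 z203 z274 z172 = true → a_R10 gs gt ps t80 t100 t102 t86 t104 t366 t178 t176 t165 t180 t203 t274 t172 := by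
  delta a_B10 a_R10
  exact normS g172 fun z173 t173 g173 =>
  sqrS hε g176 fun z177 t177 g177 =>
  mulS hε g177 g178 fun z187 t187 g187 =>
  normS g187 fun z188 t188 g188 =>
  smulS hε g177 k7 fun z191 t191 g191 =>
  subS g188 g191 fun z192 t192 g192 =>
  addcS g192 k2 fun z193 t193 g193 =>
  sqrtS hε g193 fun z194 t194 g194 =>
  invS hε g194 fun z237 t237 g237 =>
  mulS hε g173 g237 fun z238 t238 g238 =>
  normS g238 fun z239 t239 g239 =>
  subS g102 g194 fun z240 t240 g240 =>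
  normS g240 fun z241 t241 g241 =>
  sqrS hε g241 fun z242 t242 g242 =>
  mulS hε g239 g242 fun z243 t243 g243 =>
  mulS hε g165 g86 fun z174 t174 g174 =>
  normS g174 fun z175 t175 g175 =>
  rsubS g188 k2 fun z195 t195 g195 =>
  sqrtS hε g195 fun z196 t196 g196 =>
  invS hε g196 fun z244 t244 g244 =>
  mulS hε g175 g244 fun z245 t245 g245 =>
  normS g245 fun z246 t246 g246 =>
  subS g104 g196 fun z247 t247 g247 =>
  normS g247 fun z248 t248 g248 =>
  sqrS hε g248 fun z249 t249 g249 =>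
  mulS hε g246 g249 fun z250 t250 g250 =>
  addS g243 g250 fun z251 t251 g251 =>
  rsubS g177 k2 fun z197 t197 g197 =>
  mulS hε g177 g180 fun z189 t189 g189 =>
  normS g189 fun z190 t190 g190 =>
  a_S11 gs gt hε ps z80 z100 z366 z203 z274 z251 z197 z190 t80 t100 t366 t203 t274 t251 t197 t190 g80 g100 g366 g203 g274 g251 g197 g190

def a_B9 (gs gt ps : ℕ) (x0 z27 z61 z80 z100 z63 z83 z102 z86 z95 z104 z148 z147 z366 z272 z159 z178 z176 z211 z165 z168 : AF) : Bool :=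
  normK z168 fun z169 =>
  mulK z169 z147 fun z170 =>
  normK z170 fun z171 =>
  mulK z176 z148 fun z212 =>
  subK z95 z212 fun z213 =>
  normK z213 fun z214 =>
  sqrK z214 fun z215 =>
  mulK z171 z215 fun z216 =>
  smulK z216 4722367045819598635008 fun z217 =>
  addK z211 z217 fun z218 =>
  rsubK z178 4722366764344621924352 0 fun z179 =>
  mulK z27 z179 fun z180 =>
  addcK z180 4722366764344621924352 0 fun z183 =>
  sqrtK z183 fun z184 =>
  invK z184 fun z219 =>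
  mulK z176 z184 fun z220 =>
  subK z220 x0 fun z221 =>
  normK z221 fun z222 =>
  sqrK z222 fun z223 =>
  subK z61 z63 fun z66 =>
  normK z66 fun z202 =>
  mulK z27 z202 fun z203 =>
  addK z223 z203 fun z224 =>
  normK z224 fun z225 =>
  mulK z219 z225 fun z226 =>
  subK z218 z226 fun z227 =>
  rsubK z180 4722366764344621924352 0 fun z185 =>
  sqrtK z185 fun z186 =>
  invK z186 fun z228 =>
  mulK z176 z186 fun z229 =>
  subK z229 x0 fun z230 =>
  normK z230 fun z231 =>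
  sqrK z231 fun z232 =>
  subK z232 z203 fun z233 =>
  normK z233 fun z234 =>
  mulK z228 z234 fun z235 =>
  subK z227 z235 fun z236 =>
  normK z236 fun z273 =>
  mulK z272 z273 fun z274 =>
  mulK z159 z83 fun z172 =>
  a_B10 gs gt ps z80 z100 z102 z86 z104 z366 z178 z176 z165 z180 z203 z274 z172

def a_R9 (gs gt ps : ℕ) (sg z27 z61 z80 z100 z63 z83 z102 z86 z95 z104 z148 z147 z366 z272 z159 z178 z176 z211 z165 z168 : ℝ) : Prop :=
  letR z168 fun z169 =>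
  letR (z169 * z147) fun z170 =>
  letR z170 fun z171 =>
  letR (z176 * z148) fun z212 =>
  letR (z95 - z212) fun z213 =>
  letR z213 fun z214 =>
  letR (z214 ^ 2) fun z215 =>
  letR (z171 * z215) fun z216 =>
  letR ((2 : ℝ) * z216) fun z217 =>
  letR (z211 + z217) fun z218 =>
  letR ((1 : ℝ) - z178) fun z179 =>
  letR (z27 * z179) fun z180 =>
  letR (z180 + (1 : ℝ)) fun z183 =>
  letR (√z183) fun z184 =>
  invR z184 fun z219 =>
  letR (z176 * z184) fun z220 =>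
  letR (z220 - sg) fun z221 =>
  letR z221 fun z222 =>
  letR (z222 ^ 2) fun z223 =>
  letR (z61 - z63) fun z66 =>
  letR z66 fun z202 =>
  letR (z27 * z202) fun z203 =>
  letR (z223 + z203) fun z224 =>
  letR z224 fun z225 =>
  letR (z219 * z225) fun z226 =>
  letR (z218 - z226) fun z227 =>
  letR ((1 : ℝ) - z180) fun z185 =>
  letR (√z185) fun z186 =>
  invR z186 fun z228 =>
  letR (z176 * z186) fun z229 =>
  letR (z229 - sg) fun z230 =>
  letR z230 fun z231 =>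
  letR (z231 ^ 2) fun z232 =>
  letR (z232 - z203) fun z233 =>
  letR z233 fun z234 =>
  letR (z228 * z234) fun z235 =>
  letR (z227 - z235) fun z236 =>
  letR z236 fun z273 =>
  letR (z272 * z273) fun z274 =>
  letR (z159 * z83) fun z172 =>
  a_R10 gs gt ps z80 z100 z102 z86 z104 z366 z178 z176 z165 z180 z203 z274 z172

theorem a_S9 {ε : Fin 4 → ℝ} (gs gt : ℕ) (hε : ∀ i, |ε i| ≤ 1) (ps : ℕ) (x0 z27 z61 z80 z100 z63 z83 z102 z86 z95 z104 z148 z147 z366 z272 z159 z178 z176 z211 z165 z168 : AF) (sg t27 t61 t80 t100 t63 t83 t102 t86 t95 t104 t148 t147 t366 t272 t159 t178 t176 t211 t165 t168 : ℝ)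
    (h0 : Rel ε x0 sg) (g27 : Rel ε z27 t27) (g61 : Rel ε z61 t61) (g80 : Rel ε z80 t80) (g100 : Rel ε z100 t100) (g63 : Rel ε z63 t63) (g83 : Rel ε z83 t83) (g102 : Rel ε z102 t102) (g86 : Rel ε z86 t86) (g95 : Rel ε z95 t95) (g104 : Rel ε z104 t104) (g148 : Rel ε z148 t148) (g147 : Rel ε z147 t147) (g366 : Rel ε z366 t366) (g272 : Rel ε z272 t272) (g159 : Rel ε z159 t159) (g178 : Rel ε z178 t178) (g176 : Rel ε z176 t176) (g211 : Rel ε z211 t211) (g165 : Rel ε z165 t165) (g168 : Rel ε z168 t168) :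
    a_B9 gs gt ps x0 z27 z61 z80 z100 z63 z83 z102 z86 z95 z104 z148 z147 z366 z272 z159 z178 z176 z211 z165 z168 = true → a_R9 gs gt ps sg t27 t61 t80 t100 t63 t83 t102 t86 t95 t104 t148 t147 t366 t272 t159 t178 t176 t211 t165 t168 := by
  delta a_B9 a_R9
  exact normS g168 fun z169 t169 g169 =>
  mulS hε g169 g147 fun z170 t170 g170 =>
  normS g170 fun z171 t171 g171 =>
  mulS hε g176 g148 fun z212 t212 g212 =>
  subS g95 g212 fun z213 t213 g213 =>
  normS g213 fun z214 t214 g214 =>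
  sqrS hε g214 fun z215 t215 g215 =>
  mulS hε g171 g215 fun z216 t216 g216 =>
  smulS hε g216 k7 fun z217 t217 g217 =>
  addS g211 g217 fun z218 t218 g218 =>
  rsubS g178 k2 fun z179 t179 g179 =>
  mulS hε g27 g179 fun z180 t180 g180 =>
  addcS g180 k2 fun z183 t183 g183 =>
  sqrtS hε g183 fun z184 t184 g184 =>
  invS hε g184 fun z219 t219 g219 =>
  mulS hε g176 g184 fun z220 t220 g220 =>
  subS g220 h0 fun z221 t221 g221 =>
  normS g221 fun z222 t222 g222 =>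
  sqrS hε g222 fun z223 t223 g223 =>
  subS g61 g63 fun z66 t66 g66 =>
  normS g66 fun z202 t202 g202 =>
  mulS hε g27 g202 fun z203 t203 g203 =>
  addS g223 g203 fun z224 t224 g224 =>
  normS g224 fun z225 t225 g225 =>
  mulS hε g219 g225 fun z226 t226 g226 =>
  subS g218 g226 fun z227 t227 g227 =>
  rsubS g180 k2 fun z185 t185 g185 =>
  sqrtS hε g185 fun z186 t186 g186 =>
  invS hε g186 fun z228 t228 g228 =>
  mulS hε g176 g186 fun z229 t229 g229 =>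
  subS g229 h0 fun z230 t230 g230 =>
  normS g230 fun z231 t231 g231 =>
  sqrS hε g231 fun z232 t232 g232 =>
  subS g232 g203 fun z233 t233 g233 =>
  normS g233 fun z234 t234 g234 =>
  mulS hε g228 g234 fun z235 t235 g235 =>
  subS g227 g235 fun z236 t236 g236 =>
  normS g236 fun z273 t273 g273 =>
  mulS hε g272 g273 fun z274 t274 g274 =>
  mulS hε g159 g83 fun z172 t172 g172 =>
  a_S10 gs gt hε ps z80 z100 z102 z86 z104 z366 z178 z176 z165 z180 z203 z274 z172 t80 t100 t102 t86 t104 t366 t178 t176 t165 t180 t203 t274 t172 g80 g100 g102 g86 g104 g366 g178 g176 g165 g180 g203 g274 g172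

def a_B8 (gs gt ps : ℕ) (x0 x1 z27 z61 z69 z72 z80 z100 z133 z63 z75 z83 z87 z98 z102 z137 z77 z86 z95 z104 z145 z148 z28 z147 z366 : AF) : Bool :=
  parK gt 10 fun z37 =>
  parK gt 11 fun z38 =>
  mulK z38 x0 fun z155 =>
  addK z37 z155 fun z156 =>
  parK gt 12 fun z39 =>
  mulK z39 x1 fun z157 =>
  addK z156 z157 fun z158 =>
  invK z158 fun z270 =>
  mulK z72 z270 fun z271 =>
  normK z271 fun z272 =>
  normK z133 fun z159 =>
  invK z69 fun z70 =>
  mulK z75 z70 fun z88 =>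
  normK z88 fun z89 =>
  mulK z87 z89 fun z90 =>
  normK z90 fun z91 =>
  mulK z159 z91 fun z160 =>
  normK z160 fun z161 =>
  sqrK z148 fun z178 =>
  rsubK z178 4722367045819598635008 0 fun z181 =>
  sqrtK z181 fun z182 =>
  invK z182 fun z204 =>
  mulK z161 z204 fun z205 =>
  normK z205 fun z206 =>
  normK z158 fun z176 =>
  mulK z176 z182 fun z207 =>
  subK z98 z207 fun z208 =>
  normK z208 fun z209 =>
  sqrK z209 fun z210 =>
  mulK z206 z210 fun z211 =>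
  normK z137 fun z165 =>
  addK x1 z28 fun z162 =>
  normK z162 fun z163 =>
  mulK x1 z163 fun z164 =>
  mulK z165 z164 fun z166 =>
  mulK z77 z70 fun z92 =>
  normK z92 fun z93 =>
  smulK z93 4722366623607133569024 fun z94 =>
  mulK z166 z94 fun z167 =>
  addK z167 z145 fun z168 =>
  a_B9 gs gt ps x0 z27 z61 z80 z100 z63 z83 z102 z86 z95 z104 z148 z147 z366 z272 z159 z178 z176 z211 z165 z168

def a_R8 (gs gt ps : ℕ) (sg v z27 z61 z69 z72 z80 z100 z133 z63 z75 z83 z87 z98 z102 z137 z77 z86 z95 z104 z145 z148 z28 z147 z366 : ℝ) : Prop :=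
  letR (parV gt 10) fun z37 =>
  letR (parV gt 11) fun z38 =>
  letR (z38 * sg) fun z155 =>
  letR (z37 + z155) fun z156 =>
  letR (parV gt 12) fun z39 =>
  letR (z39 * v) fun z157 =>
  letR (z156 + z157) fun z158 =>
  invR z158 fun z270 =>
  letR (z72 * z270) fun z271 =>
  letR z271 fun z272 =>
  letR z133 fun z159 =>
  invR z69 fun z70 =>
  letR (z75 * z70) fun z88 =>
  letR z88 fun z89 =>
  letR (z87 * z89) fun z90 =>
  letR z90 fun z91 =>
  letR (z159 * z91) fun z160 =>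
  letR z160 fun z161 =>
  letR (z148 ^ 2) fun z178 =>
  letR ((2 : ℝ) - z178) fun z181 =>
  letR (√z181) fun z182 =>
  invR z182 fun z204 =>
  letR (z161 * z204) fun z205 =>
  letR z205 fun z206 =>
  letR z158 fun z176 =>
  letR (z176 * z182) fun z207 =>
  letR (z98 - z207) fun z208 =>
  letR z208 fun z209 =>
  letR (z209 ^ 2) fun z210 =>
  letR (z206 * z210) fun z211 =>
  letR z137 fun z165 =>
  letR (v + z28) fun z162 =>
  letR z162 fun z163 =>
  letR (v * z163) fun z164 =>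
  letR (z165 * z164) fun z166 =>
  letR (z77 * z70) fun z92 =>
  letR z92 fun z93 =>
  letR ((1 / 2 : ℝ) * z93) fun z94 =>
  letR (z166 * z94) fun z167 =>
  letR (z167 + z145) fun z168 =>
  a_R9 gs gt ps sg z27 z61 z80 z100 z63 z83 z102 z86 z95 z104 z148 z147 z366 z272 z159 z178 z176 z211 z165 z168

theorem a_S8 {ε : Fin 4 → ℝ} (gs gt : ℕ) (hε : ∀ i, |ε i| ≤ 1) (ps : ℕ) (x0 x1 z27 z61 z69 z72 z80 z100 z133 z63 z75 z83 z87 z98 z102 z137 z77 z86 z95 z104 z145 z148 z28 z147 z366 : AF) (sg v t27 t61 t69 t72 t80 t100 t133 t63 t75 t83 t87 t98 t102 t137 t77 t86 t95 t104 t145 t148 t28 t147 t366 : ℝ)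
    (h0 : Rel ε x0 sg) (h1 : Rel ε x1 v) (g27 : Rel ε z27 t27) (g61 : Rel ε z61 t61) (g69 : Rel ε z69 t69) (g72 : Rel ε z72 t72) (g80 : Rel ε z80 t80) (g100 : Rel ε z100 t100) (g133 : Rel ε z133 t133) (g63 : Rel ε z63 t63) (g75 : Rel ε z75 t75) (g83 : Rel ε z83 t83) (g87 : Rel ε z87 t87) (g98 : Rel ε z98 t98) (g102 : Rel ε z102 t102) (g137 : Rel ε z137 t137) (g77 : Rel ε z77 t77) (g86 : Rel ε z86 t86) (g95 : Rel ε z95 t95) (g104 : Rel ε z104 t104) (g145 : Rel ε z145 t145) (g148 : Rel ε z148 t148) (g28 : Rel ε z28 t28) (g147 : Rel ε z147 t147) (g366 : Rel ε z366 t366) :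
    a_B8 gs gt ps x0 x1 z27 z61 z69 z72 z80 z100 z133 z63 z75 z83 z87 z98 z102 z137 z77 z86 z95 z104 z145 z148 z28 z147 z366 = true → a_R8 gs gt ps sg v t27 t61 t69 t72 t80 t100 t133 t63 t75 t83 t87 t98 t102 t137 t77 t86 t95 t104 t145 t148 t28 t147 t366 := by
  delta a_B8 a_R8
  exact parS fun z37 t37 g37 =>
  parS fun z38 t38 g38 =>
  mulS hε g38 h0 fun z155 t155 g155 =>
  addS g37 g155 fun z156 t156 g156 =>
  parS fun z39 t39 g39 =>
  mulS hε g39 h1 fun z157 t157 g157 =>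
  addS g156 g157 fun z158 t158 g158 =>
  invS hε g158 fun z270 t270 g270 =>
  mulS hε g72 g270 fun z271 t271 g271 =>
  normS g271 fun z272 t272 g272 =>
  normS g133 fun z159 t159 g159 =>
  invS hε g69 fun z70 t70 g70 =>
  mulS hε g75 g70 fun z88 t88 g88 =>
  normS g88 fun z89 t89 g89 =>
  mulS hε g87 g89 fun z90 t90 g90 =>
  normS g90 fun z91 t91 g91 =>
  mulS hε g159 g91 fun z160 t160 g160 =>
  normS g160 fun z161 t161 g161 =>
  sqrS hε g148 fun z178 t178 g178 =>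
  rsubS g178 k8 fun z181 t181 g181 =>
  sqrtS hε g181 fun z182 t182 g182 =>
  invS hε g182 fun z204 t204 g204 =>
  mulS hε g161 g204 fun z205 t205 g205 =>
  normS g205 fun z206 t206 g206 =>
  normS g158 fun z176 t176 g176 =>
  mulS hε g176 g182 fun z207 t207 g207 =>
  subS g98 g207 fun z208 t208 g208 =>
  normS g208 fun z209 t209 g209 =>
  sqrS hε g209 fun z210 t210 g210 =>
  mulS hε g206 g210 fun z211 t211 g211 =>
  normS g137 fun z165 t165 g165 =>
  addS h1 g28 fun z162 t162 g162 =>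
  normS g162 fun z163 t163 g163 =>
  mulS hε h1 g163 fun z164 t164 g164 =>
  mulS hε g165 g164 fun z166 t166 g166 =>
  mulS hε g77 g70 fun z92 t92 g92 =>
  normS g92 fun z93 t93 g93 =>
  smulS hε g93 k9 fun z94 t94 g94 =>
  mulS hε g166 g94 fun z167 t167 g167 =>
  addS g167 g145 fun z168 t168 g168 =>
  a_S9 gs gt hε ps x0 z27 z61 z80 z100 z63 z83 z102 z86 z95 z104 z148 z147 z366 z272 z159 z178 z176 z211 z165 z168 sg t27 t61 t80 t100 t63 t83 t102 t86 t95 t104 t148 t147 t366 t272 t159 t178 t176 t211 t165 t168 h0 g27 g61 g80 g100 g63 g83 g102 g86 g95 g104 g148 g147 g366 g272 g159 g178 g176 g211 g165 g168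

def a_B7 (gs gt ps : ℕ) (x0 x1 x2 z3 z5 z27 z277 z61 z69 z72 z80 z100 z278 z133 z63 z75 z83 z87 z98 z102 z137 z77 z86 z95 z104 z360 z145 z148 z28 z147 z154 z126 z116 : AF) : Bool :=
  normK z116 fun z123 =>
  addK z116 z5 fun z121 =>
  invK z121 fun z122 =>
  mulK z123 z122 fun z124 =>
  normK z124 fun z125 =>
  mulK z126 z125 fun z127 =>
  normK z127 fun z128 =>
  smulK z128 4722367045819598635008 fun z129 =>
  subK z154 z129 fun z344 =>
  normK z344 fun z345 =>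
  mulK x2 z345 fun z346 =>
  addK z346 z129 fun z347 =>
  normK z347 fun z348 =>
  mulK z348 z72 fun z349 =>
  normK z349 fun z350 =>
  logK z3 fun z351 =>
  addcK z351 4722366764344621924352 0 fun z352 =>
  mulK z95 z352 fun z353 =>
  subK z3 z353 fun z354 =>
  normK z354 fun z361 =>
  rsubK z278 4722367045819598635008 0 fun z355 =>
  invK z355 fun z356 =>
  mulK z361 z356 fun z362 =>
  mulK z350 z362 fun z363 =>
  subK z360 z363 fun z364 =>
  normK z364 fun z365 =>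
  mulK z277 z365 fun z366 =>
  a_B8 gs gt ps x0 x1 z27 z61 z69 z72 z80 z100 z133 z63 z75 z83 z87 z98 z102 z137 z77 z86 z95 z104 z145 z148 z28 z147 z366

def a_R7 (gs gt ps : ℕ) (sg v th z3 z5 z27 z277 z61 z69 z72 z80 z100 z278 z133 z63 z75 z83 z87 z98 z102 z137 z77 z86 z95 z104 z360 z145 z148 z28 z147 z154 z126 z116 : ℝ) : Prop :=
  letR z116 fun z123 =>
  letR (z116 + z5) fun z121 =>
  invR z121 fun z122 =>
  letR (z123 * z122) fun z124 =>
  letR z124 fun z125 =>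
  letR (z126 * z125) fun z127 =>
  letR z127 fun z128 =>
  letR ((2 : ℝ) * z128) fun z129 =>
  letR (z154 - z129) fun z344 =>
  letR z344 fun z345 =>
  letR (th * z345) fun z346 =>
  letR (z346 + z129) fun z347 =>
  letR z347 fun z348 =>
  letR (z348 * z72) fun z349 =>
  letR z349 fun z350 =>
  logR z3 fun z351 =>
  letR (z351 + (1 : ℝ)) fun z352 =>
  letR (z95 * z352) fun z353 =>
  letR (z3 - z353) fun z354 =>
  letR z354 fun z361 =>
  letR ((2 : ℝ) - z278) fun z355 =>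
  invR z355 fun z356 =>
  letR (z361 * z356) fun z362 =>
  letR (z350 * z362) fun z363 =>
  letR (z360 - z363) fun z364 =>
  letR z364 fun z365 =>
  letR (z277 * z365) fun z366 =>
  a_R8 gs gt ps sg v z27 z61 z69 z72 z80 z100 z133 z63 z75 z83 z87 z98 z102 z137 z77 z86 z95 z104 z145 z148 z28 z147 z366

theorem a_S7 {ε : Fin 4 → ℝ} (gs gt : ℕ) (hε : ∀ i, |ε i| ≤ 1) (ps : ℕ) (x0 x1 x2 z3 z5 z27 z277 z61 z69 z72 z80 z100 z278 z133 z63 z75 z83 z87 z98 z102 z137 z77 z86 z95 z104 z360 z145 z148 z28 z147 z154 z126 z116 : AF) (sg v th t3 t5 t27 t277 t61 t69 t72 t80 t100 t278 t133 t63 t75 t83 t87 t98 t102 t137 t77 t86 t95 t104 t360 t145 t148 t28 t147 t154 t126 t116 : ℝ)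
    (h0 : Rel ε x0 sg) (h1 : Rel ε x1 v) (h2 : Rel ε x2 th) (g3 : Rel ε z3 t3) (g5 : Rel ε z5 t5) (g27 : Rel ε z27 t27) (g277 : Rel ε z277 t277) (g61 : Rel ε z61 t61) (g69 : Rel ε z69 t69) (g72 : Rel ε z72 t72) (g80 : Rel ε z80 t80) (g100 : Rel ε z100 t100) (g278 : Rel ε z278 t278) (g133 : Rel ε z133 t133) (g63 : Rel ε z63 t63) (g75 : Rel ε z75 t75) (g83 : Rel ε z83 t83) (g87 : Rel ε z87 t87) (g98 : Rel ε z98 t98) (g102 : Rel ε z102 t102) (g137 : Rel ε z137 t137) (g77 : Rel ε z77 t77) (g86 : Rel ε z86 t86) (g95 : Rel ε z95 t95) (g104 : Rel ε z104 t104) (g360 : Rel ε z360 t360) (g145 : Rel ε z145 t145) (g148 : Rel ε z148 t148) (g28 : Rel ε z28 t28) (g147 : Rel ε z147 t147) (g154 : Rel ε z154 t154) (g126 : Rel ε z126 t126) (g116 : Rel ε z116 t116) :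
    a_B7 gs gt ps x0 x1 x2 z3 z5 z27 z277 z61 z69 z72 z80 z100 z278 z133 z63 z75 z83 z87 z98 z102 z137 z77 z86 z95 z104 z360 z145 z148 z28 z147 z154 z126 z116 = true → a_R7 gs gt ps sg v th t3 t5 t27 t277 t61 t69 t72 t80 t100 t278 t133 t63 t75 t83 t87 t98 t102 t137 t77 t86 t95 t104 t360 t145 t148 t28 t147 t154 t126 t116 := by
  delta a_B7 a_R7
  exact normS g116 fun z123 t123 g123 =>
  addS g116 g5 fun z121 t121 g121 =>
  invS hε g121 fun z122 t122 g122 =>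
  mulS hε g123 g122 fun z124 t124 g124 =>
  normS g124 fun z125 t125 g125 =>
  mulS hε g126 g125 fun z127 t127 g127 =>
  normS g127 fun z128 t128 g128 =>
  smulS hε g128 k7 fun z129 t129 g129 =>
  subS g154 g129 fun z344 t344 g344 =>
  normS g344 fun z345 t345 g345 =>
  mulS hε h2 g345 fun z346 t346 g346 =>
  addS g346 g129 fun z347 t347 g347 =>
  normS g347 fun z348 t348 g348 =>
  mulS hε g348 g72 fun z349 t349 g349 =>
  normS g349 fun z350 t350 g350 =>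
  logS hε g3 fun z351 t351 g351 =>
  addcS g351 k2 fun z352 t352 g352 =>
  mulS hε g95 g352 fun z353 t353 g353 =>
  subS g3 g353 fun z354 t354 g354 =>
  normS g354 fun z361 t361 g361 =>
  rsubS g278 k8 fun z355 t355 g355 =>
  invS hε g355 fun z356 t356 g356 =>
  mulS hε g361 g356 fun z362 t362 g362 =>
  mulS hε g350 g362 fun z363 t363 g363 =>
  subS g360 g363 fun z364 t364 g364 =>
  normS g364 fun z365 t365 g365 =>
  mulS hε g277 g365 fun z366 t366 g366 =>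
  a_S8 gs gt hε ps x0 x1 z27 z61 z69 z72 z80 z100 z133 z63 z75 z83 z87 z98 z102 z137 z77 z86 z95 z104 z145 z148 z28 z147 z366 sg v t27 t61 t69 t72 t80 t100 t133 t63 t75 t83 t87 t98 t102 t137 t77 t86 t95 t104 t145 t148 t28 t147 t366 h0 h1 g27 g61 g69 g72 g80 g100 g133 g63 g75 g83 g87 g98 g102 g137 g77 g86 g95 g104 g145 g148 g28 g147 g366

def a_B6 (gs gt ps : ℕ) (x0 x1 x2 z3 z5 z17 z18 z19 z27 z277 z61 z69 z72 z80 z100 z278 z281 z133 z63 z75 z83 z87 z98 z102 z137 z77 z86 z95 z104 z343 : AF) : Bool :=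
  normK z343 fun z359 =>
  addcK z281 4722366764344621924352 0 fun z357 =>
  invK z357 fun z358 =>
  mulK z359 z358 fun z360 =>
  parK gt 16 fun z43 =>
  parK gt 17 fun z44 =>
  mulK z44 x0 fun z142 =>
  addK z43 z142 fun z143 =>
  parK gt 18 fun z45 =>
  mulK z45 x1 fun z144 =>
  addK z143 z144 fun z145 =>
  normK z145 fun z151 =>
  parK gt 13 fun z40 =>
  parK gt 14 fun z41 =>
  mulK z41 x0 fun z138 =>
  addK z40 z138 fun z139 =>
  parK gt 15 fun z42 =>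
  mulK z42 x1 fun z140 =>
  addK z139 z140 fun z141 =>
  normK z141 fun z148 =>
  parK gt 1 fun z28 =>
  addK z141 z28 fun z146 =>
  invK z146 fun z147 =>
  mulK z148 z147 fun z149 =>
  normK z149 fun z150 =>
  mulK z151 z150 fun z152 =>
  normK z152 fun z153 =>
  smulK z153 4722367045819598635008 fun z154 =>
  parK gs 16 fun z20 =>
  parK gs 17 fun z21 =>
  mulK z21 x0 fun z117 =>
  addK z20 z117 fun z118 =>
  parK gs 18 fun z22 =>
  mulK z22 x1 fun z119 =>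
  addK z118 z119 fun z120 =>
  normK z120 fun z126 =>
  mulK z18 x0 fun z113 =>
  addK z17 z113 fun z114 =>
  mulK z19 x1 fun z115 =>
  addK z114 z115 fun z116 =>
  a_B7 gs gt ps x0 x1 x2 z3 z5 z27 z277 z61 z69 z72 z80 z100 z278 z133 z63 z75 z83 z87 z98 z102 z137 z77 z86 z95 z104 z360 z145 z148 z28 z147 z154 z126 z116

def a_R6 (gs gt ps : ℕ) (sg v th z3 z5 z17 z18 z19 z27 z277 z61 z69 z72 z80 z100 z278 z281 z133 z63 z75 z83 z87 z98 z102 z137 z77 z86 z95 z104 z343 : ℝ) : Prop :=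
  letR z343 fun z359 =>
  letR (z281 + (1 : ℝ)) fun z357 =>
  invR z357 fun z358 =>
  letR (z359 * z358) fun z360 =>
  letR (parV gt 16) fun z43 =>
  letR (parV gt 17) fun z44 =>
  letR (z44 * sg) fun z142 =>
  letR (z43 + z142) fun z143 =>
  letR (parV gt 18) fun z45 =>
  letR (z45 * v) fun z144 =>
  letR (z143 + z144) fun z145 =>
  letR z145 fun z151 =>
  letR (parV gt 13) fun z40 =>
  letR (parV gt 14) fun z41 =>
  letR (z41 * sg) fun z138 =>
  letR (z40 + z138) fun z139 =>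
  letR (parV gt 15) fun z42 =>
  letR (z42 * v) fun z140 =>
  letR (z139 + z140) fun z141 =>
  letR z141 fun z148 =>
  letR (parV gt 1) fun z28 =>
  letR (z141 + z28) fun z146 =>
  invR z146 fun z147 =>
  letR (z148 * z147) fun z149 =>
  letR z149 fun z150 =>
  letR (z151 * z150) fun z152 =>
  letR z152 fun z153 =>
  letR ((2 : ℝ) * z153) fun z154 =>
  letR (parV gs 16) fun z20 =>
  letR (parV gs 17) fun z21 =>
  letR (z21 * sg) fun z117 =>
  letR (z20 + z117) fun z118 =>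
  letR (parV gs 18) fun z22 =>
  letR (z22 * v) fun z119 =>
  letR (z118 + z119) fun z120 =>
  letR z120 fun z126 =>
  letR (z18 * sg) fun z113 =>
  letR (z17 + z113) fun z114 =>
  letR (z19 * v) fun z115 =>
  letR (z114 + z115) fun z116 =>
  a_R7 gs gt ps sg v th z3 z5 z27 z277 z61 z69 z72 z80 z100 z278 z133 z63 z75 z83 z87 z98 z102 z137 z77 z86 z95 z104 z360 z145 z148 z28 z147 z154 z126 z116

theorem a_S6 {ε : Fin 4 → ℝ} (gs gt : ℕ) (hε : ∀ i, |ε i| ≤ 1) (ps : ℕ) (x0 x1 x2 z3 z5 z17 z18 z19 z27 z277 z61 z69 z72 z80 z100 z278 z281 z133 z63 z75 z83 z87 z98 z102 z137 z77 z86 z95 z104 z343 : AF) (sg v th t3 t5 t17 t18 t19 t27 t277 t61 t69 t72 t80 t100 t278 t281 t133 t63 t75 t83 t87 t98 t102 t137 t77 t86 t95 t104 t343 : ℝ)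
    (h0 : Rel ε x0 sg) (h1 : Rel ε x1 v) (h2 : Rel ε x2 th) (g3 : Rel ε z3 t3) (g5 : Rel ε z5 t5) (g17 : Rel ε z17 t17) (g18 : Rel ε z18 t18) (g19 : Rel ε z19 t19) (g27 : Rel ε z27 t27) (g277 : Rel ε z277 t277) (g61 : Rel ε z61 t61) (g69 : Rel ε z69 t69) (g72 : Rel ε z72 t72) (g80 : Rel ε z80 t80) (g100 : Rel ε z100 t100) (g278 : Rel ε z278 t278) (g281 : Rel ε z281 t281) (g133 : Rel ε z133 t133) (g63 : Rel ε z63 t63) (g75 : Rel ε z75 t75) (g83 : Rel ε z83 t83) (g87 : Rel ε z87 t87) (g98 : Rel ε z98 t98) (g102 : Rel ε z102 t102) (g137 : Rel ε z137 t137) (g77 : Rel ε z77 t77) (g86 : Rel ε z86 t86) (g95 : Rel ε z95 t95) (g104 : Rel ε z104 t104) (g343 : Rel ε z343 t343) :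
    a_B6 gs gt ps x0 x1 x2 z3 z5 z17 z18 z19 z27 z277 z61 z69 z72 z80 z100 z278 z281 z133 z63 z75 z83 z87 z98 z102 z137 z77 z86 z95 z104 z343 = true → a_R6 gs gt ps sg v th t3 t5 t17 t18 t19 t27 t277 t61 t69 t72 t80 t100 t278 t281 t133 t63 t75 t83 t87 t98 t102 t137 t77 t86 t95 t104 t343 := by
  delta a_B6 a_R6
  exact normS g343 fun z359 t359 g359 =>
  addcS g281 k2 fun z357 t357 g357 =>
  invS hε g357 fun z358 t358 g358 =>
  mulS hε g359 g358 fun z360 t360 g360 =>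
  parS fun z43 t43 g43 =>
  parS fun z44 t44 g44 =>
  mulS hε g44 h0 fun z142 t142 g142 =>
  addS g43 g142 fun z143 t143 g143 =>
  parS fun z45 t45 g45 =>
  mulS hε g45 h1 fun z144 t144 g144 =>
  addS g143 g144 fun z145 t145 g145 =>
  normS g145 fun z151 t151 g151 =>
  parS fun z40 t40 g40 =>
  parS fun z41 t41 g41 =>
  mulS hε g41 h0 fun z138 t138 g138 =>
  addS g40 g138 fun z139 t139 g139 =>
  parS fun z42 t42 g42 =>
  mulS hε g42 h1 fun z140 t140 g140 =>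
  addS g139 g140 fun z141 t141 g141 =>
  normS g141 fun z148 t148 g148 =>
  parS fun z28 t28 g28 =>
  addS g141 g28 fun z146 t146 g146 =>
  invS hε g146 fun z147 t147 g147 =>
  mulS hε g148 g147 fun z149 t149 g149 =>
  normS g149 fun z150 t150 g150 =>
  mulS hε g151 g150 fun z152 t152 g152 =>
  normS g152 fun z153 t153 g153 =>
  smulS hε g153 k7 fun z154 t154 g154 =>
  parS fun z20 t20 g20 =>
  parS fun z21 t21 g21 =>
  mulS hε g21 h0 fun z117 t117 g117 =>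
  addS g20 g117 fun z118 t118 g118 =>
  parS fun z22 t22 g22 =>
  mulS hε g22 h1 fun z119 t119 g119 =>
  addS g118 g119 fun z120 t120 g120 =>
  normS g120 fun z126 t126 g126 =>
  mulS hε g18 h0 fun z113 t113 g113 =>
  addS g17 g113 fun z114 t114 g114 =>
  mulS hε g19 h1 fun z115 t115 g115 =>
  addS g114 g115 fun z116 t116 g116 =>
  a_S7 gs gt hε ps x0 x1 x2 z3 z5 z27 z277 z61 z69 z72 z80 z100 z278 z133 z63 z75 z83 z87 z98 z102 z137 z77 z86 z95 z104 z360 z145 z148 z28 z147 z154 z126 z116 sg v th t3 t5 t27 t277 t61 t69 t72 t80 t100 t278 t133 t63 t75 t83 t87 t98 t102 t137 t77 t86 t95 t104 t360 t145 t148 t28 t147 t154 t126 t116 h0 h1 h2 g3 g5 g27 g277 g61 g69 g72 g80 g100 g278 g133 g63 g75 g83 g87 g98 g102 g137 g77 g86 g95 g104 g360 g145 g148 g28 g147 g154 g126 g116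

def a_B5 (gs gt ps : ℕ) (x0 x1 x2 z3 z5 z17 z18 z19 z27 z277 z61 z69 z72 z80 z100 z278 z281 z282 z133 z63 z75 z83 z87 z98 z102 z336 z137 : AF) : Bool :=
  parK gs 7 fun z11 =>
  parK gs 8 fun z12 =>
  mulK z12 x0 fun z109 =>
  addK z11 z109 fun z110 =>
  parK gs 9 fun z13 =>
  mulK z13 x1 fun z111 =>
  addK z110 z111 fun z112 =>
  subK z137 z112 fun z337 =>
  normK z337 fun z338 =>
  mulK x2 z338 fun z339 =>
  addK z339 z112 fun z340 =>
  normK z340 fun z341 =>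
  mulK (cst 4722366736197124253286 1) z63 fun z76 =>
  rsubK z76 4722367017672100963942 1 fun z77 =>
  mulK z63 z77 fun z313 =>
  normK z313 fun z314 =>
  addcK z76 4722366511017142884761 1 fun z84 =>
  mulK z63 z84 fun z85 =>
  rsubK z85 4722366764344621924352 0 fun z86 =>
  mulK z314 z86 fun z318 =>
  normK z318 fun z319 =>
  mulK x0 x1 fun z95 =>
  mulK z314 z95 fun z315 =>
  rsubK z63 4722366764344621924352 0 fun z103 =>
  sqrtK z103 fun z104 =>
  mulK z86 z104 fun z316 =>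
  addK z315 z316 fun z317 =>
  normK z317 fun z320 =>
  sqrK z320 fun z321 =>
  mulK z319 z282 fun z322 =>
  subK z321 z322 fun z323 =>
  sqrtK z323 fun z324 =>
  addK z317 z324 fun z325 =>
  invK z325 fun z326 =>
  mulK z319 z326 fun z327 =>
  normK z327 fun z328 =>
  mulK z341 z328 fun z342 =>
  subK z336 z342 fun z343 =>
  a_B6 gs gt ps x0 x1 x2 z3 z5 z17 z18 z19 z27 z277 z61 z69 z72 z80 z100 z278 z281 z133 z63 z75 z83 z87 z98 z102 z137 z77 z86 z95 z104 z343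

def a_R5 (gs gt ps : ℕ) (sg v th z3 z5 z17 z18 z19 z27 z277 z61 z69 z72 z80 z100 z278 z281 z282 z133 z63 z75 z83 z87 z98 z102 z336 z137 : ℝ) : Prop :=
  letR (parV gs 7) fun z11 =>
  letR (parV gs 8) fun z12 =>
  letR (z12 * sg) fun z109 =>
  letR (z11 + z109) fun z110 =>
  letR (parV gs 9) fun z13 =>
  letR (z13 * v) fun z111 =>
  letR (z110 + z111) fun z112 =>
  letR (z137 - z112) fun z337 =>
  letR z337 fun z338 =>
  letR (th * z338) fun z339 =>
  letR (z339 + z112) fun z340 =>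
  letR z340 fun z341 =>
  letR ((9 / 10 : ℝ) * z63) fun z76 =>
  letR ((19 / 10 : ℝ) - z76) fun z77 =>
  letR (z63 * z77) fun z313 =>
  letR z313 fun z314 =>
  letR (z76 + (1 / 10 : ℝ)) fun z84 =>
  letR (z63 * z84) fun z85 =>
  letR ((1 : ℝ) - z85) fun z86 =>
  letR (z314 * z86) fun z318 =>
  letR z318 fun z319 =>
  letR (sg * v) fun z95 =>
  letR (z314 * z95) fun z315 =>
  letR ((1 : ℝ) - z63) fun z103 =>
  letR (√z103) fun z104 =>
  letR (z86 * z104) fun z316 =>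
  letR (z315 + z316) fun z317 =>
  letR z317 fun z320 =>
  letR (z320 ^ 2) fun z321 =>
  letR (z319 * z282) fun z322 =>
  letR (z321 - z322) fun z323 =>
  letR (√z323) fun z324 =>
  letR (z317 + z324) fun z325 =>
  invR z325 fun z326 =>
  letR (z319 * z326) fun z327 =>
  letR z327 fun z328 =>
  letR (z341 * z328) fun z342 =>
  letR (z336 - z342) fun z343 =>
  a_R6 gs gt ps sg v th z3 z5 z17 z18 z19 z27 z277 z61 z69 z72 z80 z100 z278 z281 z133 z63 z75 z83 z87 z98 z102 z137 z77 z86 z95 z104 z343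

theorem a_S5 {ε : Fin 4 → ℝ} (gs gt : ℕ) (hε : ∀ i, |ε i| ≤ 1) (ps : ℕ) (x0 x1 x2 z3 z5 z17 z18 z19 z27 z277 z61 z69 z72 z80 z100 z278 z281 z282 z133 z63 z75 z83 z87 z98 z102 z336 z137 : AF) (sg v th t3 t5 t17 t18 t19 t27 t277 t61 t69 t72 t80 t100 t278 t281 t282 t133 t63 t75 t83 t87 t98 t102 t336 t137 : ℝ)
    (h0 : Rel ε x0 sg) (h1 : Rel ε x1 v) (h2 : Rel ε x2 th) (g3 : Rel ε z3 t3) (g5 : Rel ε z5 t5) (g17 : Rel ε z17 t17) (g18 : Rel ε z18 t18) (g19 : Rel ε z19 t19) (g27 : Rel ε z27 t27) (g277 : Rel ε z277 t277) (g61 : Rel ε z61 t61) (g69 : Rel ε z69 t69) (g72 : Rel ε z72 t72) (g80 : Rel ε z80 t80) (g100 : Rel ε z100 t100) (g278 : Rel ε z278 t278) (g281 : Rel ε z281 t281) (g282 : Rel ε z282 t282) (g133 : Rel ε z133 t133) (g63 : Rel ε z63 t63) (g75 : Rel ε z75 t75) (g83 : Rel ε z83 t83) (g87 : Rel ε z87 t87) (g98 : Rel ε z98 t98) (g102 : Rel ε z102 t102) (g336 : Rel ε z336 t336) (g137 : Rel ε z137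 t137) :
    a_B5 gs gt ps x0 x1 x2 z3 z5 z17 z18 z19 z27 z277 z61 z69 z72 z80 z100 z278 z281 z282 z133 z63 z75 z83 z87 z98 z102 z336 z137 = true → a_R5 gs gt ps sg v th t3 t5 t17 t18 t19 t27 t277 t61 t69 t72 t80 t100 t278 t281 t282 t133 t63 t75 t83 t87 t98 t102 t336 t137 := by
  delta a_B5 a_R5
  exact parS fun z11 t11 g11 =>
  parS fun z12 t12 g12 =>
  mulS hε g12 h0 fun z109 t109 g109 =>
  addS g11 g109 fun z110 t110 g110 =>
  parS fun z13 t13 g13 =>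
  mulS hε g13 h1 fun z111 t111 g111 =>
  addS g110 g111 fun z112 t112 g112 =>
  subS g137 g112 fun z337 t337 g337 =>
  normS g337 fun z338 t338 g338 =>
  mulS hε h2 g338 fun z339 t339 g339 =>
  addS g339 g112 fun z340 t340 g340 =>
  normS g340 fun z341 t341 g341 =>
  mulS hε (cst_rel k4) g63 fun z76 t76 g76 =>
  rsubS g76 k5 fun z77 t77 g77 =>
  mulS hε g63 g77 fun z313 t313 g313 =>
  normS g313 fun z314 t314 g314 =>
  addcS g76 k6 fun z84 t84 g84 =>
  mulS hε g63 g84 fun z85 t85 g85 =>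
  rsubS g85 k2 fun z86 t86 g86 =>
  mulS hε g314 g86 fun z318 t318 g318 =>
  normS g318 fun z319 t319 g319 =>
  mulS hε h0 h1 fun z95 t95 g95 =>
  mulS hε g314 g95 fun z315 t315 g315 =>
  rsubS g63 k2 fun z103 t103 g103 =>
  sqrtS hε g103 fun z104 t104 g104 =>
  mulS hε g86 g104 fun z316 t316 g316 =>
  addS g315 g316 fun z317 t317 g317 =>
  normS g317 fun z320 t320 g320 =>
  sqrS hε g320 fun z321 t321 g321 =>
  mulS hε g319 g282 fun z322 t322 g322 =>
  subS g321 g322 fun z323 t323 g323 =>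
  sqrtS hε g323 fun z324 t324 g324 =>
  addS g317 g324 fun z325 t325 g325 =>
  invS hε g325 fun z326 t326 g326 =>
  mulS hε g319 g326 fun z327 t327 g327 =>
  normS g327 fun z328 t328 g328 =>
  mulS hε g341 g328 fun z342 t342 g342 =>
  subS g336 g342 fun z343 t343 g343 =>
  a_S6 gs gt hε ps x0 x1 x2 z3 z5 z17 z18 z19 z27 z277 z61 z69 z72 z80 z100 z278 z281 z133 z63 z75 z83 z87 z98 z102 z137 z77 z86 z95 z104 z343 sg v th t3 t5 t17 t18 t19 t27 t277 t61 t69 t72 t80 t100 t278 t281 t133 t63 t75 t83 t87 t98 t102 t137 t77 t86 t95 t104 t343 h0 h1 h2 g3 g5 g17 g18 g19 g27 g277 g61 g69 g72 g80 g100 g278 g281 g133 g63 g75 g83 g87 g98 g102 g137 g77 g86 g95 g104 g343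

def a_B4 (gs gt ps : ℕ) (x0 x1 x2 z3 z5 z17 z18 z19 z27 z277 z61 z69 z72 z80 z100 z278 z281 z282 z329 z133 z334 z62 z63 z65 z75 z298 z83 : AF) : Bool :=
  mulK z298 z83 fun z302 =>
  normK z302 fun z303 =>
  rsubK z62 4722367045819598635008 0 fun z87 =>
  sqrtK z87 fun z96 =>
  mulK x0 z96 fun z97 =>
  normK z97 fun z98 =>
  mulK z298 z98 fun z299 =>
  rsubK z65 4722366764344621924352 0 fun z101 =>
  sqrtK z101 fun z102 =>
  mulK z83 z102 fun z300 =>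
  addK z299 z300 fun z301 =>
  normK z301 fun z304 =>
  sqrK z304 fun z305 =>
  mulK z303 z282 fun z306 =>
  subK z305 z306 fun z307 =>
  sqrtK z307 fun z308 =>
  addK z301 z308 fun z309 =>
  invK z309 fun z310 =>
  mulK z303 z310 fun z311 =>
  normK z311 fun z312 =>
  mulK z334 z312 fun z335 =>
  subK z329 z335 fun z336 =>
  parK gt 7 fun z34 =>
  parK gt 8 fun z35 =>
  mulK z35 x0 fun z134 =>
  addK z34 z134 fun z135 =>
  parK gt 9 fun z36 =>
  mulK z36 x1 fun z136 =>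
  addK z135 z136 fun z137 =>
  a_B5 gs gt ps x0 x1 x2 z3 z5 z17 z18 z19 z27 z277 z61 z69 z72 z80 z100 z278 z281 z282 z133 z63 z75 z83 z87 z98 z102 z336 z137

def a_R4 (gs gt ps : ℕ) (sg v th z3 z5 z17 z18 z19 z27 z277 z61 z69 z72 z80 z100 z278 z281 z282 z329 z133 z334 z62 z63 z65 z75 z298 z83 : ℝ) : Prop :=
  letR (z298 * z83) fun z302 =>
  letR z302 fun z303 =>
  letR ((2 : ℝ) - z62) fun z87 =>
  letR (√z87) fun z96 =>
  letR (sg * z96) fun z97 =>
  letR z97 fun z98 =>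
  letR (z298 * z98) fun z299 =>
  letR ((1 : ℝ) - z65) fun z101 =>
  letR (√z101) fun z102 =>
  letR (z83 * z102) fun z300 =>
  letR (z299 + z300) fun z301 =>
  letR z301 fun z304 =>
  letR (z304 ^ 2) fun z305 =>
  letR (z303 * z282) fun z306 =>
  letR (z305 - z306) fun z307 =>
  letR (√z307) fun z308 =>
  letR (z301 + z308) fun z309 =>
  invR z309 fun z310 =>
  letR (z303 * z310) fun z311 =>
  letR z311 fun z312 =>
  letR (z334 * z312) fun z335 =>
  letR (z329 - z335) fun z336 =>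
  letR (parV gt 7) fun z34 =>
  letR (parV gt 8) fun z35 =>
  letR (z35 * sg) fun z134 =>
  letR (z34 + z134) fun z135 =>
  letR (parV gt 9) fun z36 =>
  letR (z36 * v) fun z136 =>
  letR (z135 + z136) fun z137 =>
  a_R5 gs gt ps sg v th z3 z5 z17 z18 z19 z27 z277 z61 z69 z72 z80 z100 z278 z281 z282 z133 z63 z75 z83 z87 z98 z102 z336 z137

theorem a_S4 {ε : Fin 4 → ℝ} (gs gt : ℕ) (hε : ∀ i, |ε i| ≤ 1) (ps : ℕ) (x0 x1 x2 z3 z5 z17 z18 z19 z27 z277 z61 z69 z72 z80 z100 z278 z281 z282 z329 z133 z334 z62 z63 z65 z75 z298 z83 : AF) (sg v th t3 t5 t17 t18 t19 t27 t277 t61 t69 t72 t80 t100 t278 t281 t282 t329 t133 t334 t62 t63 t65 t75 t298 t83 : ℝ)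
    (h0 : Rel ε x0 sg) (h1 : Rel ε x1 v) (h2 : Rel ε x2 th) (g3 : Rel ε z3 t3) (g5 : Rel ε z5 t5) (g17 : Rel ε z17 t17) (g18 : Rel ε z18 t18) (g19 : Rel ε z19 t19) (g27 : Rel ε z27 t27) (g277 : Rel ε z277 t277) (g61 : Rel ε z61 t61) (g69 : Rel ε z69 t69) (g72 : Rel ε z72 t72) (g80 : Rel ε z80 t80) (g100 : Rel ε z100 t100) (g278 : Rel ε z278 t278) (g281 : Rel ε z281 t281) (g282 : Rel ε z282 t282) (g329 : Rel ε z329 t329) (g133 : Rel ε z133 t133) (g334 : Rel ε z334 t334) (g62 : Rel ε z62 t62) (g63 : Rel ε z63 t63) (g65 : Rel ε z65 t65) (g75 : Rel ε z75 t75) (g298 : Rel ε z298 t298) (g83 : Rel ε z83 t83) :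
    a_B4 gs gt ps x0 x1 x2 z3 z5 z17 z18 z19 z27 z277 z61 z69 z72 z80 z100 z278 z281 z282 z329 z133 z334 z62 z63 z65 z75 z298 z83 = true → a_R4 gs gt ps sg v th t3 t5 t17 t18 t19 t27 t277 t61 t69 t72 t80 t100 t278 t281 t282 t329 t133 t334 t62 t63 t65 t75 t298 t83 := by
  delta a_B4 a_R4
  exact mulS hε g298 g83 fun z302 t302 g302 =>
  normS g302 fun z303 t303 g303 =>
  rsubS g62 k8 fun z87 t87 g87 =>
  sqrtS hε g87 fun z96 t96 g96 =>
  mulS hε h0 g96 fun z97 t97 g97 =>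
  normS g97 fun z98 t98 g98 =>
  mulS hε g298 g98 fun z299 t299 g299 =>
  rsubS g65 k2 fun z101 t101 g101 =>
  sqrtS hε g101 fun z102 t102 g102 =>
  mulS hε g83 g102 fun z300 t300 g300 =>
  addS g299 g300 fun z301 t301 g301 =>
  normS g301 fun z304 t304 g304 =>
  sqrS hε g304 fun z305 t305 g305 =>
  mulS hε g303 g282 fun z306 t306 g306 =>
  subS g305 g306 fun z307 t307 g307 =>
  sqrtS hε g307 fun z308 t308 g308 =>
  addS g301 g308 fun z309 t309 g309 =>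
  invS hε g309 fun z310 t310 g310 =>
  mulS hε g303 g310 fun z311 t311 g311 =>
  normS g311 fun z312 t312 g312 =>
  mulS hε g334 g312 fun z335 t335 g335 =>
  subS g329 g335 fun z336 t336 g336 =>
  parS fun z34 t34 g34 =>
  parS fun z35 t35 g35 =>
  mulS hε g35 h0 fun z134 t134 g134 =>
  addS g34 g134 fun z135 t135 g135 =>
  parS fun z36 t36 g36 =>
  mulS hε g36 h1 fun z136 t136 g136 =>
  addS g135 g136 fun z137 t137 g137 =>
  a_S5 gs gt hε ps x0 x1 x2 z3 z5 z17 z18 z19 z27 z277 z61 z69 z72 z80 z100 z278 z281 z282 z133 z63 z75 z83 z87 z98 z102 z336 z137 sg v th t3 t5 t17 t18 t19 t27 t277 t61 t69 t72 t80 t100 t278 t281 t282 t133 t63 t75 t83 t87 t98 t102 t336 t137 h0 h1 h2 g3 g5 g17 g18 g19 g27 g277 g61 g69 g72 g80 g100 g278 g281 g282 g133 g63 g75 g83 g87 g98 g102 g336 g137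

def a_B3 (gs gt ps : ℕ) (x0 x1 x2 z3 z5 z17 z18 z19 z27 z277 z61 z69 z72 z80 z100 z278 z281 z282 z329 z133 : AF) : Bool :=
  parK gs 4 fun z8 =>
  parK gs 5 fun z9 =>
  mulK z9 x0 fun z105 =>
  addK z8 z105 fun z106 =>
  parK gs 6 fun z10 =>
  mulK z10 x1 fun z107 =>
  addK z106 z107 fun z108 =>
  subK z133 z108 fun z330 =>
  normK z330 fun z331 =>
  mulK x2 z331 fun z332 =>
  addK z332 z108 fun z333 =>
  normK z333 fun z334 =>
  smulK z61 4722367045819598635008 fun z64 =>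
  sqrK x1 fun z62 =>
  mulK z61 z62 fun z63 =>
  subK z64 z63 fun z65 =>
  normK z65 fun z73 =>
  mulK (cst 4722366736197124253286 1) z73 fun z74 =>
  rsubK z74 4722367017672100963942 1 fun z75 =>
  mulK z73 z75 fun z297 =>
  normK z297 fun z298 =>
  addcK z74 4722366511017142884761 1 fun z81 =>
  mulK z73 z81 fun z82 =>
  rsubK z82 4722366764344621924352 0 fun z83 =>
  a_B4 gs gt ps x0 x1 x2 z3 z5 z17 z18 z19 z27 z277 z61 z69 z72 z80 z100 z278 z281 z282 z329 z133 z334 z62 z63 z65 z75 z298 z83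

def a_R3 (gs gt ps : ℕ) (sg v th z3 z5 z17 z18 z19 z27 z277 z61 z69 z72 z80 z100 z278 z281 z282 z329 z133 : ℝ) : Prop :=
  letR (parV gs 4) fun z8 =>
  letR (parV gs 5) fun z9 =>
  letR (z9 * sg) fun z105 =>
  letR (z8 + z105) fun z106 =>
  letR (parV gs 6) fun z10 =>
  letR (z10 * v) fun z107 =>
  letR (z106 + z107) fun z108 =>
  letR (z133 - z108) fun z330 =>
  letR z330 fun z331 =>
  letR (th * z331) fun z332 =>
  letR (z332 + z108) fun z333 =>
  letR z333 fun z334 =>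
  letR ((2 : ℝ) * z61) fun z64 =>
  letR (v ^ 2) fun z62 =>
  letR (z61 * z62) fun z63 =>
  letR (z64 - z63) fun z65 =>
  letR z65 fun z73 =>
  letR ((9 / 10 : ℝ) * z73) fun z74 =>
  letR ((19 / 10 : ℝ) - z74) fun z75 =>
  letR (z73 * z75) fun z297 =>
  letR z297 fun z298 =>
  letR (z74 + (1 / 10 : ℝ)) fun z81 =>
  letR (z73 * z81) fun z82 =>
  letR ((1 : ℝ) - z82) fun z83 =>
  a_R4 gs gt ps sg v th z3 z5 z17 z18 z19 z27 z277 z61 z69 z72 z80 z100 z278 z281 z282 z329 z133 z334 z62 z63 z65 z75 z298 z83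

theorem a_S3 {ε : Fin 4 → ℝ} (gs gt : ℕ) (hε : ∀ i, |ε i| ≤ 1) (ps : ℕ) (x0 x1 x2 z3 z5 z17 z18 z19 z27 z277 z61 z69 z72 z80 z100 z278 z281 z282 z329 z133 : AF) (sg v th t3 t5 t17 t18 t19 t27 t277 t61 t69 t72 t80 t100 t278 t281 t282 t329 t133 : ℝ)
    (h0 : Rel ε x0 sg) (h1 : Rel ε x1 v) (h2 : Rel ε x2 th) (g3 : Rel ε z3 t3) (g5 : Rel ε z5 t5) (g17 : Rel ε z17 t17) (g18 : Rel ε z18 t18) (g19 : Rel ε z19 t19) (g27 : Rel ε z27 t27) (g277 : Rel ε z277 t277) (g61 : Rel ε z61 t61) (g69 : Rel ε z69 t69) (g72 : Rel ε z72 t72) (g80 : Rel ε z80 t80) (g100 : Rel ε z100 t100) (g278 : Rel ε z278 t278) (g281 : Rel ε z281 t281) (g282 : Rel ε z282 t282) (g329 : Rel ε z329 t329) (g133 : Rel ε z133 t133) :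
    a_B3 gs gt ps x0 x1 x2 z3 z5 z17 z18 z19 z27 z277 z61 z69 z72 z80 z100 z278 z281 z282 z329 z133 = true → a_R3 gs gt ps sg v th t3 t5 t17 t18 t19 t27 t277 t61 t69 t72 t80 t100 t278 t281 t282 t329 t133 := by
  delta a_B3 a_R3
  exact parS fun z8 t8 g8 =>
  parS fun z9 t9 g9 =>
  mulS hε g9 h0 fun z105 t105 g105 =>
  addS g8 g105 fun z106 t106 g106 =>
  parS fun z10 t10 g10 =>
  mulS hε g10 h1 fun z107 t107 g107 =>
  addS g106 g107 fun z108 t108 g108 =>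
  subS g133 g108 fun z330 t330 g330 =>
  normS g330 fun z331 t331 g331 =>
  mulS hε h2 g331 fun z332 t332 g332 =>
  addS g332 g108 fun z333 t333 g333 =>
  normS g333 fun z334 t334 g334 =>
  smulS hε g61 k7 fun z64 t64 g64 =>
  sqrS hε h1 fun z62 t62 g62 =>
  mulS hε g61 g62 fun z63 t63 g63 =>
  subS g64 g63 fun z65 t65 g65 =>
  normS g65 fun z73 t73 g73 =>
  mulS hε (cst_rel k4) g73 fun z74 t74 g74 =>
  rsubS g74 k5 fun z75 t75 g75 =>
  mulS hε g73 g75 fun z297 t297 g297 =>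
  normS g297 fun z298 t298 g298 =>
  addcS g74 k6 fun z81 t81 g81 =>
  mulS hε g73 g81 fun z82 t82 g82 =>
  rsubS g82 k2 fun z83 t83 g83 =>
  a_S4 gs gt hε ps x0 x1 x2 z3 z5 z17 z18 z19 z27 z277 z61 z69 z72 z80 z100 z278 z281 z282 z329 z133 z334 z62 z63 z65 z75 z298 z83 sg v th t3 t5 t17 t18 t19 t27 t277 t61 t69 t72 t80 t100 t278 t281 t282 t329 t133 t334 t62 t63 t65 t75 t298 t83 h0 h1 h2 g3 g5 g17 g18 g19 g27 g277 g61 g69 g72 g80 g100 g278 g281 g282 g329 g133 g334 g62 g63 g65 g75 g298 g83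

def a_B2 (gs gt ps : ℕ) (x0 x1 x2 z3 z5 z17 z18 z19 z27 z277 z61 z69 z72 z80 : AF) : Bool :=
  mulK z72 z80 fun z286 =>
  normK z286 fun z287 =>
  mulK z72 x0 fun z283 =>
  rsubK z61 4722366764344621924352 0 fun z99 =>
  sqrtK z99 fun z100 =>
  mulK z80 z100 fun z284 =>
  addK z283 z284 fun z285 =>
  normK z285 fun z288 =>
  sqrK z288 fun z289 =>
  mulK x2 z277 fun z278 =>
  rsubK z278 4722366764344621924352 0 fun z280 =>
  sqrtK z280 fun z281 =>
  rsubK z281 4722366764344621924352 0 fun z282 =>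
  mulK z287 z282 fun z290 =>
  subK z289 z290 fun z291 =>
  sqrtK z291 fun z292 =>
  addK z285 z292 fun z293 =>
  invK z293 fun z294 =>
  mulK z287 z294 fun z295 =>
  normK z295 fun z296 =>
  smulK z296 4722367045819598635008 fun z329 =>
  parK gt 4 fun z31 =>
  parK gt 5 fun z32 =>
  mulK z32 x0 fun z130 =>
  addK z31 z130 fun z131 =>
  parK gt 6 fun z33 =>
  mulK z33 x1 fun z132 =>
  addK z131 z132 fun z133 =>
  a_B3 gs gt ps x0 x1 x2 z3 z5 z17 z18 z19 z27 z277 z61 z69 z72 z80 z100 z278 z281 z282 z329 z133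

def a_R2 (gs gt ps : ℕ) (sg v th z3 z5 z17 z18 z19 z27 z277 z61 z69 z72 z80 : ℝ) : Prop :=
  letR (z72 * z80) fun z286 =>
  letR z286 fun z287 =>
  letR (z72 * sg) fun z283 =>
  letR ((1 : ℝ) - z61) fun z99 =>
  letR (√z99) fun z100 =>
  letR (z80 * z100) fun z284 =>
  letR (z283 + z284) fun z285 =>
  letR z285 fun z288 =>
  letR (z288 ^ 2) fun z289 =>
  letR (th * z277) fun z278 =>
  letR ((1 : ℝ) - z278) fun z280 =>
  letR (√z280) fun z281 =>
  letR ((1 : ℝ) - z281) fun z282 =>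
  letR (z287 * z282) fun z290 =>
  letR (z289 - z290) fun z291 =>
  letR (√z291) fun z292 =>
  letR (z285 + z292) fun z293 =>
  invR z293 fun z294 =>
  letR (z287 * z294) fun z295 =>
  letR z295 fun z296 =>
  letR ((2 : ℝ) * z296) fun z329 =>
  letR (parV gt 4) fun z31 =>
  letR (parV gt 5) fun z32 =>
  letR (z32 * sg) fun z130 =>
  letR (z31 + z130) fun z131 =>
  letR (parV gt 6) fun z33 =>
  letR (z33 * v) fun z132 =>
  letR (z131 + z132) fun z133 =>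
  a_R3 gs gt ps sg v th z3 z5 z17 z18 z19 z27 z277 z61 z69 z72 z80 z100 z278 z281 z282 z329 z133

theorem a_S2 {ε : Fin 4 → ℝ} (gs gt : ℕ) (hε : ∀ i, |ε i| ≤ 1) (ps : ℕ) (x0 x1 x2 z3 z5 z17 z18 z19 z27 z277 z61 z69 z72 z80 : AF) (sg v th t3 t5 t17 t18 t19 t27 t277 t61 t69 t72 t80 : ℝ)
    (h0 : Rel ε x0 sg) (h1 : Rel ε x1 v) (h2 : Rel ε x2 th) (g3 : Rel ε z3 t3) (g5 : Rel ε z5 t5) (g17 : Rel ε z17 t17) (g18 : Rel ε z18 t18) (g19 : Rel ε z19 t19) (g27 : Rel ε z27 t27) (g277 : Rel ε z277 t277) (g61 : Rel ε z61 t61) (g69 : Rel ε z69 t69) (g72 : Rel ε z72 t72) (g80 : Rel ε z80 t80) :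
    a_B2 gs gt ps x0 x1 x2 z3 z5 z17 z18 z19 z27 z277 z61 z69 z72 z80 = true → a_R2 gs gt ps sg v th t3 t5 t17 t18 t19 t27 t277 t61 t69 t72 t80 := by
  delta a_B2 a_R2
  exact mulS hε g72 g80 fun z286 t286 g286 =>
  normS g286 fun z287 t287 g287 =>
  mulS hε g72 h0 fun z283 t283 g283 =>
  rsubS g61 k2 fun z99 t99 g99 =>
  sqrtS hε g99 fun z100 t100 g100 =>
  mulS hε g80 g100 fun z284 t284 g284 =>
  addS g283 g284 fun z285 t285 g285 =>
  normS g285 fun z288 t288 g288 =>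
  sqrS hε g288 fun z289 t289 g289 =>
  mulS hε h2 g277 fun z278 t278 g278 =>
  rsubS g278 k2 fun z280 t280 g280 =>
  sqrtS hε g280 fun z281 t281 g281 =>
  rsubS g281 k2 fun z282 t282 g282 =>
  mulS hε g287 g282 fun z290 t290 g290 =>
  subS g289 g290 fun z291 t291 g291 =>
  sqrtS hε g291 fun z292 t292 g292 =>
  addS g285 g292 fun z293 t293 g293 =>
  invS hε g293 fun z294 t294 g294 =>
  mulS hε g287 g294 fun z295 t295 g295 =>
  normS g295 fun z296 t296 g296 =>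
  smulS hε g296 k7 fun z329 t329 g329 =>
  parS fun z31 t31 g31 =>
  parS fun z32 t32 g32 =>
  mulS hε g32 h0 fun z130 t130 g130 =>
  addS g31 g130 fun z131 t131 g131 =>
  parS fun z33 t33 g33 =>
  mulS hε g33 h1 fun z132 t132 g132 =>
  addS g131 g132 fun z133 t133 g133 =>
  a_S3 gs gt hε ps x0 x1 x2 z3 z5 z17 z18 z19 z27 z277 z61 z69 z72 z80 z100 z278 z281 z282 z329 z133 sg v th t3 t5 t17 t18 t19 t27 t277 t61 t69 t72 t80 t100 t278 t281 t282 t329 t133 h0 h1 h2 g3 g5 g17 g18 g19 g27 g277 g61 g69 g72 g80 g100 g278 g281 g282 g329 g133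

def a_B1 (gs gt ps : ℕ) (x0 x1 x2 z3 z5 : AF) : Bool :=
  parK gs 13 fun z17 =>
  posK z17 <|
  rsubK z17 4722366482869645213696 0 fun z57 =>
  posK z57 <|
  parK gs 14 fun z18 =>
  posK z18 <|
  rsubK z18 4722366482869645213696 0 fun z58 =>
  posK z58 <|
  parK gs 15 fun z19 =>
  addcK z19 4722366201394668503040 0 fun z59 =>
  posK z59 <|
  rsubK z19 4722366764344621924352 0 fun z60 =>
  posK z60 <|
  parK gt 0 fun z27 =>
  sqrK z27 fun z277 =>
  addcK z277 4722366478471598702592 0 fun z279 =>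
  posK z279 <|
  sqrK x0 fun z61 =>
  mulK (cst 4722366736197124253286 1) z61 fun z68 =>
  rsubK z68 4722367017672100963942 1 fun z69 =>
  mulK z61 z69 fun z71 =>
  normK z71 fun z72 =>
  addcK z68 4722366511017142884761 1 fun z78 =>
  mulK z61 z78 fun z79 =>
  rsubK z79 4722366764344621924352 0 fun z80 =>
  a_B2 gs gt ps x0 x1 x2 z3 z5 z17 z18 z19 z27 z277 z61 z69 z72 z80

def a_R1 (gs gt ps : ℕ) (sg v th z3 z5 : ℝ) : Prop :=
  letR (parV gs 13) fun z17 =>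
  posR z17 <|
  letR ((0 : ℝ) - z17) fun z57 =>
  posR z57 <|
  letR (parV gs 14) fun z18 =>
  posR z18 <|
  letR ((0 : ℝ) - z18) fun z58 =>
  posR z58 <|
  letR (parV gs 15) fun z19 =>
  letR (z19 + (-1 : ℝ)) fun z59 =>
  posR z59 <|
  letR ((1 : ℝ) - z19) fun z60 =>
  posR z60 <|
  letR (parV gt 0) fun z27 =>
  letR (z27 ^ 2) fun z277 =>
  letR (z277 + (-1 / 64 : ℝ)) fun z279 =>
  posR z279 <|
  letR (sg ^ 2) fun z61 =>
  letR ((9 / 10 : ℝ) * z61) fun z68 =>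
  letR ((19 / 10 : ℝ) - z68) fun z69 =>
  letR (z61 * z69) fun z71 =>
  letR z71 fun z72 =>
  letR (z68 + (1 / 10 : ℝ)) fun z78 =>
  letR (z61 * z78) fun z79 =>
  letR ((1 : ℝ) - z79) fun z80 =>
  a_R2 gs gt ps sg v th z3 z5 z17 z18 z19 z27 z277 z61 z69 z72 z80

theorem a_S1 {ε : Fin 4 → ℝ} (gs gt : ℕ) (hε : ∀ i, |ε i| ≤ 1) (ps : ℕ) (x0 x1 x2 z3 z5 : AF) (sg v th t3 t5 : ℝ)
    (h0 : Rel ε x0 sg) (h1 : Rel ε x1 v) (h2 : Rel ε x2 th) (g3 : Rel ε z3 t3) (g5 : Rel ε z5 t5) :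
    a_B1 gs gt ps x0 x1 x2 z3 z5 = true → a_R1 gs gt ps sg v th t3 t5 := by
  delta a_B1 a_R1
  exact parS fun z17 t17 g17 =>
  posS hε g17 <|
  rsubS g17 k0 fun z57 t57 g57 =>
  posS hε g57 <|
  parS fun z18 t18 g18 =>
  posS hε g18 <|
  rsubS g18 k0 fun z58 t58 g58 =>
  posS hε g58 <|
  parS fun z19 t19 g19 =>
  addcS g19 k1 fun z59 t59 g59 =>
  posS hε g59 <|
  rsubS g19 k2 fun z60 t60 g60 =>
  posS hε g60 <|
  parS fun z27 t27 g27 =>
  sqrS hε g27 fun z277 t277 g277 =>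
  addcS g277 k3 fun z279 t279 g279 =>
  posS hε g279 <|
  sqrS hε h0 fun z61 t61 g61 =>
  mulS hε (cst_rel k4) g61 fun z68 t68 g68 =>
  rsubS g68 k5 fun z69 t69 g69 =>
  mulS hε g61 g69 fun z71 t71 g71 =>
  normS g71 fun z72 t72 g72 =>
  addcS g68 k6 fun z78 t78 g78 =>
  mulS hε g61 g78 fun z79 t79 g79 =>
  rsubS g79 k2 fun z80 t80 g80 =>
  a_S2 gs gt hε ps x0 x1 x2 z3 z5 z17 z18 z19 z27 z277 z61 z69 z72 z80 sg v th t3 t5 t17 t18 t19 t27 t277 t61 t69 t72 t80 h0 h1 h2 g3 g5 g17 g18 g19 g27 g277 g61 g69 g72 g80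

def a_B (gs gt ps : ℕ) (x0 x1 x2 x3 : AF) : Bool :=
  parK ps 0 fun z3 =>
  parK gs 0 fun z4 =>
  posK z4 <|
  rsubK z4 4722366482869645213696 0 fun z50 =>
  posK z50 <|
  parK gs 1 fun z5 =>
  addcK z5 4722366201394668503040 0 fun z51 =>
  posK z51 <|
  rsubK z5 4722366764344621924352 0 fun z52 =>
  posK z52 <|
  parK gs 10 fun z14 =>
  posK z14 <|
  rsubK z14 4722366482869645213696 0 fun z53 =>
  posK z53 <|
  parK gs 11 fun z15 =>
  addcK z15 4722366201394668503040 0 fun z54 =>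
  posK z54 <|
  rsubK z15 4722366764344621924352 0 fun z55 =>
  posK z55 <|
  parK gs 12 fun z16 =>
  posK z16 <|
  rsubK z16 4722366482869645213696 0 fun z56 =>
  posK z56 <|
  a_B1 gs gt ps x0 x1 x2 z3 z5

def a_R (gs gt ps : ℕ) (sg v th u3 : ℝ) : Prop :=
  letR (parV ps 0) fun z3 =>
  letR (parV gs 0) fun z4 =>
  posR z4 <|
  letR ((0 : ℝ) - z4) fun z50 =>
  posR z50 <|
  letR (parV gs 1) fun z5 =>
  letR (z5 + (-1 : ℝ)) fun z51 =>
  posR z51 <|
  letR ((1 : ℝ) - z5) fun z52 =>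
  posR z52 <|
  letR (parV gs 10) fun z14 =>
  posR z14 <|
  letR ((0 : ℝ) - z14) fun z53 =>
  posR z53 <|
  letR (parV gs 11) fun z15 =>
  letR (z15 + (-1 : ℝ)) fun z54 =>
  posR z54 <|
  letR ((1 : ℝ) - z15) fun z55 =>
  posR z55 <|
  letR (parV gs 12) fun z16 =>
  posR z16 <|
  letR ((0 : ℝ) - z16) fun z56 =>
  posR z56 <|
  a_R1 gs gt ps sg v th z3 z5

theorem a_S {ε : Fin 4 → ℝ} (gs gt : ℕ) (hε : ∀ i, |ε i| ≤ 1) (ps : ℕ) (x0 x1 x2 x3 : AF) (sg v th u3 : ℝ)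
    (h0 : Rel ε x0 sg) (h1 : Rel ε x1 v) (h2 : Rel ε x2 th) (h3 : Rel ε x3 u3) :
    a_B gs gt ps x0 x1 x2 x3 = true → a_R gs gt ps sg v th u3 := by
  delta a_B a_R
  exact parS fun z3 t3 g3 =>
  parS fun z4 t4 g4 =>
  posS hε g4 <|
  rsubS g4 k0 fun z50 t50 g50 =>
  posS hε g50 <|
  parS fun z5 t5 g5 =>
  addcS g5 k1 fun z51 t51 g51 =>
  posS hε g51 <|
  rsubS g5 k2 fun z52 t52 g52 =>
  posS hε g52 <|
  parS fun z14 t14 g14 =>
  posS hε g14 <|
  rsubS g14 k0 fun z53 t53 g53 =>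
  posS hε g53 <|
  parS fun z15 t15 g15 =>
  addcS g15 k1 fun z54 t54 g54 =>
  posS hε g54 <|
  rsubS g15 k2 fun z55 t55 g55 =>
  posS hε g55 <|
  parS fun z16 t16 g16 =>
  posS hε g16 <|
  rsubS g16 k0 fun z56 t56 g56 =>
  posS hε g56 <|
  a_S1 gs gt hε ps x0 x1 x2 z3 z5 sg v th t3 t5 h0 h1 h2 g3 g5

/- obtain ⟨pp, rb, al, w68, uh, u, w, uwm, Y, psm, r, be, s, Dm, mu0b, mu0a, m0, v2, a1, a0, w74, h0, u0, w0, uw0, w87, X0, Y0, ps0, D0, mu1b, mu1a, m1, w76, h1, u1, w1, uw1, x, Y1, ps1, D1, C, exb, gab, igb, etb, exa, gaa, iga, eta, e1, et, M, i2, bb, iu, fa, A0b, g2b, Acb, fb, LBb, rgb, M0cb, de, rdb, M1cb, Nub, W0b, cbb, cgb, s0cb, W1b, s1cb, w197, crb, p0cb, p1cb, Nwb, Nnb, c0, c1, c2, c3, c4, c5, c6, c7, c8, c9, c10, c11, c12, c13, c14, c15, h_rb, c16, h_al, h_w68, h_uh, h_u, h_w, h_uwm, h_Y, h_psm, h_r, h_be, h_s, p_29, h_Dm, h_mu0b, h_mu0a, h_m0, h_v2, h_a1, h_a0, h_w74, h_h0, h_u0, h_w0, h_uw0,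 h_w87, h_X0, h_Y0, h_ps0, p_46, h_D0, h_mu1b, h_mu1a, h_m1, h_w76, h_h1, h_u1, h_w1, h_uw1, h_x, h_Y1, h_ps1, p_59, h_D1, h_C, p_62, h_exb, h_gab, p_igb, h_igb, h_etb, h_exa, h_gaa, p_iga, h_iga, h_eta, h_e1, h_et, p_pp, h_M, p_i2, h_i2, h_bb, p_bb, p_iu, h_iu, h_fa, h_A0b, h_g2b, h_Acb, p_Acb, h_fb, h_LBb, h_rgb, h_M0cb, p_M0cb, h_de, h_rdb, h_M1cb, p_M1cb, h_Nub, h_W0b, h_cbb, h_cgb, h_s0cb, p_s0cb, h_W1b, h_s1cb, p_s1cb, h_w197, h_crb, h_p0cb, p_p0cb, h_p1cb, p_p1cb, h_Nwb, h_Nnb, c17⟩ := h -/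
def a_Spec (rhoa l4a kua kwa ma0a ma1a ma2a mb0a mb1a mb2a bq0a bq1a bq2a gq0a gq1a gq2a xq0a xq1a xq2a am0a am1a bm0a bm1a rhob l4b kub kwb ma0b ma1b ma2b mb0b mb1b mb2b bq0b bq1b bq2b gq0b gq1b gq2b xq0b xq1b xq2b am0b am1b bm0b bm1b sg v th : ℝ) : Prop :=
  ∃ pp rb al w68 uh u w uwm Y psm r be s Dm mu0b mu0a m0 v2 a1 a0 w74 h0 u0 w0 uw0 w87 X0 Y0 ps0 D0 mu1b mu1a m1 w76 h1 u1 w1 uw1 x Y1 ps1 D1 C exb gab igb etb exa gaa iga eta e1 et M i2 bb iu fa A0b g2b Acb fb LBb rgb M0cb de rdb M1cb Nub W0b cbb cgb s0cb W1b s1cb w197 crb p0cb p1cb Nwb Nnb : ℝ,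
    0 ≤ rhoa ∧
    0 ≤ ((0 : ℝ) - rhoa) ∧
    0 ≤ (l4a + (-1 : ℝ)) ∧
    0 ≤ ((1 : ℝ) - l4a) ∧
    0 ≤ bq0a ∧
    0 ≤ ((0 : ℝ) - bq0a) ∧
    0 ≤ (bq1a + (-1 : ℝ)) ∧
    0 ≤ ((1 : ℝ) - bq1a) ∧
    0 ≤ bq2a ∧
    0 ≤ ((0 : ℝ) - bq2a) ∧
    0 ≤ gq0a ∧
    0 ≤ ((0 : ℝ) - gq0a) ∧
    0 ≤ gq1a ∧
    0 ≤ ((0 : ℝ) - gq1a) ∧
    0 ≤ (gq2a + (-1 : ℝ)) ∧
    0 ≤ ((1 : ℝ) - gq2a) ∧
    rb = (rhob ^ 2) ∧
    0 ≤ (rb + (-1 / 64 : ℝ)) ∧
    al = (sg ^ 2) ∧
    w68 = ((9 / 10 : ℝ) * al) ∧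
    uh = ((19 / 10 : ℝ) - w68) ∧
    u = (al * uh) ∧
    w = ((1 : ℝ) - (al * (w68 + (1 / 10 : ℝ)))) ∧
    uwm = (u * w) ∧
    Y = (√((1 : ℝ) - al)) ∧
    psm = ((u * sg) + (w * Y)) ∧
    r = (th * rb) ∧
    be = (√((1 : ℝ) - r)) ∧
    s = ((1 : ℝ) - be) ∧
    0 < (psm + (√((psm ^ 2) - (uwm * s)))) ∧
    Dm = (uwm * ((psm + (√((psm ^ 2) - (uwm * s))))⁻¹)) ∧
    mu0b = ((ma0b + (ma1b * sg)) + (ma2b * v)) ∧
    mu0a = ((ma0a + (ma1a * sg)) + (ma2a * v)) ∧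
    m0 = ((th * (mu0b - mu0a)) + mu0a) ∧
    v2 = (v ^ 2) ∧
    a1 = (al * v2) ∧
    a0 = (((2 : ℝ) * al) - a1) ∧
    w74 = ((9 / 10 : ℝ) * a0) ∧
    h0 = ((19 / 10 : ℝ) - w74) ∧
    u0 = (a0 * h0) ∧
    w0 = ((1 : ℝ) - (a0 * (w74 + (1 / 10 : ℝ)))) ∧
    uw0 = (u0 * w0) ∧
    w87 = ((2 : ℝ) - v2) ∧
    X0 = (sg * (√w87)) ∧
    Y0 = (√((1 : ℝ) - a0)) ∧
    ps0 = ((u0 * X0) + (w0 * Y0)) ∧
    0 < (ps0 + (√((ps0 ^ 2) - (uw0 * s)))) ∧
    D0 = (uw0 * ((ps0 + (√((ps0 ^ 2) - (uw0 * s))))⁻¹)) ∧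
    mu1b = ((mb0b + (mb1b * sg)) + (mb2b * v)) ∧
    mu1a = ((mb0a + (mb1a * sg)) + (mb2a * v)) ∧
    m1 = ((th * (mu1b - mu1a)) + mu1a) ∧
    w76 = ((9 / 10 : ℝ) * a1) ∧
    h1 = ((19 / 10 : ℝ) - w76) ∧
    u1 = (a1 * h1) ∧
    w1 = ((1 : ℝ) - (a1 * (w76 + (1 / 10 : ℝ)))) ∧
    uw1 = (u1 * w1) ∧
    x = (sg * v) ∧
    Y1 = (√((1 : ℝ) - a1)) ∧
    ps1 = ((u1 * x) + (w1 * Y1)) ∧
    0 < (ps1 + (√((ps1 ^ 2) - (uw1 * s)))) ∧
    D1 = (uw1 * ((ps1 + (√((ps1 ^ 2) - (uw1 * s))))⁻¹)) ∧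
    C = ((((2 : ℝ) * Dm) - (m0 * D0)) - (m1 * D1)) ∧
    0 < (be + (1 : ℝ)) ∧
    exb = ((xq0b + (xq1b * sg)) + (xq2b * v)) ∧
    gab = ((gq0b + (gq1b * sg)) + (gq2b * v)) ∧
    0 < (gab + l4b) ∧
    igb = ((gab + l4b)⁻¹) ∧
    etb = ((2 : ℝ) * (exb * (gab * igb))) ∧
    exa = ((xq0a + (xq1a * sg)) + (xq2a * v)) ∧
    gaa = ((gq0a + (gq1a * sg)) + (gq2a * v)) ∧
    0 < (gaa + l4a) ∧
    iga = ((gaa + l4a)⁻¹) ∧
    eta = ((2 : ℝ) * (exa * (gaa * iga))) ∧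
    e1 = ((th * (etb - eta)) + eta) ∧
    et = (e1 * u) ∧
    0 < pp ∧
    M = (pp - (x * ((Real.log pp) + (1 : ℝ)))) ∧
    0 < ((2 : ℝ) - r) ∧
    i2 = (((2 : ℝ) - r)⁻¹) ∧
    bb = ((bq0b + (bq1b * sg)) + (bq2b * v)) ∧
    0 < bb ∧
    0 < uh ∧
    iu = (uh⁻¹) ∧
    fa = (w87 * (h0 * iu)) ∧
    A0b = (mu0b * fa) ∧
    g2b = (gab ^ 2) ∧
    Acb = (√((2 : ℝ) - g2b)) ∧
    0 < Acb ∧
    fb = ((1 / 2 : ℝ) * (h1 * iu)) ∧
    LBb = ((((mu1b * (v * (v + l4b))) * fb) + exb) * igb) ∧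
    rgb = (rhob * ((1 : ℝ) - g2b)) ∧
    M0cb = (√(rgb + (1 : ℝ))) ∧
    0 < M0cb ∧
    de = (al - a1) ∧
    rdb = (rhob * de) ∧
    M1cb = (√((1 : ℝ) - rgb)) ∧
    0 < M1cb ∧
    Nub = (((((A0b * (Acb⁻¹)) * ((X0 - (bb * Acb)) ^ 2)) + ((2 : ℝ) * (LBb * ((x - (bb * gab)) ^ 2)))) - ((M0cb⁻¹) * ((((bb * M0cb) - sg) ^ 2) + rdb))) - ((M1cb⁻¹) * ((((bb * M1cb) - sg) ^ 2) - rdb))) ∧
    W0b = (mu0b * w0) ∧
    cbb = (bb ^ 2) ∧
    cgb = (cbb * g2b) ∧
    s0cb = (√((cgb - ((2 : ℝ) * cbb)) + (1 : ℝ))) ∧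
    0 < s0cb ∧
    W1b = (mu1b * w1) ∧
    s1cb = (√((1 : ℝ) - cgb)) ∧
    0 < s1cb ∧
    w197 = ((1 : ℝ) - cbb) ∧
    crb = (cbb * rgb) ∧
    p0cb = (√(w197 - crb)) ∧
    0 < p0cb ∧
    p1cb = (√(w197 + crb)) ∧
    0 < p1cb ∧
    Nwb = ((((W0b * (s0cb⁻¹)) * ((Y0 - s0cb) ^ 2)) + ((W1b * (s1cb⁻¹)) * ((Y1 - s1cb) ^ 2))) - (w * (((p0cb⁻¹) * (((p0cb - Y) ^ 2) - rdb)) + ((p1cb⁻¹) * (((p1cb - Y) ^ 2) + rdb))))) ∧
    Nnb = ((1 / 2 : ℝ) * (((u * (bb⁻¹)) * Nub) + Nwb)) ∧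
    0 ≤ ((rb * ((C * ((be + (1 : ℝ))⁻¹)) - (et * (M * i2)))) - Nnb)

theorem a_E {gs gt ps : ℕ} {sg v th u3 : ℝ} (h : a_R gs gt ps sg v th u3) : a_Spec (parV gs 0) (parV gs 1) (parV gs 2) (parV gs 3) (parV gs 4) (parV gs 5) (parV gs 6) (parV gs 7) (parV gs 8) (parV gs 9) (parV gs 10) (parV gs 11) (parV gs 12) (parV gs 13) (parV gs 14) (parV gs 15) (parV gs 16) (parV gs 17) (parV gs 18) (parV gs 19) (parV gs 20) (parV gs 21) (parV gs 22) (parV gt 0) (parV gt 1) (parV gt 2) (parV gt 3) (parV gt 4) (parV gt 5) (parV gt 6) (parV gt 7) (parV gt 8) (parV gt 9) (parV gt 10) (parV gt 11) (parV gt 12) (parV gt 13) (parV gt 14) (parV gt 15) (parV gt 16) (parV gt 17) (parV gt 18) (parV gt 19) (parV gt 20) (parV gt 21) (parV gt 22) sg v th := by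
  delta a_R at h
  exact letR_ex h fun pp _ h =>
  letR_in h fun h =>
  posR_ex h fun q1 h =>
  letR_in h fun h =>
  posR_ex h fun q2 h =>
  letR_in h fun h =>
  letR_in h fun h =>
  posR_ex h fun q3 h =>
  letR_in h fun h =>
  posR_ex h fun q4 h =>
  letR_in h fun h =>
  posR_ex h fun q5 h =>
  letR_in h fun h =>
  posR_ex h fun q6 h =>
  letR_in h fun h =>
  letR_in h fun h =>
  posR_ex h fun q7 h =>
  letR_in h fun h =>
  posR_ex h fun q8 h =>
  letR_in h fun h =>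
  posR_ex h fun q9 h =>
  letR_in h fun h =>
  posR_ex h fun q10 h =>
  (by delta a_R1 at h; exact
  letR_in h fun h =>
  posR_ex h fun q11 h =>
  letR_in h fun h =>
  posR_ex h fun q12 h =>
  letR_in h fun h =>
  posR_ex h fun q13 h =>
  letR_in h fun h =>
  posR_ex h fun q14 h =>
  letR_in h fun h =>
  letR_in h fun h =>
  posR_ex h fun q15 h =>
  letR_in h fun h =>
  posR_ex h fun q16 h =>
  letR_in h fun h =>
  letR_ex h fun rb q17 h =>
  letR_in h fun h =>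
  posR_ex h fun q18 h =>
  letR_ex h fun al q19 h =>
  letR_ex h fun w68 q20 h =>
  letR_ex h fun uh q21 h =>
  letR_in h fun h =>
  letR_ex h fun u q22 h =>
  letR_in h fun h =>
  letR_in h fun h =>
  letR_ex h fun w q23 h =>
  (by delta a_R2 at h; exact
  letR_in h fun h =>
  letR_ex h fun uwm q24 h =>
  letR_in h fun h =>
  letR_in h fun h =>
  letR_ex h fun Y q25 h =>
  letR_in h fun h =>
  letR_ex h fun psm q26 h =>
  letR_in h fun h =>
  letR_in h fun h =>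
  letR_ex h fun r q27 h =>
  letR_in h fun h =>
  letR_ex h fun be q28 h =>
  letR_ex h fun s q29 h =>
  letR_in h fun h =>
  letR_in h fun h =>
  letR_in h fun h =>
  letR_in h fun h =>
  invR_ex h fun q30 h =>
  letR_in h fun h =>
  letR_in h fun h =>
  letR_ex h fun Dm q31 h =>
  letR_in h fun h =>
  letR_in h fun h =>
  letR_in h fun h =>
  letR_in h fun h =>
  letR_in h fun h =>
  letR_in h fun h =>
  letR_in h fun h =>
  letR_ex h fun mu0b q32 h =>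
  (by delta a_R3 at h; exact
  letR_in h fun h =>
  letR_in h fun h =>
  letR_in h fun h =>
  letR_in h fun h =>
  letR_in h fun h =>
  letR_in h fun h =>
  letR_ex h fun mu0a q33 h =>
  letR_in h fun h =>
  letR_in h fun h =>
  letR_in h fun h =>
  letR_ex h fun m0 q34 h =>
  letR_in h fun h =>
  letR_in h fun h =>
  letR_ex h fun v2 q35 h =>
  letR_ex h fun a1 q36 h =>
  letR_ex h fun a0 q37 h =>
  letR_in h fun h =>
  letR_ex h fun w74 q38 h =>
  letR_ex h fun h0 q39 h =>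
  letR_in h fun h =>
  letR_ex h fun u0 q40 h =>
  letR_in h fun h =>
  letR_in h fun h =>
  letR_ex h fun w0 q41 h =>
  (by delta a_R4 at h; exact
  letR_in h fun h =>
  letR_ex h fun uw0 q42 h =>
  letR_ex h fun w87 q43 h =>
  letR_in h fun h =>
  letR_in h fun h =>
  letR_ex h fun X0 q44 h =>
  letR_in h fun h =>
  letR_in h fun h =>
  letR_ex h fun Y0 q45 h =>
  letR_in h fun h =>
  letR_ex h fun ps0 q46 h =>
  letR_in h fun h =>
  letR_in h fun h =>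
  letR_in h fun h =>
  letR_in h fun h =>
  letR_in h fun h =>
  letR_in h fun h =>
  invR_ex h fun q47 h =>
  letR_in h fun h =>
  letR_in h fun h =>
  letR_ex h fun D0 q48 h =>
  letR_in h fun h =>
  letR_in h fun h =>
  letR_in h fun h =>
  letR_in h fun h =>
  letR_in h fun h =>
  letR_in h fun h =>
  letR_in h fun h =>
  letR_in h fun h =>
  letR_ex h fun mu1b q49 h =>
  (by delta a_R5 at h; exact
  letR_in h fun h =>
  letR_in h fun h =>
  letR_in h fun h =>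
  letR_in h fun h =>
  letR_in h fun h =>
  letR_in h fun h =>
  letR_ex h fun mu1a q50 h =>
  letR_in h fun h =>
  letR_in h fun h =>
  letR_in h fun h =>
  letR_ex h fun m1 q51 h =>
  letR_in h fun h =>
  letR_ex h fun w76 q52 h =>
  letR_ex h fun h1 q53 h =>
  letR_in h fun h =>
  letR_ex h fun u1 q54 h =>
  letR_in h fun h =>
  letR_in h fun h =>
  letR_ex h fun w1 q55 h =>
  letR_in h fun h =>
  letR_ex h fun uw1 q56 h =>
  letR_ex h fun x q57 h =>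
  letR_in h fun h =>
  letR_in h fun h =>
  letR_ex h fun Y1 q58 h =>
  letR_in h fun h =>
  letR_ex h fun ps1 q59 h =>
  letR_in h fun h =>
  letR_in h fun h =>
  letR_in h fun h =>
  letR_in h fun h =>
  letR_in h fun h =>
  letR_in h fun h =>
  invR_ex h fun q60 h =>
  letR_in h fun h =>
  letR_in h fun h =>
  letR_ex h fun D1 q61 h =>
  letR_in h fun h =>
  letR_ex h fun C q62 h =>
  (by delta a_R6 at h; exact
  letR_in h fun h =>
  letR_in h fun h =>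
  invR_ex h fun q63 h =>
  letR_in h fun h =>
  letR_in h fun h =>
  letR_in h fun h =>
  letR_in h fun h =>
  letR_in h fun h =>
  letR_in h fun h =>
  letR_in h fun h =>
  letR_in h fun h =>
  letR_ex h fun exb q64 h =>
  letR_in h fun h =>
  letR_in h fun h =>
  letR_in h fun h =>
  letR_in h fun h =>
  letR_in h fun h =>
  letR_in h fun h =>
  letR_in h fun h =>
  letR_ex h fun gab q65 h =>
  letR_in h fun h =>
  letR_in h fun h =>
  letR_in h fun h =>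
  invR_ex h fun q66 h =>
  letR_ex h fun igb q67 h =>
  letR_in h fun h =>
  letR_in h fun h =>
  letR_in h fun h =>
  letR_in h fun h =>
  letR_ex h fun etb q68 h =>
  letR_in h fun h =>
  letR_in h fun h =>
  letR_in h fun h =>
  letR_in h fun h =>
  letR_in h fun h =>
  letR_in h fun h =>
  letR_ex h fun exa q69 h =>
  letR_in h fun h =>
  letR_in h fun h =>
  letR_in h fun h =>
  letR_in h fun h =>
  letR_ex h fun gaa q70 h =>
  (by delta a_R7 at h; exact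
  letR_in h fun h =>
  letR_in h fun h =>
  invR_ex h fun q71 h =>
  letR_ex h fun iga q72 h =>
  letR_in h fun h =>
  letR_in h fun h =>
  letR_in h fun h =>
  letR_in h fun h =>
  letR_ex h fun eta q73 h =>
  letR_in h fun h =>
  letR_in h fun h =>
  letR_in h fun h =>
  letR_ex h fun e1 q74 h =>
  letR_in h fun h =>
  letR_in h fun h =>
  letR_ex h fun et q75 h =>
  logR_ex h fun q76 h =>
  letR_in h fun h =>
  letR_in h fun h =>
  letR_in h fun h =>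
  letR_ex h fun M q77 h =>
  letR_in h fun h =>
  letR_in h fun h =>
  invR_ex h fun q78 h =>
  letR_ex h fun i2 q79 h =>
  letR_in h fun h =>
  letR_in h fun h =>
  letR_in h fun h =>
  letR_in h fun h =>
  letR_in h fun h =>
  (by delta a_R8 at h; exact
  letR_in h fun h =>
  letR_in h fun h =>
  letR_in h fun h =>
  letR_in h fun h =>
  letR_in h fun h =>
  letR_in h fun h =>
  letR_ex h fun bb q80 h =>
  invR_ex h fun q81 h =>
  letR_in h fun h =>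
  letR_in h fun h =>
  letR_in h fun h =>
  letR_in h fun h =>
  invR_ex h fun q82 h =>
  letR_ex h fun iu q83 h =>
  letR_in h fun h =>
  letR_in h fun h =>
  letR_in h fun h =>
  letR_ex h fun fa q84 h =>
  letR_in h fun h =>
  letR_ex h fun A0b q85 h =>
  letR_ex h fun g2b q86 h =>
  letR_in h fun h =>
  letR_ex h fun Acb q87 h =>
  invR_ex h fun q88 h =>
  letR_in h fun h =>
  letR_in h fun h =>
  letR_in h fun h =>
  letR_in h fun h =>
  letR_in h fun h =>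
  letR_in h fun h =>
  letR_in h fun h =>
  letR_in h fun h =>
  letR_in h fun h =>
  letR_in h fun h =>
  letR_in h fun h =>
  letR_in h fun h =>
  letR_in h fun h =>
  letR_in h fun h =>
  letR_in h fun h =>
  letR_in h fun h =>
  letR_ex h fun fb q89 h =>
  letR_in h fun h =>
  letR_in h fun h =>
  (by delta a_R9 at h; exact
  letR_in h fun h =>
  letR_in h fun h =>
  letR_ex h fun LBb q90 h =>
  letR_in h fun h =>
  letR_in h fun h =>
  letR_in h fun h =>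
  letR_in h fun h =>
  letR_in h fun h =>
  letR_in h fun h =>
  letR_in h fun h =>
  letR_in h fun h =>
  letR_ex h fun rgb q91 h =>
  letR_in h fun h =>
  letR_ex h fun M0cb q92 h =>
  invR_ex h fun q93 h =>
  letR_in h fun h =>
  letR_in h fun h =>
  letR_in h fun h =>
  letR_in h fun h =>
  letR_in h fun h =>
  letR_ex h fun de q94 h =>
  letR_in h fun h =>
  letR_ex h fun rdb q95 h =>
  letR_in h fun h =>
  letR_in h fun h =>
  letR_in h fun h =>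
  letR_in h fun h =>
  letR_in h fun h =>
  letR_ex h fun M1cb q96 h =>
  invR_ex h fun q97 h =>
  letR_in h fun h =>
  letR_in h fun h =>
  letR_in h fun h =>
  letR_in h fun h =>
  letR_in h fun h =>
  letR_in h fun h =>
  letR_in h fun h =>
  letR_in h fun h =>
  letR_ex h fun Nub q98 h =>
  letR_in h fun h =>
  letR_in h fun h =>
  letR_in h fun h =>
  (by delta a_R10 at h; exact
  letR_ex h fun W0b q99 h =>
  letR_ex h fun cbb q100 h =>
  letR_in h fun h =>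
  letR_ex h fun cgb q101 h =>
  letR_in h fun h =>
  letR_in h fun h =>
  letR_in h fun h =>
  letR_ex h fun s0cb q102 h =>
  invR_ex h fun q103 h =>
  letR_in h fun h =>
  letR_in h fun h =>
  letR_in h fun h =>
  letR_in h fun h =>
  letR_in h fun h =>
  letR_in h fun h =>
  letR_in h fun h =>
  letR_in h fun h =>
  letR_ex h fun W1b q104 h =>
  letR_in h fun h =>
  letR_ex h fun s1cb q105 h =>
  invR_ex h fun q106 h =>
  letR_in h fun h =>
  letR_in h fun h =>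
  letR_in h fun h =>
  letR_in h fun h =>
  letR_in h fun h =>
  letR_in h fun h =>
  letR_in h fun h =>
  letR_in h fun h =>
  letR_ex h fun w197 q107 h =>
  letR_in h fun h =>
  letR_ex h fun crb q108 h =>
  (by delta a_R11 at h; exact
  letR_in h fun h =>
  letR_ex h fun p0cb q109 h =>
  invR_ex h fun q110 h =>
  letR_in h fun h =>
  letR_in h fun h =>
  letR_in h fun h =>
  letR_in h fun h =>
  letR_in h fun h =>
  letR_in h fun h =>
  letR_in h fun h =>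
  letR_in h fun h =>
  letR_ex h fun p1cb q111 h =>
  invR_ex h fun q112 h =>
  letR_in h fun h =>
  letR_in h fun h =>
  letR_in h fun h =>
  letR_in h fun h =>
  letR_in h fun h =>
  letR_in h fun h =>
  letR_in h fun h =>
  letR_in h fun h =>
  letR_in h fun h =>
  letR_in h fun h =>
  letR_ex h fun Nwb q113 h =>
  letR_in h fun h =>
  letR_ex h fun Nnb q114 h =>
  letR_in h fun h =>
  posR_ex h fun q115 h =>
  ⟨pp, rb, al, w68, uh, u, w, uwm, Y, psm, r, be, s, Dm, mu0b, mu0a, m0, v2, a1, a0, w74, h0, u0, w0, uw0, w87, X0, Y0, ps0, D0, mu1b, mu1a, m1, w76, h1, u1, w1, uw1, x, Y1, ps1, D1, C, exb, gab, igb, etb, exa, gaa, iga, eta, e1, et, M, i2, bb, iu, fa, A0b, g2b, Acb, fb, LBb, rgb, M0cb, de, rdb, M1cb, Nub, W0b, cbb, cgb, s0cb, W1b, s1cb, w197, crb, p0cb, p1cb, Nwb, Nnb, q1, q2, q3, q4, q5, q6, q7, q8, q9, q10, q11, q12, q13, q14, q15, q16, q17, q18, q19, q20, q21, q22, q23, q24, q25, q26, q27,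 q28, q29, q30, q31, q32, q33, q34, q35, q36, q37, q38, q39, q40, q41, q42, q43, q44, q45, q46, q47, q48, q49, q50, q51, q52, q53, q54, q55, q56, q57, q58, q59, q60, q61, q62, q63, q64, q65, q66, q67, q68, q69, q70, q71, q72, q73, q74, q75, q76, q77, q78, q79, q80, q81, q82, q83, q84, q85, q86, q87, q88, q89, q90, q91, q92, q93, q94, q95, q96, q97, q98, q99, q100, q101, q102, q103, q104, q105, q106, q107, q108, q109, q110, q111, q112, q113, q114, q115⟩)))))))))))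

theorem k10 : |2 ^ 48 * (-257 / 1024 : ℝ) - (((4722366412226023129088 : ℕ) : ℝ) - 2 ^ 72)| ≤ ((0 : ℕ) : ℝ) := by norm_num [abs_le]
def d_B (gs gt ps : ℕ) (x0 x1 x2 x3 : AF) : Bool :=
  sqrK x0 fun z49 =>
  sqrK x1 fun z50 =>
  rsubK z50 4722366764344621924352 0 fun z51 =>
  mulK z49 z51 fun z52 =>
  addcK z52 4722366412226023129088 0 fun z53 =>
  posK z53 <|
  true

def d_R (gs gt ps : ℕ) (sg v th u3 : ℝ) : Prop :=
  letR (sg ^ 2) fun z49 =>
  letR (v ^ 2) fun z50 =>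
  letR ((1 : ℝ) - z50) fun z51 =>
  letR (z49 * z51) fun z52 =>
  letR (z52 + (-257 / 1024 : ℝ)) fun z53 =>
  posR z53 <|
  True

theorem d_S {ε : Fin 4 → ℝ} (gs gt : ℕ) (hε : ∀ i, |ε i| ≤ 1) (ps : ℕ) (x0 x1 x2 x3 : AF) (sg v th u3 : ℝ)
    (h0 : Rel ε x0 sg) (h1 : Rel ε x1 v) (h2 : Rel ε x2 th) (h3 : Rel ε x3 u3) :
    d_B gs gt ps x0 x1 x2 x3 = true → d_R gs gt ps sg v th u3 := by
  delta d_B d_R
  exact sqrS hε h0 fun z49 t49 g49 =>
  sqrS hε h1 fun z50 t50 g50 =>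
  rsubS g50 k2 fun z51 t51 g51 =>
  mulS hε g49 g51 fun z52 t52 g52 =>
  addcS g52 k10 fun z53 t53 g53 =>
  posS hε g53 <|
  fun _ => trivial

/- obtain ⟨c0⟩ := h -/
def d_Spec (rhoa l4a kua kwa ma0a ma1a ma2a mb0a mb1a mb2a bq0a bq1a bq2a gq0a gq1a gq2a xq0a xq1a xq2a am0a am1a bm0a bm1a rhob l4b kub kwb ma0b ma1b ma2b mb0b mb1b mb2b bq0b bq1b bq2b gq0b gq1b gq2b xq0b xq1b xq2b am0b am1b bm0b bm1b sg v th : ℝ) : Prop :=
  0 ≤ (((sg ^ 2) * ((1 : ℝ) - (v ^ 2))) + (-257 / 1024 : ℝ))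

theorem d_E {gs gt ps : ℕ} {sg v th u3 : ℝ} (h : d_R gs gt ps sg v th u3) : d_Spec (parV gs 0) (parV gs 1) (parV gs 2) (parV gs 3) (parV gs 4) (parV gs 5) (parV gs 6) (parV gs 7) (parV gs 8) (parV gs 9) (parV gs 10) (parV gs 11) (parV gs 12) (parV gs 13) (parV gs 14) (parV gs 15) (parV gs 16) (parV gs 17) (parV gs 18) (parV gs 19) (parV gs 20) (parV gs 21) (parV gs 22) (parV gt 0) (parV gt 1) (parV gt 2) (parV gt 3) (parV gt 4) (parV gt 5) (parV gt 6) (parV gt 7) (parV gt 8) (parV gt 9) (parV gt 10) (parV gt 11) (parV gt 12) (parV gt 13) (parV gt 14) (parV gt 15) (parV gt 16) (parV gt 17) (parV gt 18) (parV gt 19) (parV gt 20) (parV gt 21) (parV gt 22) sg v th := by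
  delta d_R at h
  exact letR_in h fun h =>
  letR_in h fun h =>
  letR_in h fun h =>
  letR_in h fun h =>
  letR_in h fun h =>
  posR_ex h fun q1 h =>
  q1

def PB (gs gt : ℕ) : Prog := fun j ps x0 x1 x2 x3 =>
  Nat.rec (motive := fun _ => Bool) (a_B gs gt ps x0 x1 x2 x3) (fun j _ => d_B gs gt ps x0 x1 x2 x3) j

def PR (gs gt : ℕ) : ℕ → ℕ → ℝ → ℝ → ℝ → ℝ → Prop := fun j ps sg v th u3 =>
  Nat.rec (motive := fun _ => Prop) (a_R gs gt ps sg v th u3) (fun j _ => d_R gs gt ps sg v th u3) j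

theorem PS (gs gt : ℕ) : Sound (PB gs gt) (PR gs gt) := fun _ hε j => match j with
  | 0 => a_S gs gt hε
  | _ + 1 => d_S gs gt hε

theorem PE {j gs gt ps : ℕ} {sg v th u3 : ℝ} : PR gs gt j ps sg v th u3 → a_Spec (parV gs 0) (parV gs 1) (parV gs 2) (parV gs 3) (parV gs 4) (parV gs 5) (parV gs 6) (parV gs 7) (parV gs 8) (parV gs 9) (parV gs 10) (parV gs 11) (parV gs 12) (parV gs 13) (parV gs 14) (parV gs 15) (parV gs 16) (parV gs 17) (parV gs 18) (parV gs 19) (parV gs 20) (parV gs 21) (parV gs 22) (parV gt 0) (parV gt 1) (parV gt 2) (parV gt 3) (parV gt 4) (parV gt 5) (parV gt 6) (parV gt 7) (parV gt 8) (parV gt 9) (parV gt 10) (parV gt 11) (parV gt 12) (parV gt 13) (parV gt 14) (parV gt 15) (parV gt 16) (parV gt 17) (parV gt 18) (parV gt 19) (parV gt 20) (parV gt 21) (parV gt 22) sg v th ∨ d_Spec (parV gs 0) (parV gs 1) (parV gs 2) (parV gs 3) (parV gs 4) (parV gs 5) (parV gs 6) (parV gs 7) (parV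 gs 8) (parV gs 9) (parV gs 10) (parV gs 11) (parV gs 12) (parV gs 13) (parV gs 14) (parV gs 15) (parV gs 16) (parV gs 17) (parV gs 18) (parV gs 19) (parV gs 20) (parV gs 21) (parV gs 22) (parV gt 0) (parV gt 1) (parV gt 2) (parV gt 3) (parV gt 4) (parV gt 5) (parV gt 6) (parV gt 7) (parV gt 8) (parV gt 9) (parV gt 10) (parV gt 11) (parV gt 12) (parV gt 13) (parV gt 14) (parV gt 15) (parV gt 16) (parV gt 17) (parV gt 18) (parV gt 19) (parV gt 20) (parV gt 21) (parV gt 22) sg v th := match j with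
  | 0 => fun h => Or.inl (@a_E gs gt ps sg v th u3 h)
  | _ + 1 => fun h => Or.inr (@d_E gs gt ps sg v th u3 h)

theorem of_good {gs gt l0 h0 l1 h1 l2 h2 l3 h3 : ℕ} (h : Good (PR gs gt) l0 h0 l1 h1 l2 h2 l3 h3) {sg v th u3 : ℝ}
    (hb : InBox l0 h0 l1 h1 l2 h2 l3 h3 sg v th u3) : a_Spec (parV gs 0) (parV gs 1) (parV gs 2) (parV gs 3) (parV gs 4) (parV gs 5) (parV gs 6) (parV gs 7) (parV gs 8) (parV gs 9) (parV gs 10) (parV gs 11) (parV gs 12) (parV gs 13) (parV gs 14) (parV gs 15) (parV gs 16) (parV gs 17) (parV gs 18) (parV gs 19) (parV gs 20) (parV gs 21) (parV gs 22) (parV gt 0) (parV gt 1) (parV gt 2) (parV gt 3) (parV gt 4) (parV gt 5) (parV gt 6) (parV gt 7) (parV gt 8) (parV gt 9) (parV gt 10) (parV gt 11) (parV gt 12) (parV gt 13) (parV gt 14) (parV gt 15) (parV gt 16) (parV gt 17) (parV gt 18) (parV gt 19) (parV gt 20) (parV gt 21) (parV gt 22) sg v th ∨ d_Spec (parV gs 0) (parV gs 1) (parV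 gs 2) (parV gs 3) (parV gs 4) (parV gs 5) (parV gs 6) (parV gs 7) (parV gs 8) (parV gs 9) (parV gs 10) (parV gs 11) (parV gs 12) (parV gs 13) (parV gs 14) (parV gs 15) (parV gs 16) (parV gs 17) (parV gs 18) (parV gs 19) (parV gs 20) (parV gs 21) (parV gs 22) (parV gt 0) (parV gt 1) (parV gt 2) (parV gt 3) (parV gt 4) (parV gt 5) (parV gt 6) (parV gt 7) (parV gt 8) (parV gt 9) (parV gt 10) (parV gt 11) (parV gt 12) (parV gt 13) (parV gt 14) (parV gt 15) (parV gt 16) (parV gt 17) (parV gt 18) (parV gt 19) (parV gt 20) (parV gt 21) (parV gt 22) sg v th := by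
  obtain ⟨j, ps, h⟩ := h sg v th u3 hb
  exact PE h

def l0 : Tree := Tree.leaf 0
def l1 : Tree := Tree.leaf 1

end

end Crest.Agent.R307.BA
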