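import Crest.Agent.R307.AA

set_option autoImplicit false
set_option maxRecDepth 100000
set_option linter.unusedVariables false

namespace Crest.Agent.R307.BB
open Crest.Agent.R307.AA

noncomputable section

theorem k0 : |2 ^ 48 * (-1 / 64 : ℝ) - (((4722366478471598702592 : ℕ) : ℝ) - 2 ^ 72)| ≤ ((0 : ℕ) : ℝ) := by norm_num [abs_le]
theorem k1 : |2 ^ 48 * (1 : ℝ) - (((4722366764344621924352 : ℕ) : ℝ) - 2 ^ 72)| ≤ ((0 : ℕ) : ℝ) := by norm_num [abs_le]
theorem k2 : |2 ^ 48 * (9 / 10 : ℝ) - (((4722366736197124253286 : ℕ) : ℝ) - 2 ^ 72)| ≤ ((1 : ℕ) : ℝ) := by norm_num [abs_le]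
theorem k3 : |2 ^ 48 * (19 / 10 : ℝ) - (((4722367017672100963942 : ℕ) : ℝ) - 2 ^ 72)| ≤ ((1 : ℕ) : ℝ) := by norm_num [abs_le]
theorem k4 : |2 ^ 48 * (1 / 10 : ℝ) - (((4722366511017142884761 : ℕ) : ℝ) - 2 ^ 72)| ≤ ((1 : ℕ) : ℝ) := by norm_num [abs_le]
theorem k5 : (2 : ℝ) = val 4722367045819598635008 := by norm_num [val]
theorem k6 : |2 ^ 48 * (2 : ℝ) - (((4722367045819598635008 : ℕ) : ℝ) - 2 ^ 72)| ≤ ((0 : ℕ) : ℝ) := by norm_num [abs_le]
theorem k7 : |2 ^ 48 * (-1 : ℝ) - (((4722366201394668503040 : ℕ) : ℝ) - 2 ^ 72)| ≤ ((0 : ℕ) : ℝ) := by norm_num [abs_le]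
theorem k8 : (1 / 2 : ℝ) = val 4722366623607133569024 := by norm_num [val]
def a_B14 (gs gt ps : ℕ) (x2 z70 z90 z488 z387 z168 z239 z216 z162 z155 : AF) : Bool :=
  subK z162 z155 fun z163 =>
  sqrtK z163 fun z164 =>
  invK z164 fun z217 =>
  subK z164 z90 fun z218 =>
  normK z218 fun z219 =>
  sqrK z219 fun z220 =>
  subK z220 z168 fun z221 =>
  normK z221 fun z222 =>
  mulK z217 z222 fun z223 =>
  addK z162 z155 fun z165 =>
  sqrtK z165 fun z166 =>
  invK z166 fun z224 =>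
  subK z166 z90 fun z225 =>
  normK z225 fun z226 =>
  sqrK z226 fun z227 =>
  addK z227 z168 fun z228 =>
  normK z228 fun z229 =>
  mulK z224 z229 fun z230 =>
  addK z223 z230 fun z231 =>
  normK z231 fun z232 =>
  mulK z70 z232 fun z233 =>
  subK z216 z233 fun z234 =>
  addK z239 z234 fun z240 =>
  smulK z240 4722366623607133569024 fun z241 =>
  subK z387 z241 fun z489 =>
  normK z489 fun z490 =>
  mulK x2 z490 fun z491 =>
  addK z491 z241 fun z492 =>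
  subK z488 z492 fun z493 =>
  posK z493 <|
  true

def a_R14 (gs gt ps : ℕ) (th z70 z90 z488 z387 z168 z239 z216 z162 z155 : ℝ) : Prop :=
  letR (z162 - z155) fun z163 =>
  letR (√z163) fun z164 =>
  invR z164 fun z217 =>
  letR (z164 - z90) fun z218 =>
  letR z218 fun z219 =>
  letR (z219 ^ 2) fun z220 =>
  letR (z220 - z168) fun z221 =>
  letR z221 fun z222 =>
  letR (z217 * z222) fun z223 =>
  letR (z162 + z155) fun z165 =>
  letR (√z165) fun z166 =>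
  invR z166 fun z224 =>
  letR (z166 - z90) fun z225 =>
  letR z225 fun z226 =>
  letR (z226 ^ 2) fun z227 =>
  letR (z227 + z168) fun z228 =>
  letR z228 fun z229 =>
  letR (z224 * z229) fun z230 =>
  letR (z223 + z230) fun z231 =>
  letR z231 fun z232 =>
  letR (z70 * z232) fun z233 =>
  letR (z216 - z233) fun z234 =>
  letR (z239 + z234) fun z240 =>
  letR ((1 / 2 : ℝ) * z240) fun z241 =>
  letR (z387 - z241) fun z489 =>
  letR z489 fun z490 =>
  letR (th * z490) fun z491 =>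
  letR (z491 + z241) fun z492 =>
  letR (z488 - z492) fun z493 =>
  posR z493 <|
  True

theorem a_S14 {ε : Fin 4 → ℝ} (gs gt : ℕ) (hε : ∀ i, |ε i| ≤ 1) (ps : ℕ) (x2 z70 z90 z488 z387 z168 z239 z216 z162 z155 : AF) (th t70 t90 t488 t387 t168 t239 t216 t162 t155 : ℝ)
    (h2 : Rel ε x2 th) (g70 : Rel ε z70 t70) (g90 : Rel ε z90 t90) (g488 : Rel ε z488 t488) (g387 : Rel ε z387 t387) (g168 : Rel ε z168 t168) (g239 : Rel ε z239 t239) (g216 : Rel ε z216 t216) (g162 : Rel ε z162 t162) (g155 : Rel ε z155 t155) :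
    a_B14 gs gt ps x2 z70 z90 z488 z387 z168 z239 z216 z162 z155 = true → a_R14 gs gt ps th t70 t90 t488 t387 t168 t239 t216 t162 t155 := by
  delta a_B14 a_R14
  exact subS g162 g155 fun z163 t163 g163 =>
  sqrtS hε g163 fun z164 t164 g164 =>
  invS hε g164 fun z217 t217 g217 =>
  subS g164 g90 fun z218 t218 g218 =>
  normS g218 fun z219 t219 g219 =>
  sqrS hε g219 fun z220 t220 g220 =>
  subS g220 g168 fun z221 t221 g221 =>
  normS g221 fun z222 t222 g222 =>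
  mulS hε g217 g222 fun z223 t223 g223 =>
  addS g162 g155 fun z165 t165 g165 =>
  sqrtS hε g165 fun z166 t166 g166 =>
  invS hε g166 fun z224 t224 g224 =>
  subS g166 g90 fun z225 t225 g225 =>
  normS g225 fun z226 t226 g226 =>
  sqrS hε g226 fun z227 t227 g227 =>
  addS g227 g168 fun z228 t228 g228 =>
  normS g228 fun z229 t229 g229 =>
  mulS hε g224 g229 fun z230 t230 g230 =>
  addS g223 g230 fun z231 t231 g231 =>
  normS g231 fun z232 t232 g232 =>
  mulS hε g70 g232 fun z233 t233 g233 =>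
  subS g216 g233 fun z234 t234 g234 =>
  addS g239 g234 fun z240 t240 g240 =>
  smulS hε g240 k8 fun z241 t241 g241 =>
  subS g387 g241 fun z489 t489 g489 =>
  normS g489 fun z490 t490 g490 =>
  mulS hε h2 g490 fun z491 t491 g491 =>
  addS g491 g241 fun z492 t492 g492 =>
  subS g488 g492 fun z493 t493 g493 =>
  posS hε g493 <|
  fun _ => trivial

def a_B13 (gs gt ps : ℕ) (x2 z70 z90 z92 z76 z94 z488 z387 z143 z130 z145 z168 z239 z138 z142 : AF) : Bool :=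
  mulK z142 z143 fun z152 =>
  normK z152 fun z153 =>
  smulK z142 4722367045819598635008 fun z156 =>
  subK z153 z156 fun z157 =>
  addcK z157 4722366764344621924352 0 fun z158 =>
  sqrtK z158 fun z159 =>
  invK z159 fun z202 =>
  mulK z138 z202 fun z203 =>
  normK z203 fun z204 =>
  subK z92 z159 fun z205 =>
  normK z205 fun z206 =>
  sqrK z206 fun z207 =>
  mulK z204 z207 fun z208 =>
  mulK z130 z76 fun z139 =>
  normK z139 fun z140 =>
  rsubK z153 4722366764344621924352 0 fun z160 =>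
  sqrtK z160 fun z161 =>
  invK z161 fun z209 =>
  mulK z140 z209 fun z210 =>
  normK z210 fun z211 =>
  subK z94 z161 fun z212 =>
  normK z212 fun z213 =>
  sqrK z213 fun z214 =>
  mulK z211 z214 fun z215 =>
  addK z208 z215 fun z216 =>
  rsubK z142 4722366764344621924352 0 fun z162 =>
  mulK z142 z145 fun z154 =>
  normK z154 fun z155 =>
  a_B14 gs gt ps x2 z70 z90 z488 z387 z168 z239 z216 z162 z155

def a_R13 (gs gt ps : ℕ) (th z70 z90 z92 z76 z94 z488 z387 z143 z130 z145 z168 z239 z138 z142 : ℝ) : Prop :=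
  letR (z142 * z143) fun z152 =>
  letR z152 fun z153 =>
  letR ((2 : ℝ) * z142) fun z156 =>
  letR (z153 - z156) fun z157 =>
  letR (z157 + (1 : ℝ)) fun z158 =>
  letR (√z158) fun z159 =>
  invR z159 fun z202 =>
  letR (z138 * z202) fun z203 =>
  letR z203 fun z204 =>
  letR (z92 - z159) fun z205 =>
  letR z205 fun z206 =>
  letR (z206 ^ 2) fun z207 =>
  letR (z204 * z207) fun z208 =>
  letR (z130 * z76) fun z139 =>
  letR z139 fun z140 =>
  letR ((1 : ℝ) - z153) fun z160 =>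
  letR (√z160) fun z161 =>
  invR z161 fun z209 =>
  letR (z140 * z209) fun z210 =>
  letR z210 fun z211 =>
  letR (z94 - z161) fun z212 =>
  letR z212 fun z213 =>
  letR (z213 ^ 2) fun z214 =>
  letR (z211 * z214) fun z215 =>
  letR (z208 + z215) fun z216 =>
  letR ((1 : ℝ) - z142) fun z162 =>
  letR (z142 * z145) fun z154 =>
  letR z154 fun z155 =>
  a_R14 gs gt ps th z70 z90 z488 z387 z168 z239 z216 z162 z155

theorem a_S13 {ε : Fin 4 → ℝ} (gs gt : ℕ) (hε : ∀ i, |ε i| ≤ 1) (ps : ℕ) (x2 z70 z90 z92 z76 z94 z488 z387 z143 z130 z145 z168 z239 z138 z142 : AF) (th t70 t90 t92 t76 t94 t488 t387 t143 t130 t145 t168 t239 t138 t142 : ℝ)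
    (h2 : Rel ε x2 th) (g70 : Rel ε z70 t70) (g90 : Rel ε z90 t90) (g92 : Rel ε z92 t92) (g76 : Rel ε z76 t76) (g94 : Rel ε z94 t94) (g488 : Rel ε z488 t488) (g387 : Rel ε z387 t387) (g143 : Rel ε z143 t143) (g130 : Rel ε z130 t130) (g145 : Rel ε z145 t145) (g168 : Rel ε z168 t168) (g239 : Rel ε z239 t239) (g138 : Rel ε z138 t138) (g142 : Rel ε z142 t142) :
    a_B13 gs gt ps x2 z70 z90 z92 z76 z94 z488 z387 z143 z130 z145 z168 z239 z138 z142 = true → a_R13 gs gt ps th t70 t90 t92 t76 t94 t488 t387 t143 t130 t145 t168 t239 t138 t142 := by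
  delta a_B13 a_R13
  exact mulS hε g142 g143 fun z152 t152 g152 =>
  normS g152 fun z153 t153 g153 =>
  smulS hε g142 k5 fun z156 t156 g156 =>
  subS g153 g156 fun z157 t157 g157 =>
  addcS g157 k1 fun z158 t158 g158 =>
  sqrtS hε g158 fun z159 t159 g159 =>
  invS hε g159 fun z202 t202 g202 =>
  mulS hε g138 g202 fun z203 t203 g203 =>
  normS g203 fun z204 t204 g204 =>
  subS g92 g159 fun z205 t205 g205 =>
  normS g205 fun z206 t206 g206 =>
  sqrS hε g206 fun z207 t207 g207 =>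
  mulS hε g204 g207 fun z208 t208 g208 =>
  mulS hε g130 g76 fun z139 t139 g139 =>
  normS g139 fun z140 t140 g140 =>
  rsubS g153 k1 fun z160 t160 g160 =>
  sqrtS hε g160 fun z161 t161 g161 =>
  invS hε g161 fun z209 t209 g209 =>
  mulS hε g140 g209 fun z210 t210 g210 =>
  normS g210 fun z211 t211 g211 =>
  subS g94 g161 fun z212 t212 g212 =>
  normS g212 fun z213 t213 g213 =>
  sqrS hε g213 fun z214 t214 g214 =>
  mulS hε g211 g214 fun z215 t215 g215 =>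
  addS g208 g215 fun z216 t216 g216 =>
  rsubS g142 k1 fun z162 t162 g162 =>
  mulS hε g142 g145 fun z154 t154 g154 =>
  normS g154 fun z155 t155 g155 =>
  a_S14 gs gt hε ps x2 z70 z90 z488 z387 z168 z239 z216 z162 z155 th t70 t90 t488 t387 t168 t239 t216 t162 t155 h2 g70 g90 g488 g387 g168 g239 g216 g162 g155

def a_B12 (gs gt ps : ℕ) (x0 x2 z5 z70 z90 z73 z92 z76 z94 z488 z167 z387 z237 z124 z143 z141 z176 z130 z181 : AF) : Bool :=
  smulK z181 4722367045819598635008 fun z182 =>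
  addK z176 z182 fun z183 =>
  rsubK z143 4722366764344621924352 0 fun z144 =>
  mulK z5 z144 fun z145 =>
  addcK z145 4722366764344621924352 0 fun z148 =>
  sqrtK z148 fun z149 =>
  invK z149 fun z184 =>
  mulK z141 z149 fun z185 =>
  subK z185 x0 fun z186 =>
  normK z186 fun z187 =>
  sqrK z187 fun z188 =>
  mulK z5 z167 fun z168 =>
  addK z188 z168 fun z189 =>
  normK z189 fun z190 =>
  mulK z184 z190 fun z191 =>
  subK z183 z191 fun z192 =>
  rsubK z145 4722366764344621924352 0 fun z150 =>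
  sqrtK z150 fun z151 =>
  invK z151 fun z193 =>
  mulK z141 z151 fun z194 =>
  subK z194 x0 fun z195 =>
  normK z195 fun z196 =>
  sqrK z196 fun z197 =>
  subK z197 z168 fun z198 =>
  normK z198 fun z199 =>
  mulK z193 z199 fun z200 =>
  subK z192 z200 fun z201 =>
  normK z201 fun z238 =>
  mulK z237 z238 fun z239 =>
  mulK z124 z73 fun z137 =>
  normK z137 fun z138 =>
  sqrK z141 fun z142 =>
  a_B13 gs gt ps x2 z70 z90 z92 z76 z94 z488 z387 z143 z130 z145 z168 z239 z138 z142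

def a_R12 (gs gt ps : ℕ) (sg th z5 z70 z90 z73 z92 z76 z94 z488 z167 z387 z237 z124 z143 z141 z176 z130 z181 : ℝ) : Prop :=
  letR ((2 : ℝ) * z181) fun z182 =>
  letR (z176 + z182) fun z183 =>
  letR ((1 : ℝ) - z143) fun z144 =>
  letR (z5 * z144) fun z145 =>
  letR (z145 + (1 : ℝ)) fun z148 =>
  letR (√z148) fun z149 =>
  invR z149 fun z184 =>
  letR (z141 * z149) fun z185 =>
  letR (z185 - sg) fun z186 =>
  letR z186 fun z187 =>
  letR (z187 ^ 2) fun z188 =>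
  letR (z5 * z167) fun z168 =>
  letR (z188 + z168) fun z189 =>
  letR z189 fun z190 =>
  letR (z184 * z190) fun z191 =>
  letR (z183 - z191) fun z192 =>
  letR ((1 : ℝ) - z145) fun z150 =>
  letR (√z150) fun z151 =>
  invR z151 fun z193 =>
  letR (z141 * z151) fun z194 =>
  letR (z194 - sg) fun z195 =>
  letR z195 fun z196 =>
  letR (z196 ^ 2) fun z197 =>
  letR (z197 - z168) fun z198 =>
  letR z198 fun z199 =>
  letR (z193 * z199) fun z200 =>
  letR (z192 - z200) fun z201 =>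
  letR z201 fun z238 =>
  letR (z237 * z238) fun z239 =>
  letR (z124 * z73) fun z137 =>
  letR z137 fun z138 =>
  letR (z141 ^ 2) fun z142 =>
  a_R13 gs gt ps th z70 z90 z92 z76 z94 z488 z387 z143 z130 z145 z168 z239 z138 z142

theorem a_S12 {ε : Fin 4 → ℝ} (gs gt : ℕ) (hε : ∀ i, |ε i| ≤ 1) (ps : ℕ) (x0 x2 z5 z70 z90 z73 z92 z76 z94 z488 z167 z387 z237 z124 z143 z141 z176 z130 z181 : AF) (sg th t5 t70 t90 t73 t92 t76 t94 t488 t167 t387 t237 t124 t143 t141 t176 t130 t181 : ℝ)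
    (h0 : Rel ε x0 sg) (h2 : Rel ε x2 th) (g5 : Rel ε z5 t5) (g70 : Rel ε z70 t70) (g90 : Rel ε z90 t90) (g73 : Rel ε z73 t73) (g92 : Rel ε z92 t92) (g76 : Rel ε z76 t76) (g94 : Rel ε z94 t94) (g488 : Rel ε z488 t488) (g167 : Rel ε z167 t167) (g387 : Rel ε z387 t387) (g237 : Rel ε z237 t237) (g124 : Rel ε z124 t124) (g143 : Rel ε z143 t143) (g141 : Rel ε z141 t141) (g176 : Rel ε z176 t176) (g130 : Rel ε z130 t130) (g181 : Rel ε z181 t181) :
    a_B12 gs gt ps x0 x2 z5 z70 z90 z73 z92 z76 z94 z488 z167 z387 z237 z124 z143 z141 z176 z130 z181 = true → a_R12 gs gt ps sg th t5 t70 t90 t73 t92 t76 t94 t488 t167 t387 t237 t124 t143 t141 t176 t130 t181 := by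
  delta a_B12 a_R12
  exact smulS hε g181 k5 fun z182 t182 g182 =>
  addS g176 g182 fun z183 t183 g183 =>
  rsubS g143 k1 fun z144 t144 g144 =>
  mulS hε g5 g144 fun z145 t145 g145 =>
  addcS g145 k1 fun z148 t148 g148 =>
  sqrtS hε g148 fun z149 t149 g149 =>
  invS hε g149 fun z184 t184 g184 =>
  mulS hε g141 g149 fun z185 t185 g185 =>
  subS g185 h0 fun z186 t186 g186 =>
  normS g186 fun z187 t187 g187 =>
  sqrS hε g187 fun z188 t188 g188 =>
  mulS hε g5 g167 fun z168 t168 g168 =>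
  addS g188 g168 fun z189 t189 g189 =>
  normS g189 fun z190 t190 g190 =>
  mulS hε g184 g190 fun z191 t191 g191 =>
  subS g183 g191 fun z192 t192 g192 =>
  rsubS g145 k1 fun z150 t150 g150 =>
  sqrtS hε g150 fun z151 t151 g151 =>
  invS hε g151 fun z193 t193 g193 =>
  mulS hε g141 g151 fun z194 t194 g194 =>
  subS g194 h0 fun z195 t195 g195 =>
  normS g195 fun z196 t196 g196 =>
  sqrS hε g196 fun z197 t197 g197 =>
  subS g197 g168 fun z198 t198 g198 =>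
  normS g198 fun z199 t199 g199 =>
  mulS hε g193 g199 fun z200 t200 g200 =>
  subS g192 g200 fun z201 t201 g201 =>
  normS g201 fun z238 t238 g238 =>
  mulS hε g237 g238 fun z239 t239 g239 =>
  mulS hε g124 g73 fun z137 t137 g137 =>
  normS g137 fun z138 t138 g138 =>
  sqrS hε g141 fun z142 t142 g142 =>
  a_S13 gs gt hε ps x2 z70 z90 z92 z76 z94 z488 z387 z143 z130 z145 z168 z239 z138 z142 th t70 t90 t92 t76 t94 t488 t387 t143 t130 t145 t168 t239 t138 t142 h2 g70 g90 g92 g76 g94 g488 g387 g143 g130 g145 g168 g239 g138 g142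

def a_B11 (gs gt ps : ℕ) (x0 x1 x2 z5 z62 z70 z90 z98 z73 z88 z92 z102 z76 z85 z94 z110 z113 z6 z112 z488 z81 z84 z167 z387 : AF) : Bool :=
  parK gs 10 fun z15 =>
  parK gs 11 fun z16 =>
  mulK z16 x0 fun z120 =>
  addK z15 z120 fun z121 =>
  parK gs 12 fun z17 =>
  mulK z17 x1 fun z122 =>
  addK z121 z122 fun z123 =>
  invK z123 fun z235 =>
  mulK z62 z235 fun z236 =>
  normK z236 fun z237 =>
  normK z98 fun z124 =>
  mulK z124 z81 fun z125 =>
  normK z125 fun z126 =>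
  sqrK z113 fun z143 =>
  rsubK z143 4722367045819598635008 0 fun z146 =>
  sqrtK z146 fun z147 =>
  invK z147 fun z169 =>
  mulK z126 z169 fun z170 =>
  normK z170 fun z171 =>
  normK z123 fun z141 =>
  mulK z141 z147 fun z172 =>
  subK z88 z172 fun z173 =>
  normK z173 fun z174 =>
  sqrK z174 fun z175 =>
  mulK z171 z175 fun z176 =>
  normK z102 fun z130 =>
  addK x1 z6 fun z127 =>
  normK z127 fun z128 =>
  mulK x1 z128 fun z129 =>
  mulK z130 z129 fun z131 =>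
  mulK z131 z84 fun z132 =>
  addK z132 z110 fun z133 =>
  normK z133 fun z134 =>
  mulK z134 z112 fun z135 =>
  normK z135 fun z136 =>
  mulK z141 z113 fun z177 =>
  subK z85 z177 fun z178 =>
  normK z178 fun z179 =>
  sqrK z179 fun z180 =>
  mulK z136 z180 fun z181 =>
  a_B12 gs gt ps x0 x2 z5 z70 z90 z73 z92 z76 z94 z488 z167 z387 z237 z124 z143 z141 z176 z130 z181

def a_R11 (gs gt ps : ℕ) (sg v th z5 z62 z70 z90 z98 z73 z88 z92 z102 z76 z85 z94 z110 z113 z6 z112 z488 z81 z84 z167 z387 : ℝ) : Prop :=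
  letR (parV gs 10) fun z15 =>
  letR (parV gs 11) fun z16 =>
  letR (z16 * sg) fun z120 =>
  letR (z15 + z120) fun z121 =>
  letR (parV gs 12) fun z17 =>
  letR (z17 * v) fun z122 =>
  letR (z121 + z122) fun z123 =>
  invR z123 fun z235 =>
  letR (z62 * z235) fun z236 =>
  letR z236 fun z237 =>
  letR z98 fun z124 =>
  letR (z124 * z81) fun z125 =>
  letR z125 fun z126 =>
  letR (z113 ^ 2) fun z143 =>
  letR ((2 : ℝ) - z143) fun z146 =>
  letR (√z146) fun z147 =>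
  invR z147 fun z169 =>
  letR (z126 * z169) fun z170 =>
  letR z170 fun z171 =>
  letR z123 fun z141 =>
  letR (z141 * z147) fun z172 =>
  letR (z88 - z172) fun z173 =>
  letR z173 fun z174 =>
  letR (z174 ^ 2) fun z175 =>
  letR (z171 * z175) fun z176 =>
  letR z102 fun z130 =>
  letR (v + z6) fun z127 =>
  letR z127 fun z128 =>
  letR (v * z128) fun z129 =>
  letR (z130 * z129) fun z131 =>
  letR (z131 * z84) fun z132 =>
  letR (z132 + z110) fun z133 =>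
  letR z133 fun z134 =>
  letR (z134 * z112) fun z135 =>
  letR z135 fun z136 =>
  letR (z141 * z113) fun z177 =>
  letR (z85 - z177) fun z178 =>
  letR z178 fun z179 =>
  letR (z179 ^ 2) fun z180 =>
  letR (z136 * z180) fun z181 =>
  a_R12 gs gt ps sg th z5 z70 z90 z73 z92 z76 z94 z488 z167 z387 z237 z124 z143 z141 z176 z130 z181

theorem a_S11 {ε : Fin 4 → ℝ} (gs gt : ℕ) (hε : ∀ i, |ε i| ≤ 1) (ps : ℕ) (x0 x1 x2 z5 z62 z70 z90 z98 z73 z88 z92 z102 z76 z85 z94 z110 z113 z6 z112 z488 z81 z84 z167 z387 : AF) (sg v th t5 t62 t70 t90 t98 t73 t88 t92 t102 t76 t85 t94 t110 t113 t6 t112 t488 t81 t84 t167 t387 : ℝ)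
    (h0 : Rel ε x0 sg) (h1 : Rel ε x1 v) (h2 : Rel ε x2 th) (g5 : Rel ε z5 t5) (g62 : Rel ε z62 t62) (g70 : Rel ε z70 t70) (g90 : Rel ε z90 t90) (g98 : Rel ε z98 t98) (g73 : Rel ε z73 t73) (g88 : Rel ε z88 t88) (g92 : Rel ε z92 t92) (g102 : Rel ε z102 t102) (g76 : Rel ε z76 t76) (g85 : Rel ε z85 t85) (g94 : Rel ε z94 t94) (g110 : Rel ε z110 t110) (g113 : Rel ε z113 t113) (g6 : Rel ε z6 t6) (g112 : Rel ε z112 t112) (g488 : Rel ε z488 t488) (g81 : Rel ε z81 t81) (g84 : Rel ε z84 t84) (g167 : Rel ε z167 t167) (g387 : Rel ε z387 t387) :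
    a_B11 gs gt ps x0 x1 x2 z5 z62 z70 z90 z98 z73 z88 z92 z102 z76 z85 z94 z110 z113 z6 z112 z488 z81 z84 z167 z387 = true → a_R11 gs gt ps sg v th t5 t62 t70 t90 t98 t73 t88 t92 t102 t76 t85 t94 t110 t113 t6 t112 t488 t81 t84 t167 t387 := by
  delta a_B11 a_R11
  exact parS fun z15 t15 g15 =>
  parS fun z16 t16 g16 =>
  mulS hε g16 h0 fun z120 t120 g120 =>
  addS g15 g120 fun z121 t121 g121 =>
  parS fun z17 t17 g17 =>
  mulS hε g17 h1 fun z122 t122 g122 =>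
  addS g121 g122 fun z123 t123 g123 =>
  invS hε g123 fun z235 t235 g235 =>
  mulS hε g62 g235 fun z236 t236 g236 =>
  normS g236 fun z237 t237 g237 =>
  normS g98 fun z124 t124 g124 =>
  mulS hε g124 g81 fun z125 t125 g125 =>
  normS g125 fun z126 t126 g126 =>
  sqrS hε g113 fun z143 t143 g143 =>
  rsubS g143 k6 fun z146 t146 g146 =>
  sqrtS hε g146 fun z147 t147 g147 =>
  invS hε g147 fun z169 t169 g169 =>
  mulS hε g126 g169 fun z170 t170 g170 =>
  normS g170 fun z171 t171 g171 =>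
  normS g123 fun z141 t141 g141 =>
  mulS hε g141 g147 fun z172 t172 g172 =>
  subS g88 g172 fun z173 t173 g173 =>
  normS g173 fun z174 t174 g174 =>
  sqrS hε g174 fun z175 t175 g175 =>
  mulS hε g171 g175 fun z176 t176 g176 =>
  normS g102 fun z130 t130 g130 =>
  addS h1 g6 fun z127 t127 g127 =>
  normS g127 fun z128 t128 g128 =>
  mulS hε h1 g128 fun z129 t129 g129 =>
  mulS hε g130 g129 fun z131 t131 g131 =>
  mulS hε g131 g84 fun z132 t132 g132 =>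
  addS g132 g110 fun z133 t133 g133 =>
  normS g133 fun z134 t134 g134 =>
  mulS hε g134 g112 fun z135 t135 g135 =>
  normS g135 fun z136 t136 g136 =>
  mulS hε g141 g113 fun z177 t177 g177 =>
  subS g85 g177 fun z178 t178 g178 =>
  normS g178 fun z179 t179 g179 =>
  sqrS hε g179 fun z180 t180 g180 =>
  mulS hε g136 g180 fun z181 t181 g181 =>
  a_S12 gs gt hε ps x0 x2 z5 z70 z90 z73 z92 z76 z94 z488 z167 z387 z237 z124 z143 z141 z176 z130 z181 sg th t5 t70 t90 t73 t92 t76 t94 t488 t167 t387 t237 t124 t143 t141 t176 t130 t181 h0 h2 g5 g70 g90 g73 g92 g76 g94 g488 g167 g387 g237 g124 g143 g141 g176 g130 g181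

def a_B10 (gs gt ps : ℕ) (x0 x1 x2 z5 z62 z70 z90 z98 z73 z88 z92 z102 z76 z85 z94 z110 z113 z6 z112 z488 z81 z84 z292 z167 z314 z385 z289 z362 : AF) : Bool :=
  rsubK z289 4722366764344621924352 0 fun z309 =>
  mulK z289 z292 fun z301 =>
  normK z301 fun z302 =>
  subK z309 z302 fun z310 =>
  sqrtK z310 fun z311 =>
  invK z311 fun z363 =>
  subK z311 z90 fun z364 =>
  normK z364 fun z365 =>
  sqrK z365 fun z366 =>
  subK z366 z314 fun z367 =>
  normK z367 fun z368 =>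
  mulK z363 z368 fun z369 =>
  addK z309 z302 fun z312 =>
  sqrtK z312 fun z313 =>
  invK z313 fun z370 =>
  subK z313 z90 fun z371 =>
  normK z371 fun z372 =>
  sqrK z372 fun z373 =>
  addK z373 z314 fun z374 =>
  normK z374 fun z375 =>
  mulK z370 z375 fun z376 =>
  addK z369 z376 fun z377 =>
  normK z377 fun z378 =>
  mulK z70 z378 fun z379 =>
  subK z362 z379 fun z380 =>
  addK z385 z380 fun z386 =>
  smulK z386 4722366623607133569024 fun z387 =>
  a_B11 gs gt ps x0 x1 x2 z5 z62 z70 z90 z98 z73 z88 z92 z102 z76 z85 z94 z110 z113 z6 z112 z488 z81 z84 z167 z387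

def a_R10 (gs gt ps : ℕ) (sg v th z5 z62 z70 z90 z98 z73 z88 z92 z102 z76 z85 z94 z110 z113 z6 z112 z488 z81 z84 z292 z167 z314 z385 z289 z362 : ℝ) : Prop :=
  letR ((1 : ℝ) - z289) fun z309 =>
  letR (z289 * z292) fun z301 =>
  letR z301 fun z302 =>
  letR (z309 - z302) fun z310 =>
  letR (√z310) fun z311 =>
  invR z311 fun z363 =>
  letR (z311 - z90) fun z364 =>
  letR z364 fun z365 =>
  letR (z365 ^ 2) fun z366 =>
  letR (z366 - z314) fun z367 =>
  letR z367 fun z368 =>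
  letR (z363 * z368) fun z369 =>
  letR (z309 + z302) fun z312 =>
  letR (√z312) fun z313 =>
  invR z313 fun z370 =>
  letR (z313 - z90) fun z371 =>
  letR z371 fun z372 =>
  letR (z372 ^ 2) fun z373 =>
  letR (z373 + z314) fun z374 =>
  letR z374 fun z375 =>
  letR (z370 * z375) fun z376 =>
  letR (z369 + z376) fun z377 =>
  letR z377 fun z378 =>
  letR (z70 * z378) fun z379 =>
  letR (z362 - z379) fun z380 =>
  letR (z385 + z380) fun z386 =>
  letR ((1 / 2 : ℝ) * z386) fun z387 =>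
  a_R11 gs gt ps sg v th z5 z62 z70 z90 z98 z73 z88 z92 z102 z76 z85 z94 z110 z113 z6 z112 z488 z81 z84 z167 z387

theorem a_S10 {ε : Fin 4 → ℝ} (gs gt : ℕ) (hε : ∀ i, |ε i| ≤ 1) (ps : ℕ) (x0 x1 x2 z5 z62 z70 z90 z98 z73 z88 z92 z102 z76 z85 z94 z110 z113 z6 z112 z488 z81 z84 z292 z167 z314 z385 z289 z362 : AF) (sg v th t5 t62 t70 t90 t98 t73 t88 t92 t102 t76 t85 t94 t110 t113 t6 t112 t488 t81 t84 t292 t167 t314 t385 t289 t362 : ℝ)
    (h0 : Rel ε x0 sg) (h1 : Rel ε x1 v) (h2 : Rel ε x2 th) (g5 : Rel ε z5 t5) (g62 : Rel ε z62 t62) (g70 : Rel ε z70 t70) (g90 : Rel ε z90 t90) (g98 : Rel ε z98 t98) (g73 : Rel ε z73 t73) (g88 : Rel ε z88 t88) (g92 : Rel ε z92 t92) (g102 : Rel ε z102 t102) (g76 : Rel ε z76 t76) (g85 : Rel ε z85 t85) (g94 : Rel ε z94 t94) (g110 : Rel ε z110 t110) (g113 : Rel ε z113 t113) (g6 : Rel ε z6 t6) (g112 : Rel ε z112 t112) (g488 : Rel ε z488 t488) (g81 : Rel ε z81 t81) (g84 : Rel ε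 z84 t84) (g292 : Rel ε z292 t292) (g167 : Rel ε z167 t167) (g314 : Rel ε z314 t314) (g385 : Rel ε z385 t385) (g289 : Rel ε z289 t289) (g362 : Rel ε z362 t362) :
    a_B10 gs gt ps x0 x1 x2 z5 z62 z70 z90 z98 z73 z88 z92 z102 z76 z85 z94 z110 z113 z6 z112 z488 z81 z84 z292 z167 z314 z385 z289 z362 = true → a_R10 gs gt ps sg v th t5 t62 t70 t90 t98 t73 t88 t92 t102 t76 t85 t94 t110 t113 t6 t112 t488 t81 t84 t292 t167 t314 t385 t289 t362 := by
  delta a_B10 a_R10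
  exact rsubS g289 k1 fun z309 t309 g309 =>
  mulS hε g289 g292 fun z301 t301 g301 =>
  normS g301 fun z302 t302 g302 =>
  subS g309 g302 fun z310 t310 g310 =>
  sqrtS hε g310 fun z311 t311 g311 =>
  invS hε g311 fun z363 t363 g363 =>
  subS g311 g90 fun z364 t364 g364 =>
  normS g364 fun z365 t365 g365 =>
  sqrS hε g365 fun z366 t366 g366 =>
  subS g366 g314 fun z367 t367 g367 =>
  normS g367 fun z368 t368 g368 =>
  mulS hε g363 g368 fun z369 t369 g369 =>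
  addS g309 g302 fun z312 t312 g312 =>
  sqrtS hε g312 fun z313 t313 g313 =>
  invS hε g313 fun z370 t370 g370 =>
  subS g313 g90 fun z371 t371 g371 =>
  normS g371 fun z372 t372 g372 =>
  sqrS hε g372 fun z373 t373 g373 =>
  addS g373 g314 fun z374 t374 g374 =>
  normS g374 fun z375 t375 g375 =>
  mulS hε g370 g375 fun z376 t376 g376 =>
  addS g369 g376 fun z377 t377 g377 =>
  normS g377 fun z378 t378 g378 =>
  mulS hε g70 g378 fun z379 t379 g379 =>
  subS g362 g379 fun z380 t380 g380 =>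
  addS g385 g380 fun z386 t386 g386 =>
  smulS hε g386 k8 fun z387 t387 g387 =>
  a_S11 gs gt hε ps x0 x1 x2 z5 z62 z70 z90 z98 z73 z88 z92 z102 z76 z85 z94 z110 z113 z6 z112 z488 z81 z84 z167 z387 sg v th t5 t62 t70 t90 t98 t73 t88 t92 t102 t76 t85 t94 t110 t113 t6 t112 t488 t81 t84 t167 t387 h0 h1 h2 g5 g62 g70 g90 g98 g73 g88 g92 g102 g76 g85 g94 g110 g113 g6 g112 g488 g81 g84 g167 g387

def a_B9 (gs gt ps : ℕ) (x0 x1 x2 z5 z62 z70 z90 z98 z73 z88 z92 z102 z76 z85 z94 z110 z113 z6 z112 z488 z383 z271 z81 z290 z288 z277 z84 z292 z167 z314 z338 : AF) : Bool :=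
  rsubK z292 4722366764344621924352 0 fun z297 =>
  sqrtK z297 fun z298 =>
  invK z298 fun z339 =>
  mulK z288 z298 fun z340 =>
  subK z340 x0 fun z341 =>
  normK z341 fun z342 =>
  sqrK z342 fun z343 =>
  subK z343 z314 fun z344 =>
  normK z344 fun z345 =>
  mulK z339 z345 fun z346 =>
  subK z338 z346 fun z347 =>
  normK z347 fun z384 =>
  mulK z383 z384 fun z385 =>
  mulK z271 z73 fun z284 =>
  normK z284 fun z285 =>
  sqrK z288 fun z289 =>
  mulK z289 z290 fun z299 =>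
  normK z299 fun z300 =>
  smulK z289 4722367045819598635008 fun z303 =>
  subK z300 z303 fun z304 =>
  addcK z304 4722366764344621924352 0 fun z305 =>
  sqrtK z305 fun z306 =>
  invK z306 fun z348 =>
  mulK z285 z348 fun z349 =>
  normK z349 fun z350 =>
  subK z92 z306 fun z351 =>
  normK z351 fun z352 =>
  sqrK z352 fun z353 =>
  mulK z350 z353 fun z354 =>
  mulK z277 z76 fun z286 =>
  normK z286 fun z287 =>
  rsubK z300 4722366764344621924352 0 fun z307 =>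
  sqrtK z307 fun z308 =>
  invK z308 fun z355 =>
  mulK z287 z355 fun z356 =>
  normK z356 fun z357 =>
  subK z94 z308 fun z358 =>
  normK z358 fun z359 =>
  sqrK z359 fun z360 =>
  mulK z357 z360 fun z361 =>
  addK z354 z361 fun z362 =>
  a_B10 gs gt ps x0 x1 x2 z5 z62 z70 z90 z98 z73 z88 z92 z102 z76 z85 z94 z110 z113 z6 z112 z488 z81 z84 z292 z167 z314 z385 z289 z362

def a_R9 (gs gt ps : ℕ) (sg v th z5 z62 z70 z90 z98 z73 z88 z92 z102 z76 z85 z94 z110 z113 z6 z112 z488 z383 z271 z81 z290 z288 z277 z84 z292 z167 z314 z338 : ℝ) : Prop :=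
  letR ((1 : ℝ) - z292) fun z297 =>
  letR (√z297) fun z298 =>
  invR z298 fun z339 =>
  letR (z288 * z298) fun z340 =>
  letR (z340 - sg) fun z341 =>
  letR z341 fun z342 =>
  letR (z342 ^ 2) fun z343 =>
  letR (z343 - z314) fun z344 =>
  letR z344 fun z345 =>
  letR (z339 * z345) fun z346 =>
  letR (z338 - z346) fun z347 =>
  letR z347 fun z384 =>
  letR (z383 * z384) fun z385 =>
  letR (z271 * z73) fun z284 =>
  letR z284 fun z285 =>
  letR (z288 ^ 2) fun z289 =>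
  letR (z289 * z290) fun z299 =>
  letR z299 fun z300 =>
  letR ((2 : ℝ) * z289) fun z303 =>
  letR (z300 - z303) fun z304 =>
  letR (z304 + (1 : ℝ)) fun z305 =>
  letR (√z305) fun z306 =>
  invR z306 fun z348 =>
  letR (z285 * z348) fun z349 =>
  letR z349 fun z350 =>
  letR (z92 - z306) fun z351 =>
  letR z351 fun z352 =>
  letR (z352 ^ 2) fun z353 =>
  letR (z350 * z353) fun z354 =>
  letR (z277 * z76) fun z286 =>
  letR z286 fun z287 =>
  letR ((1 : ℝ) - z300) fun z307 =>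
  letR (√z307) fun z308 =>
  invR z308 fun z355 =>
  letR (z287 * z355) fun z356 =>
  letR z356 fun z357 =>
  letR (z94 - z308) fun z358 =>
  letR z358 fun z359 =>
  letR (z359 ^ 2) fun z360 =>
  letR (z357 * z360) fun z361 =>
  letR (z354 + z361) fun z362 =>
  a_R10 gs gt ps sg v th z5 z62 z70 z90 z98 z73 z88 z92 z102 z76 z85 z94 z110 z113 z6 z112 z488 z81 z84 z292 z167 z314 z385 z289 z362

theorem a_S9 {ε : Fin 4 → ℝ} (gs gt : ℕ) (hε : ∀ i, |ε i| ≤ 1) (ps : ℕ) (x0 x1 x2 z5 z62 z70 z90 z98 z73 z88 z92 z102 z76 z85 z94 z110 z113 z6 z112 z488 z383 z271 z81 z290 z288 z277 z84 z292 z167 z314 z338 : AF) (sg v th t5 t62 t70 t90 t98 t73 t88 t92 t102 t76 t85 t94 t110 t113 t6 t112 t488 t383 t271 t81 t290 t288 t277 t84 t292 t167 t314 t338 : ℝ)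
    (h0 : Rel ε x0 sg) (h1 : Rel ε x1 v) (h2 : Rel ε x2 th) (g5 : Rel ε z5 t5) (g62 : Rel ε z62 t62) (g70 : Rel ε z70 t70) (g90 : Rel ε z90 t90) (g98 : Rel ε z98 t98) (g73 : Rel ε z73 t73) (g88 : Rel ε z88 t88) (g92 : Rel ε z92 t92) (g102 : Rel ε z102 t102) (g76 : Rel ε z76 t76) (g85 : Rel ε z85 t85) (g94 : Rel ε z94 t94) (g110 : Rel ε z110 t110) (g113 : Rel ε z113 t113) (g6 : Rel ε z6 t6) (g112 : Rel ε z112 t112) (g488 : Rel ε z488 t488) (g383 : Rel ε z383 t383) (g271 : Rel ε z271 t271) (g81 : Rel ε z81 t81) (g290 : Rel ε z290 t290) (g288 : Rel ε z288 t288) (g277 : Rel ε z277 t277) (g84 : Rel ε z84 t84) (g292 : Rel ε z292 t292) (g167 : Rel ε z167 t167) (g314 : Rel ε z314 t314) (g338 : Rel ε z338 t338) :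
    a_B9 gs gt ps x0 x1 x2 z5 z62 z70 z90 z98 z73 z88 z92 z102 z76 z85 z94 z110 z113 z6 z112 z488 z383 z271 z81 z290 z288 z277 z84 z292 z167 z314 z338 = true → a_R9 gs gt ps sg v th t5 t62 t70 t90 t98 t73 t88 t92 t102 t76 t85 t94 t110 t113 t6 t112 t488 t383 t271 t81 t290 t288 t277 t84 t292 t167 t314 t338 := by
  delta a_B9 a_R9
  exact rsubS g292 k1 fun z297 t297 g297 =>
  sqrtS hε g297 fun z298 t298 g298 =>
  invS hε g298 fun z339 t339 g339 =>
  mulS hε g288 g298 fun z340 t340 g340 =>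
  subS g340 h0 fun z341 t341 g341 =>
  normS g341 fun z342 t342 g342 =>
  sqrS hε g342 fun z343 t343 g343 =>
  subS g343 g314 fun z344 t344 g344 =>
  normS g344 fun z345 t345 g345 =>
  mulS hε g339 g345 fun z346 t346 g346 =>
  subS g338 g346 fun z347 t347 g347 =>
  normS g347 fun z384 t384 g384 =>
  mulS hε g383 g384 fun z385 t385 g385 =>
  mulS hε g271 g73 fun z284 t284 g284 =>
  normS g284 fun z285 t285 g285 =>
  sqrS hε g288 fun z289 t289 g289 =>
  mulS hε g289 g290 fun z299 t299 g299 =>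
  normS g299 fun z300 t300 g300 =>
  smulS hε g289 k5 fun z303 t303 g303 =>
  subS g300 g303 fun z304 t304 g304 =>
  addcS g304 k1 fun z305 t305 g305 =>
  sqrtS hε g305 fun z306 t306 g306 =>
  invS hε g306 fun z348 t348 g348 =>
  mulS hε g285 g348 fun z349 t349 g349 =>
  normS g349 fun z350 t350 g350 =>
  subS g92 g306 fun z351 t351 g351 =>
  normS g351 fun z352 t352 g352 =>
  sqrS hε g352 fun z353 t353 g353 =>
  mulS hε g350 g353 fun z354 t354 g354 =>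
  mulS hε g277 g76 fun z286 t286 g286 =>
  normS g286 fun z287 t287 g287 =>
  rsubS g300 k1 fun z307 t307 g307 =>
  sqrtS hε g307 fun z308 t308 g308 =>
  invS hε g308 fun z355 t355 g355 =>
  mulS hε g287 g355 fun z356 t356 g356 =>
  normS g356 fun z357 t357 g357 =>
  subS g94 g308 fun z358 t358 g358 =>
  normS g358 fun z359 t359 g359 =>
  sqrS hε g359 fun z360 t360 g360 =>
  mulS hε g357 g360 fun z361 t361 g361 =>
  addS g354 g361 fun z362 t362 g362 =>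
  a_S10 gs gt hε ps x0 x1 x2 z5 z62 z70 z90 z98 z73 z88 z92 z102 z76 z85 z94 z110 z113 z6 z112 z488 z81 z84 z292 z167 z314 z385 z289 z362 sg v th t5 t62 t70 t90 t98 t73 t88 t92 t102 t76 t85 t94 t110 t113 t6 t112 t488 t81 t84 t292 t167 t314 t385 t289 t362 h0 h1 h2 g5 g62 g70 g90 g98 g73 g88 g92 g102 g76 g85 g94 g110 g113 g6 g112 g488 g81 g84 g292 g167 g314 g385 g289 g362

def a_B8 (gs gt ps : ℕ) (x0 x1 x2 z28 z5 z51 z62 z70 z90 z98 z53 z73 z88 z92 z102 z76 z85 z94 z257 z260 z259 z110 z113 z6 z112 z488 z383 z271 z81 z290 z288 z322 z277 z278 z82 : AF) : Bool :=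
  normK z82 fun z83 =>
  smulK z83 4722366623607133569024 fun z84 =>
  mulK z278 z84 fun z279 =>
  addK z279 z257 fun z280 =>
  normK z280 fun z281 =>
  mulK z281 z259 fun z282 =>
  normK z282 fun z283 =>
  mulK z288 z260 fun z323 =>
  subK z85 z323 fun z324 =>
  normK z324 fun z325 =>
  sqrK z325 fun z326 =>
  mulK z283 z326 fun z327 =>
  smulK z327 4722367045819598635008 fun z328 =>
  addK z322 z328 fun z329 =>
  rsubK z290 4722366764344621924352 0 fun z291 =>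
  mulK z28 z291 fun z292 =>
  addcK z292 4722366764344621924352 0 fun z295 =>
  sqrtK z295 fun z296 =>
  invK z296 fun z330 =>
  mulK z288 z296 fun z331 =>
  subK z331 x0 fun z332 =>
  normK z332 fun z333 =>
  sqrK z333 fun z334 =>
  subK z51 z53 fun z56 =>
  normK z56 fun z167 =>
  mulK z28 z167 fun z314 =>
  addK z334 z314 fun z335 =>
  normK z335 fun z336 =>
  mulK z330 z336 fun z337 =>
  subK z329 z337 fun z338 =>
  a_B9 gs gt ps x0 x1 x2 z5 z62 z70 z90 z98 z73 z88 z92 z102 z76 z85 z94 z110 z113 z6 z112 z488 z383 z271 z81 z290 z288 z277 z84 z292 z167 z314 z338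

def a_R8 (gs gt ps : ℕ) (sg v th z28 z5 z51 z62 z70 z90 z98 z53 z73 z88 z92 z102 z76 z85 z94 z257 z260 z259 z110 z113 z6 z112 z488 z383 z271 z81 z290 z288 z322 z277 z278 z82 : ℝ) : Prop :=
  letR z82 fun z83 =>
  letR ((1 / 2 : ℝ) * z83) fun z84 =>
  letR (z278 * z84) fun z279 =>
  letR (z279 + z257) fun z280 =>
  letR z280 fun z281 =>
  letR (z281 * z259) fun z282 =>
  letR z282 fun z283 =>
  letR (z288 * z260) fun z323 =>
  letR (z85 - z323) fun z324 =>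
  letR z324 fun z325 =>
  letR (z325 ^ 2) fun z326 =>
  letR (z283 * z326) fun z327 =>
  letR ((2 : ℝ) * z327) fun z328 =>
  letR (z322 + z328) fun z329 =>
  letR ((1 : ℝ) - z290) fun z291 =>
  letR (z28 * z291) fun z292 =>
  letR (z292 + (1 : ℝ)) fun z295 =>
  letR (√z295) fun z296 =>
  invR z296 fun z330 =>
  letR (z288 * z296) fun z331 =>
  letR (z331 - sg) fun z332 =>
  letR z332 fun z333 =>
  letR (z333 ^ 2) fun z334 =>
  letR (z51 - z53) fun z56 =>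
  letR z56 fun z167 =>
  letR (z28 * z167) fun z314 =>
  letR (z334 + z314) fun z335 =>
  letR z335 fun z336 =>
  letR (z330 * z336) fun z337 =>
  letR (z329 - z337) fun z338 =>
  a_R9 gs gt ps sg v th z5 z62 z70 z90 z98 z73 z88 z92 z102 z76 z85 z94 z110 z113 z6 z112 z488 z383 z271 z81 z290 z288 z277 z84 z292 z167 z314 z338

theorem a_S8 {ε : Fin 4 → ℝ} (gs gt : ℕ) (hε : ∀ i, |ε i| ≤ 1) (ps : ℕ) (x0 x1 x2 z28 z5 z51 z62 z70 z90 z98 z53 z73 z88 z92 z102 z76 z85 z94 z257 z260 z259 z110 z113 z6 z112 z488 z383 z271 z81 z290 z288 z322 z277 z278 z82 : AF) (sg v th t28 t5 t51 t62 t70 t90 t98 t53 t73 t88 t92 t102 t76 t85 t94 t257 t260 t259 t110 t113 t6 t112 t488 t383 t271 t81 t290 t288 t322 t277 t278 t82 : ℝ)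
    (h0 : Rel ε x0 sg) (h1 : Rel ε x1 v) (h2 : Rel ε x2 th) (g28 : Rel ε z28 t28) (g5 : Rel ε z5 t5) (g51 : Rel ε z51 t51) (g62 : Rel ε z62 t62) (g70 : Rel ε z70 t70) (g90 : Rel ε z90 t90) (g98 : Rel ε z98 t98) (g53 : Rel ε z53 t53) (g73 : Rel ε z73 t73) (g88 : Rel ε z88 t88) (g92 : Rel ε z92 t92) (g102 : Rel ε z102 t102) (g76 : Rel ε z76 t76) (g85 : Rel ε z85 t85) (g94 : Rel ε z94 t94) (g257 : Rel ε z257 t257) (g260 : Rel ε z260 t260) (g259 : Rel ε z259 t259) (g110 : Rel ε z110 t110) (g113 : Rel ε z113 t113) (g6 : Rel ε z6 t6) (g112 : Rel ε z112 t112) (g488 : Rel ε z488 t488) (g383 : Rel ε z383 t383) (g271 : Rel ε z271 t271) (g81 : Rel ε z81 t81) (g290 : Rel ε z290 t290) (g288 : Rel ε z288 t288) (g322 : Rel ε z322 t322) (g277 : Rel ε z277 t277) (g278 : Rel ε z278 t278) (g82 : Rel ε z82 t82) :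
    a_B8 gs gt ps x0 x1 x2 z28 z5 z51 z62 z70 z90 z98 z53 z73 z88 z92 z102 z76 z85 z94 z257 z260 z259 z110 z113 z6 z112 z488 z383 z271 z81 z290 z288 z322 z277 z278 z82 = true → a_R8 gs gt ps sg v th t28 t5 t51 t62 t70 t90 t98 t53 t73 t88 t92 t102 t76 t85 t94 t257 t260 t259 t110 t113 t6 t112 t488 t383 t271 t81 t290 t288 t322 t277 t278 t82 := by
  delta a_B8 a_R8
  exact normS g82 fun z83 t83 g83 =>
  smulS hε g83 k8 fun z84 t84 g84 =>
  mulS hε g278 g84 fun z279 t279 g279 =>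
  addS g279 g257 fun z280 t280 g280 =>
  normS g280 fun z281 t281 g281 =>
  mulS hε g281 g259 fun z282 t282 g282 =>
  normS g282 fun z283 t283 g283 =>
  mulS hε g288 g260 fun z323 t323 g323 =>
  subS g85 g323 fun z324 t324 g324 =>
  normS g324 fun z325 t325 g325 =>
  sqrS hε g325 fun z326 t326 g326 =>
  mulS hε g283 g326 fun z327 t327 g327 =>
  smulS hε g327 k5 fun z328 t328 g328 =>
  addS g322 g328 fun z329 t329 g329 =>
  rsubS g290 k1 fun z291 t291 g291 =>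
  mulS hε g28 g291 fun z292 t292 g292 =>
  addcS g292 k1 fun z295 t295 g295 =>
  sqrtS hε g295 fun z296 t296 g296 =>
  invS hε g296 fun z330 t330 g330 =>
  mulS hε g288 g296 fun z331 t331 g331 =>
  subS g331 h0 fun z332 t332 g332 =>
  normS g332 fun z333 t333 g333 =>
  sqrS hε g333 fun z334 t334 g334 =>
  subS g51 g53 fun z56 t56 g56 =>
  normS g56 fun z167 t167 g167 =>
  mulS hε g28 g167 fun z314 t314 g314 =>
  addS g334 g314 fun z335 t335 g335 =>
  normS g335 fun z336 t336 g336 =>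
  mulS hε g330 g336 fun z337 t337 g337 =>
  subS g329 g337 fun z338 t338 g338 =>
  a_S9 gs gt hε ps x0 x1 x2 z5 z62 z70 z90 z98 z73 z88 z92 z102 z76 z85 z94 z110 z113 z6 z112 z488 z383 z271 z81 z290 z288 z277 z84 z292 z167 z314 z338 sg v th t5 t62 t70 t90 t98 t73 t88 t92 t102 t76 t85 t94 t110 t113 t6 t112 t488 t383 t271 t81 t290 t288 t277 t84 t292 t167 t314 t338 h0 h1 h2 g5 g62 g70 g90 g98 g73 g88 g92 g102 g76 g85 g94 g110 g113 g6 g112 g488 g383 g271 g81 g290 g288 g277 g84 g292 g167 g314 g338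

def a_B7 (gs gt ps : ℕ) (x0 x1 x2 z28 z5 z51 z59 z62 z70 z90 z245 z98 z53 z65 z73 z77 z88 z92 z249 z102 z67 z76 z85 z94 z485 z257 z260 z29 z259 z110 z113 z6 z112 z465 z476 z482 : AF) : Bool :=
  addK z476 z482 fun z483 =>
  normK z483 fun z486 =>
  mulK z465 z486 fun z487 =>
  subK z485 z487 fun z488 =>
  parK gt 10 fun z38 =>
  parK gt 11 fun z39 =>
  mulK z39 x0 fun z267 =>
  addK z38 z267 fun z268 =>
  parK gt 12 fun z40 =>
  mulK z40 x1 fun z269 =>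
  addK z268 z269 fun z270 =>
  invK z270 fun z381 =>
  mulK z62 z381 fun z382 =>
  normK z382 fun z383 =>
  normK z245 fun z271 =>
  invK z59 fun z60 =>
  mulK z65 z60 fun z78 =>
  normK z78 fun z79 =>
  mulK z77 z79 fun z80 =>
  normK z80 fun z81 =>
  mulK z271 z81 fun z272 =>
  normK z272 fun z273 =>
  sqrK z260 fun z290 =>
  rsubK z290 4722367045819598635008 0 fun z293 =>
  sqrtK z293 fun z294 =>
  invK z294 fun z315 =>
  mulK z273 z315 fun z316 =>
  normK z316 fun z317 =>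
  normK z270 fun z288 =>
  mulK z288 z294 fun z318 =>
  subK z88 z318 fun z319 =>
  normK z319 fun z320 =>
  sqrK z320 fun z321 =>
  mulK z317 z321 fun z322 =>
  normK z249 fun z277 =>
  addK x1 z29 fun z274 =>
  normK z274 fun z275 =>
  mulK x1 z275 fun z276 =>
  mulK z277 z276 fun z278 =>
  mulK z67 z60 fun z82 =>
  a_B8 gs gt ps x0 x1 x2 z28 z5 z51 z62 z70 z90 z98 z53 z73 z88 z92 z102 z76 z85 z94 z257 z260 z259 z110 z113 z6 z112 z488 z383 z271 z81 z290 z288 z322 z277 z278 z82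

def a_R7 (gs gt ps : ℕ) (sg v th z28 z5 z51 z59 z62 z70 z90 z245 z98 z53 z65 z73 z77 z88 z92 z249 z102 z67 z76 z85 z94 z485 z257 z260 z29 z259 z110 z113 z6 z112 z465 z476 z482 : ℝ) : Prop :=
  letR (z476 + z482) fun z483 =>
  letR z483 fun z486 =>
  letR (z465 * z486) fun z487 =>
  letR (z485 - z487) fun z488 =>
  letR (parV gt 10) fun z38 =>
  letR (parV gt 11) fun z39 =>
  letR (z39 * sg) fun z267 =>
  letR (z38 + z267) fun z268 =>
  letR (parV gt 12) fun z40 =>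
  letR (z40 * v) fun z269 =>
  letR (z268 + z269) fun z270 =>
  invR z270 fun z381 =>
  letR (z62 * z381) fun z382 =>
  letR z382 fun z383 =>
  letR z245 fun z271 =>
  invR z59 fun z60 =>
  letR (z65 * z60) fun z78 =>
  letR z78 fun z79 =>
  letR (z77 * z79) fun z80 =>
  letR z80 fun z81 =>
  letR (z271 * z81) fun z272 =>
  letR z272 fun z273 =>
  letR (z260 ^ 2) fun z290 =>
  letR ((2 : ℝ) - z290) fun z293 =>
  letR (√z293) fun z294 =>
  invR z294 fun z315 =>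
  letR (z273 * z315) fun z316 =>
  letR z316 fun z317 =>
  letR z270 fun z288 =>
  letR (z288 * z294) fun z318 =>
  letR (z88 - z318) fun z319 =>
  letR z319 fun z320 =>
  letR (z320 ^ 2) fun z321 =>
  letR (z317 * z321) fun z322 =>
  letR z249 fun z277 =>
  letR (v + z29) fun z274 =>
  letR z274 fun z275 =>
  letR (v * z275) fun z276 =>
  letR (z277 * z276) fun z278 =>
  letR (z67 * z60) fun z82 =>
  a_R8 gs gt ps sg v th z28 z5 z51 z62 z70 z90 z98 z53 z73 z88 z92 z102 z76 z85 z94 z257 z260 z259 z110 z113 z6 z112 z488 z383 z271 z81 z290 z288 z322 z277 z278 z82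

theorem a_S7 {ε : Fin 4 → ℝ} (gs gt : ℕ) (hε : ∀ i, |ε i| ≤ 1) (ps : ℕ) (x0 x1 x2 z28 z5 z51 z59 z62 z70 z90 z245 z98 z53 z65 z73 z77 z88 z92 z249 z102 z67 z76 z85 z94 z485 z257 z260 z29 z259 z110 z113 z6 z112 z465 z476 z482 : AF) (sg v th t28 t5 t51 t59 t62 t70 t90 t245 t98 t53 t65 t73 t77 t88 t92 t249 t102 t67 t76 t85 t94 t485 t257 t260 t29 t259 t110 t113 t6 t112 t465 t476 t482 : ℝ)
    (h0 : Rel ε x0 sg) (h1 : Rel ε x1 v) (h2 : Rel ε x2 th) (g28 : Rel ε z28 t28) (g5 : Rel ε z5 t5) (g51 : Rel ε z51 t51) (g59 : Rel ε z59 t59) (g62 : Rel ε z62 t62) (g70 : Rel ε z70 t70) (g90 : Rel ε z90 t90) (g245 : Rel ε z245 t245) (g98 : Rel ε z98 t98) (g53 : Rel ε z53 t53) (g65 : Rel ε z65 t65) (g73 : Rel ε z73 t73) (g77 : Rel ε z77 t77) (g88 : Rel ε z88 t88) (g92 : Rel ε z92 t92) (g249 : Rel ε z249 t249) (g102 : Rel ε z102 t102) (g67 : Rel ε z67 t67) (g76 : Rel ε z76 t76) (g85 : Rel ε z85 t85) (g94 : Rel ε z94 t94)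 (g485 : Rel ε z485 t485) (g257 : Rel ε z257 t257) (g260 : Rel ε z260 t260) (g29 : Rel ε z29 t29) (g259 : Rel ε z259 t259) (g110 : Rel ε z110 t110) (g113 : Rel ε z113 t113) (g6 : Rel ε z6 t6) (g112 : Rel ε z112 t112) (g465 : Rel ε z465 t465) (g476 : Rel ε z476 t476) (g482 : Rel ε z482 t482) :
    a_B7 gs gt ps x0 x1 x2 z28 z5 z51 z59 z62 z70 z90 z245 z98 z53 z65 z73 z77 z88 z92 z249 z102 z67 z76 z85 z94 z485 z257 z260 z29 z259 z110 z113 z6 z112 z465 z476 z482 = true → a_R7 gs gt ps sg v th t28 t5 t51 t59 t62 t70 t90 t245 t98 t53 t65 t73 t77 t88 t92 t249 t102 t67 t76 t85 t94 t485 t257 t260 t29 t259 t110 t113 t6 t112 t465 t476 t482 := by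
  delta a_B7 a_R7
  exact addS g476 g482 fun z483 t483 g483 =>
  normS g483 fun z486 t486 g486 =>
  mulS hε g465 g486 fun z487 t487 g487 =>
  subS g485 g487 fun z488 t488 g488 =>
  parS fun z38 t38 g38 =>
  parS fun z39 t39 g39 =>
  mulS hε g39 h0 fun z267 t267 g267 =>
  addS g38 g267 fun z268 t268 g268 =>
  parS fun z40 t40 g40 =>
  mulS hε g40 h1 fun z269 t269 g269 =>
  addS g268 g269 fun z270 t270 g270 =>
  invS hε g270 fun z381 t381 g381 =>
  mulS hε g62 g381 fun z382 t382 g382 =>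
  normS g382 fun z383 t383 g383 =>
  normS g245 fun z271 t271 g271 =>
  invS hε g59 fun z60 t60 g60 =>
  mulS hε g65 g60 fun z78 t78 g78 =>
  normS g78 fun z79 t79 g79 =>
  mulS hε g77 g79 fun z80 t80 g80 =>
  normS g80 fun z81 t81 g81 =>
  mulS hε g271 g81 fun z272 t272 g272 =>
  normS g272 fun z273 t273 g273 =>
  sqrS hε g260 fun z290 t290 g290 =>
  rsubS g290 k6 fun z293 t293 g293 =>
  sqrtS hε g293 fun z294 t294 g294 =>
  invS hε g294 fun z315 t315 g315 =>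
  mulS hε g273 g315 fun z316 t316 g316 =>
  normS g316 fun z317 t317 g317 =>
  normS g270 fun z288 t288 g288 =>
  mulS hε g288 g294 fun z318 t318 g318 =>
  subS g88 g318 fun z319 t319 g319 =>
  normS g319 fun z320 t320 g320 =>
  sqrS hε g320 fun z321 t321 g321 =>
  mulS hε g317 g321 fun z322 t322 g322 =>
  normS g249 fun z277 t277 g277 =>
  addS h1 g29 fun z274 t274 g274 =>
  normS g274 fun z275 t275 g275 =>
  mulS hε h1 g275 fun z276 t276 g276 =>
  mulS hε g277 g276 fun z278 t278 g278 =>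
  mulS hε g67 g60 fun z82 t82 g82 =>
  a_S8 gs gt hε ps x0 x1 x2 z28 z5 z51 z62 z70 z90 z98 z53 z73 z88 z92 z102 z76 z85 z94 z257 z260 z259 z110 z113 z6 z112 z488 z383 z271 z81 z290 z288 z322 z277 z278 z82 sg v th t28 t5 t51 t62 t70 t90 t98 t53 t73 t88 t92 t102 t76 t85 t94 t257 t260 t259 t110 t113 t6 t112 t488 t383 t271 t81 t290 t288 t322 t277 t278 t82 h0 h1 h2 g28 g5 g51 g62 g70 g90 g98 g53 g73 g88 g92 g102 g76 g85 g94 g257 g260 g259 g110 g113 g6 g112 g488 g383 g271 g81 g290 g288 g322 g277 g278 g82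

def a_B6 (gs gt ps : ℕ) (x0 x1 x2 z3 z4 z28 z5 z394 z51 z59 z62 z70 z90 z245 z98 z53 z65 z73 z77 z88 z92 z249 z102 z67 z76 z85 z94 z485 z257 z260 z29 z259 z266 z110 : AF) : Bool :=
  normK z110 fun z116 =>
  parK gs 13 fun z18 =>
  parK gs 14 fun z19 =>
  mulK z19 x0 fun z103 =>
  addK z18 z103 fun z104 =>
  parK gs 15 fun z20 =>
  mulK z20 x1 fun z105 =>
  addK z104 z105 fun z106 =>
  normK z106 fun z113 =>
  parK gs 1 fun z6 =>
  addK z106 z6 fun z111 =>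
  invK z111 fun z112 =>
  mulK z113 z112 fun z114 =>
  normK z114 fun z115 =>
  mulK z116 z115 fun z117 =>
  normK z117 fun z118 =>
  smulK z118 4722367045819598635008 fun z119 =>
  subK z266 z119 fun z459 =>
  normK z459 fun z460 =>
  mulK x2 z460 fun z461 =>
  addK z461 z119 fun z462 =>
  normK z462 fun z463 =>
  mulK z463 z62 fun z464 =>
  normK z464 fun z465 =>
  logK z4 fun z472 =>
  addcK z472 4722366201394668503040 0 fun z473 =>
  mulK z4 z473 fun z474 =>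
  addcK z474 4722366764344621924352 0 fun z475 =>
  mulK z85 z475 fun z476 =>
  normK z394 fun z477 =>
  rsubK z394 4722367045819598635008 0 fun z470 =>
  invK z470 fun z471 =>
  mulK z477 z471 fun z478 =>
  normK z478 fun z479 =>
  mulK z4 z479 fun z480 =>
  logK z3 fun z466 =>
  addcK z466 4722366764344621924352 0 fun z467 =>
  mulK z85 z467 fun z468 =>
  subK z3 z468 fun z469 =>
  normK z469 fun z481 =>
  mulK z480 z481 fun z482 =>
  a_B7 gs gt ps x0 x1 x2 z28 z5 z51 z59 z62 z70 z90 z245 z98 z53 z65 z73 z77 z88 z92 z249 z102 z67 z76 z85 z94 z485 z257 z260 z29 z259 z110 z113 z6 z112 z465 z476 z482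

def a_R6 (gs gt ps : ℕ) (sg v th z3 z4 z28 z5 z394 z51 z59 z62 z70 z90 z245 z98 z53 z65 z73 z77 z88 z92 z249 z102 z67 z76 z85 z94 z485 z257 z260 z29 z259 z266 z110 : ℝ) : Prop :=
  letR z110 fun z116 =>
  letR (parV gs 13) fun z18 =>
  letR (parV gs 14) fun z19 =>
  letR (z19 * sg) fun z103 =>
  letR (z18 + z103) fun z104 =>
  letR (parV gs 15) fun z20 =>
  letR (z20 * v) fun z105 =>
  letR (z104 + z105) fun z106 =>
  letR z106 fun z113 =>
  letR (parV gs 1) fun z6 =>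
  letR (z106 + z6) fun z111 =>
  invR z111 fun z112 =>
  letR (z113 * z112) fun z114 =>
  letR z114 fun z115 =>
  letR (z116 * z115) fun z117 =>
  letR z117 fun z118 =>
  letR ((2 : ℝ) * z118) fun z119 =>
  letR (z266 - z119) fun z459 =>
  letR z459 fun z460 =>
  letR (th * z460) fun z461 =>
  letR (z461 + z119) fun z462 =>
  letR z462 fun z463 =>
  letR (z463 * z62) fun z464 =>
  letR z464 fun z465 =>
  logR z4 fun z472 =>
  letR (z472 + (-1 : ℝ)) fun z473 =>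
  letR (z4 * z473) fun z474 =>
  letR (z474 + (1 : ℝ)) fun z475 =>
  letR (z85 * z475) fun z476 =>
  letR z394 fun z477 =>
  letR ((2 : ℝ) - z394) fun z470 =>
  invR z470 fun z471 =>
  letR (z477 * z471) fun z478 =>
  letR z478 fun z479 =>
  letR (z4 * z479) fun z480 =>
  logR z3 fun z466 =>
  letR (z466 + (1 : ℝ)) fun z467 =>
  letR (z85 * z467) fun z468 =>
  letR (z3 - z468) fun z469 =>
  letR z469 fun z481 =>
  letR (z480 * z481) fun z482 =>
  a_R7 gs gt ps sg v th z28 z5 z51 z59 z62 z70 z90 z245 z98 z53 z65 z73 z77 z88 z92 z249 z102 z67 z76 z85 z94 z485 z257 z260 z29 z259 z110 z113 z6 z112 z465 z476 z482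

theorem a_S6 {ε : Fin 4 → ℝ} (gs gt : ℕ) (hε : ∀ i, |ε i| ≤ 1) (ps : ℕ) (x0 x1 x2 z3 z4 z28 z5 z394 z51 z59 z62 z70 z90 z245 z98 z53 z65 z73 z77 z88 z92 z249 z102 z67 z76 z85 z94 z485 z257 z260 z29 z259 z266 z110 : AF) (sg v th t3 t4 t28 t5 t394 t51 t59 t62 t70 t90 t245 t98 t53 t65 t73 t77 t88 t92 t249 t102 t67 t76 t85 t94 t485 t257 t260 t29 t259 t266 t110 : ℝ)
    (h0 : Rel ε x0 sg) (h1 : Rel ε x1 v) (h2 : Rel ε x2 th) (g3 : Rel ε z3 t3) (g4 : Rel ε z4 t4) (g28 : Rel ε z28 t28) (g5 : Rel ε z5 t5) (g394 : Rel ε z394 t394) (g51 : Rel ε z51 t51) (g59 : Rel ε z59 t59) (g62 : Rel ε z62 t62) (g70 : Rel ε z70 t70) (g90 : Rel ε z90 t90) (g245 : Rel ε z245 t245) (g98 : Rel ε z98 t98) (g53 : Rel ε z53 t53) (g65 : Rel ε z65 t65) (g73 : Rel ε z73 t73) (g77 : Rel ε z77 t77) (g88 : Rel ε z88 t88) (g92 : Rel ε z92 t92) (g249 : Rel ε z249 t249) (g102 : Rel ε z102 t102) (g67 : Rel ε z67 t67) (g76 : Rel ε z76 t76) (g85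 : Rel ε z85 t85) (g94 : Rel ε z94 t94) (g485 : Rel ε z485 t485) (g257 : Rel ε z257 t257) (g260 : Rel ε z260 t260) (g29 : Rel ε z29 t29) (g259 : Rel ε z259 t259) (g266 : Rel ε z266 t266) (g110 : Rel ε z110 t110) :
    a_B6 gs gt ps x0 x1 x2 z3 z4 z28 z5 z394 z51 z59 z62 z70 z90 z245 z98 z53 z65 z73 z77 z88 z92 z249 z102 z67 z76 z85 z94 z485 z257 z260 z29 z259 z266 z110 = true → a_R6 gs gt ps sg v th t3 t4 t28 t5 t394 t51 t59 t62 t70 t90 t245 t98 t53 t65 t73 t77 t88 t92 t249 t102 t67 t76 t85 t94 t485 t257 t260 t29 t259 t266 t110 := by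
  delta a_B6 a_R6
  exact normS g110 fun z116 t116 g116 =>
  parS fun z18 t18 g18 =>
  parS fun z19 t19 g19 =>
  mulS hε g19 h0 fun z103 t103 g103 =>
  addS g18 g103 fun z104 t104 g104 =>
  parS fun z20 t20 g20 =>
  mulS hε g20 h1 fun z105 t105 g105 =>
  addS g104 g105 fun z106 t106 g106 =>
  normS g106 fun z113 t113 g113 =>
  parS fun z6 t6 g6 =>
  addS g106 g6 fun z111 t111 g111 =>
  invS hε g111 fun z112 t112 g112 =>
  mulS hε g113 g112 fun z114 t114 g114 =>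
  normS g114 fun z115 t115 g115 =>
  mulS hε g116 g115 fun z117 t117 g117 =>
  normS g117 fun z118 t118 g118 =>
  smulS hε g118 k5 fun z119 t119 g119 =>
  subS g266 g119 fun z459 t459 g459 =>
  normS g459 fun z460 t460 g460 =>
  mulS hε h2 g460 fun z461 t461 g461 =>
  addS g461 g119 fun z462 t462 g462 =>
  normS g462 fun z463 t463 g463 =>
  mulS hε g463 g62 fun z464 t464 g464 =>
  normS g464 fun z465 t465 g465 =>
  logS hε g4 fun z472 t472 g472 =>
  addcS g472 k7 fun z473 t473 g473 =>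
  mulS hε g4 g473 fun z474 t474 g474 =>
  addcS g474 k1 fun z475 t475 g475 =>
  mulS hε g85 g475 fun z476 t476 g476 =>
  normS g394 fun z477 t477 g477 =>
  rsubS g394 k6 fun z470 t470 g470 =>
  invS hε g470 fun z471 t471 g471 =>
  mulS hε g477 g471 fun z478 t478 g478 =>
  normS g478 fun z479 t479 g479 =>
  mulS hε g4 g479 fun z480 t480 g480 =>
  logS hε g3 fun z466 t466 g466 =>
  addcS g466 k1 fun z467 t467 g467 =>
  mulS hε g85 g467 fun z468 t468 g468 =>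
  subS g3 g468 fun z469 t469 g469 =>
  normS g469 fun z481 t481 g481 =>
  mulS hε g480 g481 fun z482 t482 g482 =>
  a_S7 gs gt hε ps x0 x1 x2 z28 z5 z51 z59 z62 z70 z90 z245 z98 z53 z65 z73 z77 z88 z92 z249 z102 z67 z76 z85 z94 z485 z257 z260 z29 z259 z110 z113 z6 z112 z465 z476 z482 sg v th t28 t5 t51 t59 t62 t70 t90 t245 t98 t53 t65 t73 t77 t88 t92 t249 t102 t67 t76 t85 t94 t485 t257 t260 t29 t259 t110 t113 t6 t112 t465 t476 t482 h0 h1 h2 g28 g5 g51 g59 g62 g70 g90 g245 g98 g53 g65 g73 g77 g88 g92 g249 g102 g67 g76 g85 g94 g485 g257 g260 g29 g259 g110 g113 g6 g112 g465 g476 g482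

def a_B5 (gs gt ps : ℕ) (x0 x1 x2 z3 z4 z28 z5 z394 z51 z59 z62 z70 z90 z245 z98 z53 z65 z73 z77 z88 z92 z249 z102 z67 z76 z85 z94 z485 z257 : AF) : Bool :=
  normK z257 fun z263 =>
  parK gt 13 fun z41 =>
  parK gt 14 fun z42 =>
  mulK z42 x0 fun z250 =>
  addK z41 z250 fun z251 =>
  parK gt 15 fun z43 =>
  mulK z43 x1 fun z252 =>
  addK z251 z252 fun z253 =>
  normK z253 fun z260 =>
  parK gt 1 fun z29 =>
  addK z253 z29 fun z258 =>
  invK z258 fun z259 =>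
  mulK z260 z259 fun z261 =>
  normK z261 fun z262 =>
  mulK z263 z262 fun z264 =>
  normK z264 fun z265 =>
  smulK z265 4722367045819598635008 fun z266 =>
  parK gs 16 fun z21 =>
  parK gs 17 fun z22 =>
  mulK z22 x0 fun z107 =>
  addK z21 z107 fun z108 =>
  parK gs 18 fun z23 =>
  mulK z23 x1 fun z109 =>
  addK z108 z109 fun z110 =>
  a_B6 gs gt ps x0 x1 x2 z3 z4 z28 z5 z394 z51 z59 z62 z70 z90 z245 z98 z53 z65 z73 z77 z88 z92 z249 z102 z67 z76 z85 z94 z485 z257 z260 z29 z259 z266 z110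

def a_R5 (gs gt ps : ℕ) (sg v th z3 z4 z28 z5 z394 z51 z59 z62 z70 z90 z245 z98 z53 z65 z73 z77 z88 z92 z249 z102 z67 z76 z85 z94 z485 z257 : ℝ) : Prop :=
  letR z257 fun z263 =>
  letR (parV gt 13) fun z41 =>
  letR (parV gt 14) fun z42 =>
  letR (z42 * sg) fun z250 =>
  letR (z41 + z250) fun z251 =>
  letR (parV gt 15) fun z43 =>
  letR (z43 * v) fun z252 =>
  letR (z251 + z252) fun z253 =>
  letR z253 fun z260 =>
  letR (parV gt 1) fun z29 =>
  letR (z253 + z29) fun z258 =>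
  invR z258 fun z259 =>
  letR (z260 * z259) fun z261 =>
  letR z261 fun z262 =>
  letR (z263 * z262) fun z264 =>
  letR z264 fun z265 =>
  letR ((2 : ℝ) * z265) fun z266 =>
  letR (parV gs 16) fun z21 =>
  letR (parV gs 17) fun z22 =>
  letR (z22 * sg) fun z107 =>
  letR (z21 + z107) fun z108 =>
  letR (parV gs 18) fun z23 =>
  letR (z23 * v) fun z109 =>
  letR (z108 + z109) fun z110 =>
  a_R6 gs gt ps sg v th z3 z4 z28 z5 z394 z51 z59 z62 z70 z90 z245 z98 z53 z65 z73 z77 z88 z92 z249 z102 z67 z76 z85 z94 z485 z257 z260 z29 z259 z266 z110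

theorem a_S5 {ε : Fin 4 → ℝ} (gs gt : ℕ) (hε : ∀ i, |ε i| ≤ 1) (ps : ℕ) (x0 x1 x2 z3 z4 z28 z5 z394 z51 z59 z62 z70 z90 z245 z98 z53 z65 z73 z77 z88 z92 z249 z102 z67 z76 z85 z94 z485 z257 : AF) (sg v th t3 t4 t28 t5 t394 t51 t59 t62 t70 t90 t245 t98 t53 t65 t73 t77 t88 t92 t249 t102 t67 t76 t85 t94 t485 t257 : ℝ)
    (h0 : Rel ε x0 sg) (h1 : Rel ε x1 v) (h2 : Rel ε x2 th) (g3 : Rel ε z3 t3) (g4 : Rel ε z4 t4) (g28 : Rel ε z28 t28) (g5 : Rel ε z5 t5) (g394 : Rel ε z394 t394) (g51 : Rel ε z51 t51) (g59 : Rel ε z59 t59) (g62 : Rel ε z62 t62) (g70 : Rel ε z70 t70) (g90 : Rel ε z90 t90) (g245 : Rel ε z245 t245) (g98 : Rel ε z98 t98) (g53 : Rel ε z53 t53) (g65 : Rel ε z65 t65) (g73 : Rel ε z73 t73) (g77 : Rel ε z77 t77) (g88 : Rel ε z88 t88) (g92 : Rel ε z92 t92) (g249 : Rel ε z249 t249) (g102 : Rel ε z102 t102) (g67 : Rel ε z67 t67) (g76 : Rel ε z76 t76) (g85 : Rel ε z85 t85) (g94 : Rel ε z94 t94) (g485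 : Rel ε z485 t485) (g257 : Rel ε z257 t257) :
    a_B5 gs gt ps x0 x1 x2 z3 z4 z28 z5 z394 z51 z59 z62 z70 z90 z245 z98 z53 z65 z73 z77 z88 z92 z249 z102 z67 z76 z85 z94 z485 z257 = true → a_R5 gs gt ps sg v th t3 t4 t28 t5 t394 t51 t59 t62 t70 t90 t245 t98 t53 t65 t73 t77 t88 t92 t249 t102 t67 t76 t85 t94 t485 t257 := by
  delta a_B5 a_R5
  exact normS g257 fun z263 t263 g263 =>
  parS fun z41 t41 g41 =>
  parS fun z42 t42 g42 =>
  mulS hε g42 h0 fun z250 t250 g250 =>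
  addS g41 g250 fun z251 t251 g251 =>
  parS fun z43 t43 g43 =>
  mulS hε g43 h1 fun z252 t252 g252 =>
  addS g251 g252 fun z253 t253 g253 =>
  normS g253 fun z260 t260 g260 =>
  parS fun z29 t29 g29 =>
  addS g253 g29 fun z258 t258 g258 =>
  invS hε g258 fun z259 t259 g259 =>
  mulS hε g260 g259 fun z261 t261 g261 =>
  normS g261 fun z262 t262 g262 =>
  mulS hε g263 g262 fun z264 t264 g264 =>
  normS g264 fun z265 t265 g265 =>
  smulS hε g265 k5 fun z266 t266 g266 =>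
  parS fun z21 t21 g21 =>
  parS fun z22 t22 g22 =>
  mulS hε g22 h0 fun z107 t107 g107 =>
  addS g21 g107 fun z108 t108 g108 =>
  parS fun z23 t23 g23 =>
  mulS hε g23 h1 fun z109 t109 g109 =>
  addS g108 g109 fun z110 t110 g110 =>
  a_S6 gs gt hε ps x0 x1 x2 z3 z4 z28 z5 z394 z51 z59 z62 z70 z90 z245 z98 z53 z65 z73 z77 z88 z92 z249 z102 z67 z76 z85 z94 z485 z257 z260 z29 z259 z266 z110 sg v th t3 t4 t28 t5 t394 t51 t59 t62 t70 t90 t245 t98 t53 t65 t73 t77 t88 t92 t249 t102 t67 t76 t85 t94 t485 t257 t260 t29 t259 t266 t110 h0 h1 h2 g3 g4 g28 g5 g394 g51 g59 g62 g70 g90 g245 g98 g53 g65 g73 g77 g88 g92 g249 g102 g67 g76 g85 g94 g485 g257 g260 g29 g259 g266 g110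

def a_B4 (gs gt ps : ℕ) (x0 x1 x2 z3 z4 z28 z5 z394 z397 z51 z59 z62 z70 z90 z245 z98 z53 z65 z73 z77 z88 z92 z451 z249 z102 z456 z67 z429 z76 : AF) : Bool :=
  mulK z429 z76 fun z433 =>
  normK z433 fun z434 =>
  mulK x0 x1 fun z85 =>
  mulK z429 z85 fun z430 =>
  rsubK z53 4722366764344621924352 0 fun z93 =>
  sqrtK z93 fun z94 =>
  mulK z76 z94 fun z431 =>
  addK z430 z431 fun z432 =>
  normK z432 fun z435 =>
  sqrK z435 fun z436 =>
  mulK z434 z397 fun z437 =>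
  subK z436 z437 fun z438 =>
  sqrtK z438 fun z439 =>
  addK z432 z439 fun z440 =>
  invK z440 fun z441 =>
  mulK z434 z441 fun z442 =>
  normK z442 fun z443 =>
  mulK z456 z443 fun z457 =>
  subK z451 z457 fun z458 =>
  normK z458 fun z484 =>
  mulK z397 z484 fun z485 =>
  parK gt 16 fun z44 =>
  parK gt 17 fun z45 =>
  mulK z45 x0 fun z254 =>
  addK z44 z254 fun z255 =>
  parK gt 18 fun z46 =>
  mulK z46 x1 fun z256 =>
  addK z255 z256 fun z257 =>
  a_B5 gs gt ps x0 x1 x2 z3 z4 z28 z5 z394 z51 z59 z62 z70 z90 z245 z98 z53 z65 z73 z77 z88 z92 z249 z102 z67 z76 z85 z94 z485 z257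

def a_R4 (gs gt ps : ℕ) (sg v th z3 z4 z28 z5 z394 z397 z51 z59 z62 z70 z90 z245 z98 z53 z65 z73 z77 z88 z92 z451 z249 z102 z456 z67 z429 z76 : ℝ) : Prop :=
  letR (z429 * z76) fun z433 =>
  letR z433 fun z434 =>
  letR (sg * v) fun z85 =>
  letR (z429 * z85) fun z430 =>
  letR ((1 : ℝ) - z53) fun z93 =>
  letR (√z93) fun z94 =>
  letR (z76 * z94) fun z431 =>
  letR (z430 + z431) fun z432 =>
  letR z432 fun z435 =>
  letR (z435 ^ 2) fun z436 =>
  letR (z434 * z397) fun z437 =>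
  letR (z436 - z437) fun z438 =>
  letR (√z438) fun z439 =>
  letR (z432 + z439) fun z440 =>
  invR z440 fun z441 =>
  letR (z434 * z441) fun z442 =>
  letR z442 fun z443 =>
  letR (z456 * z443) fun z457 =>
  letR (z451 - z457) fun z458 =>
  letR z458 fun z484 =>
  letR (z397 * z484) fun z485 =>
  letR (parV gt 16) fun z44 =>
  letR (parV gt 17) fun z45 =>
  letR (z45 * sg) fun z254 =>
  letR (z44 + z254) fun z255 =>
  letR (parV gt 18) fun z46 =>
  letR (z46 * v) fun z256 =>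
  letR (z255 + z256) fun z257 =>
  a_R5 gs gt ps sg v th z3 z4 z28 z5 z394 z51 z59 z62 z70 z90 z245 z98 z53 z65 z73 z77 z88 z92 z249 z102 z67 z76 z85 z94 z485 z257

theorem a_S4 {ε : Fin 4 → ℝ} (gs gt : ℕ) (hε : ∀ i, |ε i| ≤ 1) (ps : ℕ) (x0 x1 x2 z3 z4 z28 z5 z394 z397 z51 z59 z62 z70 z90 z245 z98 z53 z65 z73 z77 z88 z92 z451 z249 z102 z456 z67 z429 z76 : AF) (sg v th t3 t4 t28 t5 t394 t397 t51 t59 t62 t70 t90 t245 t98 t53 t65 t73 t77 t88 t92 t451 t249 t102 t456 t67 t429 t76 : ℝ)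
    (h0 : Rel ε x0 sg) (h1 : Rel ε x1 v) (h2 : Rel ε x2 th) (g3 : Rel ε z3 t3) (g4 : Rel ε z4 t4) (g28 : Rel ε z28 t28) (g5 : Rel ε z5 t5) (g394 : Rel ε z394 t394) (g397 : Rel ε z397 t397) (g51 : Rel ε z51 t51) (g59 : Rel ε z59 t59) (g62 : Rel ε z62 t62) (g70 : Rel ε z70 t70) (g90 : Rel ε z90 t90) (g245 : Rel ε z245 t245) (g98 : Rel ε z98 t98) (g53 : Rel ε z53 t53) (g65 : Rel ε z65 t65) (g73 : Rel ε z73 t73) (g77 : Rel ε z77 t77) (g88 : Rel ε z88 t88) (g92 : Rel ε z92 t92) (g451 : Rel ε z451 t451) (g249 : Rel ε z249 t249) (g102 : Rel ε z102 t102) (g456 : Rel ε z456 t456) (g67 : Rel ε z67 t67) (g429 : Rel ε z429 t429) (g76 : Rel ε z76 t76) :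
    a_B4 gs gt ps x0 x1 x2 z3 z4 z28 z5 z394 z397 z51 z59 z62 z70 z90 z245 z98 z53 z65 z73 z77 z88 z92 z451 z249 z102 z456 z67 z429 z76 = true → a_R4 gs gt ps sg v th t3 t4 t28 t5 t394 t397 t51 t59 t62 t70 t90 t245 t98 t53 t65 t73 t77 t88 t92 t451 t249 t102 t456 t67 t429 t76 := by
  delta a_B4 a_R4
  exact mulS hε g429 g76 fun z433 t433 g433 =>
  normS g433 fun z434 t434 g434 =>
  mulS hε h0 h1 fun z85 t85 g85 =>
  mulS hε g429 g85 fun z430 t430 g430 =>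
  rsubS g53 k1 fun z93 t93 g93 =>
  sqrtS hε g93 fun z94 t94 g94 =>
  mulS hε g76 g94 fun z431 t431 g431 =>
  addS g430 g431 fun z432 t432 g432 =>
  normS g432 fun z435 t435 g435 =>
  sqrS hε g435 fun z436 t436 g436 =>
  mulS hε g434 g397 fun z437 t437 g437 =>
  subS g436 g437 fun z438 t438 g438 =>
  sqrtS hε g438 fun z439 t439 g439 =>
  addS g432 g439 fun z440 t440 g440 =>
  invS hε g440 fun z441 t441 g441 =>
  mulS hε g434 g441 fun z442 t442 g442 =>
  normS g442 fun z443 t443 g443 =>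
  mulS hε g456 g443 fun z457 t457 g457 =>
  subS g451 g457 fun z458 t458 g458 =>
  normS g458 fun z484 t484 g484 =>
  mulS hε g397 g484 fun z485 t485 g485 =>
  parS fun z44 t44 g44 =>
  parS fun z45 t45 g45 =>
  mulS hε g45 h0 fun z254 t254 g254 =>
  addS g44 g254 fun z255 t255 g255 =>
  parS fun z46 t46 g46 =>
  mulS hε g46 h1 fun z256 t256 g256 =>
  addS g255 g256 fun z257 t257 g257 =>
  a_S5 gs gt hε ps x0 x1 x2 z3 z4 z28 z5 z394 z51 z59 z62 z70 z90 z245 z98 z53 z65 z73 z77 z88 z92 z249 z102 z67 z76 z85 z94 z485 z257 sg v th t3 t4 t28 t5 t394 t51 t59 t62 t70 t90 t245 t98 t53 t65 t73 t77 t88 t92 t249 t102 t67 t76 t85 t94 t485 t257 h0 h1 h2 g3 g4 g28 g5 g394 g51 g59 g62 g70 g90 g245 g98 g53 g65 g73 g77 g88 g92 g249 g102 g67 g76 g85 g94 g485 g257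

def a_B3 (gs gt ps : ℕ) (x0 x1 x2 z3 z4 z28 z5 z394 z397 z51 z59 z62 z70 z90 z245 z98 z53 z65 z73 z77 z88 z92 z451 : AF) : Bool :=
  parK gt 7 fun z35 =>
  parK gt 8 fun z36 =>
  mulK z36 x0 fun z246 =>
  addK z35 z246 fun z247 =>
  parK gt 9 fun z37 =>
  mulK z37 x1 fun z248 =>
  addK z247 z248 fun z249 =>
  parK gs 7 fun z12 =>
  parK gs 8 fun z13 =>
  mulK z13 x0 fun z99 =>
  addK z12 z99 fun z100 =>
  parK gs 9 fun z14 =>
  mulK z14 x1 fun z101 =>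
  addK z100 z101 fun z102 =>
  subK z249 z102 fun z452 =>
  normK z452 fun z453 =>
  mulK x2 z453 fun z454 =>
  addK z454 z102 fun z455 =>
  normK z455 fun z456 =>
  mulK (cst 4722366736197124253286 1) z53 fun z66 =>
  rsubK z66 4722367017672100963942 1 fun z67 =>
  mulK z53 z67 fun z428 =>
  normK z428 fun z429 =>
  addcK z66 4722366511017142884761 1 fun z74 =>
  mulK z53 z74 fun z75 =>
  rsubK z75 4722366764344621924352 0 fun z76 =>
  a_B4 gs gt ps x0 x1 x2 z3 z4 z28 z5 z394 z397 z51 z59 z62 z70 z90 z245 z98 z53 z65 z73 z77 z88 z92 z451 z249 z102 z456 z67 z429 z76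

def a_R3 (gs gt ps : ℕ) (sg v th z3 z4 z28 z5 z394 z397 z51 z59 z62 z70 z90 z245 z98 z53 z65 z73 z77 z88 z92 z451 : ℝ) : Prop :=
  letR (parV gt 7) fun z35 =>
  letR (parV gt 8) fun z36 =>
  letR (z36 * sg) fun z246 =>
  letR (z35 + z246) fun z247 =>
  letR (parV gt 9) fun z37 =>
  letR (z37 * v) fun z248 =>
  letR (z247 + z248) fun z249 =>
  letR (parV gs 7) fun z12 =>
  letR (parV gs 8) fun z13 =>
  letR (z13 * sg) fun z99 =>
  letR (z12 + z99) fun z100 =>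
  letR (parV gs 9) fun z14 =>
  letR (z14 * v) fun z101 =>
  letR (z100 + z101) fun z102 =>
  letR (z249 - z102) fun z452 =>
  letR z452 fun z453 =>
  letR (th * z453) fun z454 =>
  letR (z454 + z102) fun z455 =>
  letR z455 fun z456 =>
  letR ((9 / 10 : ℝ) * z53) fun z66 =>
  letR ((19 / 10 : ℝ) - z66) fun z67 =>
  letR (z53 * z67) fun z428 =>
  letR z428 fun z429 =>
  letR (z66 + (1 / 10 : ℝ)) fun z74 =>
  letR (z53 * z74) fun z75 =>
  letR ((1 : ℝ) - z75) fun z76 =>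
  a_R4 gs gt ps sg v th z3 z4 z28 z5 z394 z397 z51 z59 z62 z70 z90 z245 z98 z53 z65 z73 z77 z88 z92 z451 z249 z102 z456 z67 z429 z76

theorem a_S3 {ε : Fin 4 → ℝ} (gs gt : ℕ) (hε : ∀ i, |ε i| ≤ 1) (ps : ℕ) (x0 x1 x2 z3 z4 z28 z5 z394 z397 z51 z59 z62 z70 z90 z245 z98 z53 z65 z73 z77 z88 z92 z451 : AF) (sg v th t3 t4 t28 t5 t394 t397 t51 t59 t62 t70 t90 t245 t98 t53 t65 t73 t77 t88 t92 t451 : ℝ)
    (h0 : Rel ε x0 sg) (h1 : Rel ε x1 v) (h2 : Rel ε x2 th) (g3 : Rel ε z3 t3) (g4 : Rel ε z4 t4) (g28 : Rel ε z28 t28) (g5 : Rel ε z5 t5) (g394 : Rel ε z394 t394) (g397 : Rel ε z397 t397) (g51 : Rel ε z51 t51) (g59 : Rel ε z59 t59) (g62 : Rel ε z62 t62) (g70 : Rel ε z70 t70) (g90 : Rel ε z90 t90) (g245 : Rel ε z245 t245) (g98 : Rel ε z98 t98) (g53 : Rel ε z53 t53) (g65 : Rel ε z65 t65) (g73 : Rel ε z73 t73) (g77 : Rel ε z77 t77) (g88 : Rel ε z88 t88) (g92 : Rel ε z92 t92) (g451 : Rel ε z451 t451) :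
    a_B3 gs gt ps x0 x1 x2 z3 z4 z28 z5 z394 z397 z51 z59 z62 z70 z90 z245 z98 z53 z65 z73 z77 z88 z92 z451 = true → a_R3 gs gt ps sg v th t3 t4 t28 t5 t394 t397 t51 t59 t62 t70 t90 t245 t98 t53 t65 t73 t77 t88 t92 t451 := by
  delta a_B3 a_R3
  exact parS fun z35 t35 g35 =>
  parS fun z36 t36 g36 =>
  mulS hε g36 h0 fun z246 t246 g246 =>
  addS g35 g246 fun z247 t247 g247 =>
  parS fun z37 t37 g37 =>
  mulS hε g37 h1 fun z248 t248 g248 =>
  addS g247 g248 fun z249 t249 g249 =>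
  parS fun z12 t12 g12 =>
  parS fun z13 t13 g13 =>
  mulS hε g13 h0 fun z99 t99 g99 =>
  addS g12 g99 fun z100 t100 g100 =>
  parS fun z14 t14 g14 =>
  mulS hε g14 h1 fun z101 t101 g101 =>
  addS g100 g101 fun z102 t102 g102 =>
  subS g249 g102 fun z452 t452 g452 =>
  normS g452 fun z453 t453 g453 =>
  mulS hε h2 g453 fun z454 t454 g454 =>
  addS g454 g102 fun z455 t455 g455 =>
  normS g455 fun z456 t456 g456 =>
  mulS hε (cst_rel k2) g53 fun z66 t66 g66 =>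
  rsubS g66 k3 fun z67 t67 g67 =>
  mulS hε g53 g67 fun z428 t428 g428 =>
  normS g428 fun z429 t429 g429 =>
  addcS g66 k4 fun z74 t74 g74 =>
  mulS hε g53 g74 fun z75 t75 g75 =>
  rsubS g75 k1 fun z76 t76 g76 =>
  a_S4 gs gt hε ps x0 x1 x2 z3 z4 z28 z5 z394 z397 z51 z59 z62 z70 z90 z245 z98 z53 z65 z73 z77 z88 z92 z451 z249 z102 z456 z67 z429 z76 sg v th t3 t4 t28 t5 t394 t397 t51 t59 t62 t70 t90 t245 t98 t53 t65 t73 t77 t88 t92 t451 t249 t102 t456 t67 t429 t76 h0 h1 h2 g3 g4 g28 g5 g394 g397 g51 g59 g62 g70 g90 g245 g98 g53 g65 g73 g77 g88 g92 g451 g249 g102 g456 g67 g429 g76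

def a_B2 (gs gt ps : ℕ) (x0 x1 x2 z3 z4 z28 z5 z394 z397 z51 z59 z62 z70 z90 z444 z245 z98 : AF) : Bool :=
  subK z245 z98 fun z445 =>
  normK z445 fun z446 =>
  mulK x2 z446 fun z447 =>
  addK z447 z98 fun z448 =>
  normK z448 fun z449 =>
  smulK z51 4722367045819598635008 fun z54 =>
  sqrK x1 fun z52 =>
  mulK z51 z52 fun z53 =>
  subK z54 z53 fun z55 =>
  normK z55 fun z63 =>
  mulK (cst 4722366736197124253286 1) z63 fun z64 =>
  rsubK z64 4722367017672100963942 1 fun z65 =>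
  mulK z63 z65 fun z412 =>
  normK z412 fun z413 =>
  addcK z64 4722366511017142884761 1 fun z71 =>
  mulK z63 z71 fun z72 =>
  rsubK z72 4722366764344621924352 0 fun z73 =>
  mulK z413 z73 fun z417 =>
  normK z417 fun z418 =>
  rsubK z52 4722367045819598635008 0 fun z77 =>
  sqrtK z77 fun z86 =>
  mulK x0 z86 fun z87 =>
  normK z87 fun z88 =>
  mulK z413 z88 fun z414 =>
  rsubK z55 4722366764344621924352 0 fun z91 =>
  sqrtK z91 fun z92 =>
  mulK z73 z92 fun z415 =>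
  addK z414 z415 fun z416 =>
  normK z416 fun z419 =>
  sqrK z419 fun z420 =>
  mulK z418 z397 fun z421 =>
  subK z420 z421 fun z422 =>
  sqrtK z422 fun z423 =>
  addK z416 z423 fun z424 =>
  invK z424 fun z425 =>
  mulK z418 z425 fun z426 =>
  normK z426 fun z427 =>
  mulK z449 z427 fun z450 =>
  subK z444 z450 fun z451 =>
  a_B3 gs gt ps x0 x1 x2 z3 z4 z28 z5 z394 z397 z51 z59 z62 z70 z90 z245 z98 z53 z65 z73 z77 z88 z92 z451

def a_R2 (gs gt ps : ℕ) (sg v th z3 z4 z28 z5 z394 z397 z51 z59 z62 z70 z90 z444 z245 z98 : ℝ) : Prop :=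
  letR (z245 - z98) fun z445 =>
  letR z445 fun z446 =>
  letR (th * z446) fun z447 =>
  letR (z447 + z98) fun z448 =>
  letR z448 fun z449 =>
  letR ((2 : ℝ) * z51) fun z54 =>
  letR (v ^ 2) fun z52 =>
  letR (z51 * z52) fun z53 =>
  letR (z54 - z53) fun z55 =>
  letR z55 fun z63 =>
  letR ((9 / 10 : ℝ) * z63) fun z64 =>
  letR ((19 / 10 : ℝ) - z64) fun z65 =>
  letR (z63 * z65) fun z412 =>
  letR z412 fun z413 =>
  letR (z64 + (1 / 10 : ℝ)) fun z71 =>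
  letR (z63 * z71) fun z72 =>
  letR ((1 : ℝ) - z72) fun z73 =>
  letR (z413 * z73) fun z417 =>
  letR z417 fun z418 =>
  letR ((2 : ℝ) - z52) fun z77 =>
  letR (√z77) fun z86 =>
  letR (sg * z86) fun z87 =>
  letR z87 fun z88 =>
  letR (z413 * z88) fun z414 =>
  letR ((1 : ℝ) - z55) fun z91 =>
  letR (√z91) fun z92 =>
  letR (z73 * z92) fun z415 =>
  letR (z414 + z415) fun z416 =>
  letR z416 fun z419 =>
  letR (z419 ^ 2) fun z420 =>
  letR (z418 * z397) fun z421 =>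
  letR (z420 - z421) fun z422 =>
  letR (√z422) fun z423 =>
  letR (z416 + z423) fun z424 =>
  invR z424 fun z425 =>
  letR (z418 * z425) fun z426 =>
  letR z426 fun z427 =>
  letR (z449 * z427) fun z450 =>
  letR (z444 - z450) fun z451 =>
  a_R3 gs gt ps sg v th z3 z4 z28 z5 z394 z397 z51 z59 z62 z70 z90 z245 z98 z53 z65 z73 z77 z88 z92 z451

theorem a_S2 {ε : Fin 4 → ℝ} (gs gt : ℕ) (hε : ∀ i, |ε i| ≤ 1) (ps : ℕ) (x0 x1 x2 z3 z4 z28 z5 z394 z397 z51 z59 z62 z70 z90 z444 z245 z98 : AF) (sg v th t3 t4 t28 t5 t394 t397 t51 t59 t62 t70 t90 t444 t245 t98 : ℝ)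
    (h0 : Rel ε x0 sg) (h1 : Rel ε x1 v) (h2 : Rel ε x2 th) (g3 : Rel ε z3 t3) (g4 : Rel ε z4 t4) (g28 : Rel ε z28 t28) (g5 : Rel ε z5 t5) (g394 : Rel ε z394 t394) (g397 : Rel ε z397 t397) (g51 : Rel ε z51 t51) (g59 : Rel ε z59 t59) (g62 : Rel ε z62 t62) (g70 : Rel ε z70 t70) (g90 : Rel ε z90 t90) (g444 : Rel ε z444 t444) (g245 : Rel ε z245 t245) (g98 : Rel ε z98 t98) :
    a_B2 gs gt ps x0 x1 x2 z3 z4 z28 z5 z394 z397 z51 z59 z62 z70 z90 z444 z245 z98 = true → a_R2 gs gt ps sg v th t3 t4 t28 t5 t394 t397 t51 t59 t62 t70 t90 t444 t245 t98 := by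
  delta a_B2 a_R2
  exact subS g245 g98 fun z445 t445 g445 =>
  normS g445 fun z446 t446 g446 =>
  mulS hε h2 g446 fun z447 t447 g447 =>
  addS g447 g98 fun z448 t448 g448 =>
  normS g448 fun z449 t449 g449 =>
  smulS hε g51 k5 fun z54 t54 g54 =>
  sqrS hε h1 fun z52 t52 g52 =>
  mulS hε g51 g52 fun z53 t53 g53 =>
  subS g54 g53 fun z55 t55 g55 =>
  normS g55 fun z63 t63 g63 =>
  mulS hε (cst_rel k2) g63 fun z64 t64 g64 =>
  rsubS g64 k3 fun z65 t65 g65 =>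
  mulS hε g63 g65 fun z412 t412 g412 =>
  normS g412 fun z413 t413 g413 =>
  addcS g64 k4 fun z71 t71 g71 =>
  mulS hε g63 g71 fun z72 t72 g72 =>
  rsubS g72 k1 fun z73 t73 g73 =>
  mulS hε g413 g73 fun z417 t417 g417 =>
  normS g417 fun z418 t418 g418 =>
  rsubS g52 k6 fun z77 t77 g77 =>
  sqrtS hε g77 fun z86 t86 g86 =>
  mulS hε h0 g86 fun z87 t87 g87 =>
  normS g87 fun z88 t88 g88 =>
  mulS hε g413 g88 fun z414 t414 g414 =>
  rsubS g55 k1 fun z91 t91 g91 =>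
  sqrtS hε g91 fun z92 t92 g92 =>
  mulS hε g73 g92 fun z415 t415 g415 =>
  addS g414 g415 fun z416 t416 g416 =>
  normS g416 fun z419 t419 g419 =>
  sqrS hε g419 fun z420 t420 g420 =>
  mulS hε g418 g397 fun z421 t421 g421 =>
  subS g420 g421 fun z422 t422 g422 =>
  sqrtS hε g422 fun z423 t423 g423 =>
  addS g416 g423 fun z424 t424 g424 =>
  invS hε g424 fun z425 t425 g425 =>
  mulS hε g418 g425 fun z426 t426 g426 =>
  normS g426 fun z427 t427 g427 =>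
  mulS hε g449 g427 fun z450 t450 g450 =>
  subS g444 g450 fun z451 t451 g451 =>
  a_S3 gs gt hε ps x0 x1 x2 z3 z4 z28 z5 z394 z397 z51 z59 z62 z70 z90 z245 z98 z53 z65 z73 z77 z88 z92 z451 sg v th t3 t4 t28 t5 t394 t397 t51 t59 t62 t70 t90 t245 t98 t53 t65 t73 t77 t88 t92 t451 h0 h1 h2 g3 g4 g28 g5 g394 g397 g51 g59 g62 g70 g90 g245 g98 g53 g65 g73 g77 g88 g92 g451

def a_B1 (gs gt ps : ℕ) (x0 x1 x2 z3 z4 z28 z5 z394 z397 z51 z59 z62 z70 : AF) : Bool :=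
  mulK z62 z70 fun z401 =>
  normK z401 fun z402 =>
  mulK z62 x0 fun z398 =>
  rsubK z51 4722366764344621924352 0 fun z89 =>
  sqrtK z89 fun z90 =>
  mulK z70 z90 fun z399 =>
  addK z398 z399 fun z400 =>
  normK z400 fun z403 =>
  sqrK z403 fun z404 =>
  mulK z402 z397 fun z405 =>
  subK z404 z405 fun z406 =>
  sqrtK z406 fun z407 =>
  addK z400 z407 fun z408 =>
  invK z408 fun z409 =>
  mulK z402 z409 fun z410 =>
  normK z410 fun z411 =>
  smulK z411 4722367045819598635008 fun z444 =>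
  parK gt 4 fun z32 =>
  parK gt 5 fun z33 =>
  mulK z33 x0 fun z242 =>
  addK z32 z242 fun z243 =>
  parK gt 6 fun z34 =>
  mulK z34 x1 fun z244 =>
  addK z243 z244 fun z245 =>
  parK gs 4 fun z9 =>
  parK gs 5 fun z10 =>
  mulK z10 x0 fun z95 =>
  addK z9 z95 fun z96 =>
  parK gs 6 fun z11 =>
  mulK z11 x1 fun z97 =>
  addK z96 z97 fun z98 =>
  a_B2 gs gt ps x0 x1 x2 z3 z4 z28 z5 z394 z397 z51 z59 z62 z70 z90 z444 z245 z98

def a_R1 (gs gt ps : ℕ) (sg v th z3 z4 z28 z5 z394 z397 z51 z59 z62 z70 : ℝ) : Prop :=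
  letR (z62 * z70) fun z401 =>
  letR z401 fun z402 =>
  letR (z62 * sg) fun z398 =>
  letR ((1 : ℝ) - z51) fun z89 =>
  letR (√z89) fun z90 =>
  letR (z70 * z90) fun z399 =>
  letR (z398 + z399) fun z400 =>
  letR z400 fun z403 =>
  letR (z403 ^ 2) fun z404 =>
  letR (z402 * z397) fun z405 =>
  letR (z404 - z405) fun z406 =>
  letR (√z406) fun z407 =>
  letR (z400 + z407) fun z408 =>
  invR z408 fun z409 =>
  letR (z402 * z409) fun z410 =>
  letR z410 fun z411 =>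
  letR ((2 : ℝ) * z411) fun z444 =>
  letR (parV gt 4) fun z32 =>
  letR (parV gt 5) fun z33 =>
  letR (z33 * sg) fun z242 =>
  letR (z32 + z242) fun z243 =>
  letR (parV gt 6) fun z34 =>
  letR (z34 * v) fun z244 =>
  letR (z243 + z244) fun z245 =>
  letR (parV gs 4) fun z9 =>
  letR (parV gs 5) fun z10 =>
  letR (z10 * sg) fun z95 =>
  letR (z9 + z95) fun z96 =>
  letR (parV gs 6) fun z11 =>
  letR (z11 * v) fun z97 =>
  letR (z96 + z97) fun z98 =>
  a_R2 gs gt ps sg v th z3 z4 z28 z5 z394 z397 z51 z59 z62 z70 z90 z444 z245 z98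

theorem a_S1 {ε : Fin 4 → ℝ} (gs gt : ℕ) (hε : ∀ i, |ε i| ≤ 1) (ps : ℕ) (x0 x1 x2 z3 z4 z28 z5 z394 z397 z51 z59 z62 z70 : AF) (sg v th t3 t4 t28 t5 t394 t397 t51 t59 t62 t70 : ℝ)
    (h0 : Rel ε x0 sg) (h1 : Rel ε x1 v) (h2 : Rel ε x2 th) (g3 : Rel ε z3 t3) (g4 : Rel ε z4 t4) (g28 : Rel ε z28 t28) (g5 : Rel ε z5 t5) (g394 : Rel ε z394 t394) (g397 : Rel ε z397 t397) (g51 : Rel ε z51 t51) (g59 : Rel ε z59 t59) (g62 : Rel ε z62 t62) (g70 : Rel ε z70 t70) :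
    a_B1 gs gt ps x0 x1 x2 z3 z4 z28 z5 z394 z397 z51 z59 z62 z70 = true → a_R1 gs gt ps sg v th t3 t4 t28 t5 t394 t397 t51 t59 t62 t70 := by
  delta a_B1 a_R1
  exact mulS hε g62 g70 fun z401 t401 g401 =>
  normS g401 fun z402 t402 g402 =>
  mulS hε g62 h0 fun z398 t398 g398 =>
  rsubS g51 k1 fun z89 t89 g89 =>
  sqrtS hε g89 fun z90 t90 g90 =>
  mulS hε g70 g90 fun z399 t399 g399 =>
  addS g398 g399 fun z400 t400 g400 =>
  normS g400 fun z403 t403 g403 =>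
  sqrS hε g403 fun z404 t404 g404 =>
  mulS hε g402 g397 fun z405 t405 g405 =>
  subS g404 g405 fun z406 t406 g406 =>
  sqrtS hε g406 fun z407 t407 g407 =>
  addS g400 g407 fun z408 t408 g408 =>
  invS hε g408 fun z409 t409 g409 =>
  mulS hε g402 g409 fun z410 t410 g410 =>
  normS g410 fun z411 t411 g411 =>
  smulS hε g411 k5 fun z444 t444 g444 =>
  parS fun z32 t32 g32 =>
  parS fun z33 t33 g33 =>
  mulS hε g33 h0 fun z242 t242 g242 =>
  addS g32 g242 fun z243 t243 g243 =>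
  parS fun z34 t34 g34 =>
  mulS hε g34 h1 fun z244 t244 g244 =>
  addS g243 g244 fun z245 t245 g245 =>
  parS fun z9 t9 g9 =>
  parS fun z10 t10 g10 =>
  mulS hε g10 h0 fun z95 t95 g95 =>
  addS g9 g95 fun z96 t96 g96 =>
  parS fun z11 t11 g11 =>
  mulS hε g11 h1 fun z97 t97 g97 =>
  addS g96 g97 fun z98 t98 g98 =>
  a_S2 gs gt hε ps x0 x1 x2 z3 z4 z28 z5 z394 z397 z51 z59 z62 z70 z90 z444 z245 z98 sg v th t3 t4 t28 t5 t394 t397 t51 t59 t62 t70 t90 t444 t245 t98 h0 h1 h2 g3 g4 g28 g5 g394 g397 g51 g59 g62 g70 g90 g444 g245 g98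

def a_B (gs gt ps : ℕ) (x0 x1 x2 x3 : AF) : Bool :=
  parK ps 0 fun z3 =>
  parK ps 1 fun z4 =>
  parK gt 0 fun z28 =>
  sqrK z28 fun z388 =>
  parK gs 0 fun z5 =>
  sqrK z5 fun z389 =>
  subK z388 z389 fun z390 =>
  addcK z390 4722366478471598702592 0 fun z391 =>
  posK z391 <|
  normK z390 fun z392 =>
  mulK x2 z392 fun z393 =>
  addK z393 z389 fun z394 =>
  rsubK z394 4722366764344621924352 0 fun z395 =>
  sqrtK z395 fun z396 =>
  rsubK z396 4722366764344621924352 0 fun z397 =>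
  sqrK x0 fun z51 =>
  mulK (cst 4722366736197124253286 1) z51 fun z58 =>
  rsubK z58 4722367017672100963942 1 fun z59 =>
  mulK z51 z59 fun z61 =>
  normK z61 fun z62 =>
  addcK z58 4722366511017142884761 1 fun z68 =>
  mulK z51 z68 fun z69 =>
  rsubK z69 4722366764344621924352 0 fun z70 =>
  a_B1 gs gt ps x0 x1 x2 z3 z4 z28 z5 z394 z397 z51 z59 z62 z70

def a_R (gs gt ps : ℕ) (sg v th u3 : ℝ) : Prop :=
  letR (parV ps 0) fun z3 =>
  letR (parV ps 1) fun z4 =>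
  letR (parV gt 0) fun z28 =>
  letR (z28 ^ 2) fun z388 =>
  letR (parV gs 0) fun z5 =>
  letR (z5 ^ 2) fun z389 =>
  letR (z388 - z389) fun z390 =>
  letR (z390 + (-1 / 64 : ℝ)) fun z391 =>
  posR z391 <|
  letR z390 fun z392 =>
  letR (th * z392) fun z393 =>
  letR (z393 + z389) fun z394 =>
  letR ((1 : ℝ) - z394) fun z395 =>
  letR (√z395) fun z396 =>
  letR ((1 : ℝ) - z396) fun z397 =>
  letR (sg ^ 2) fun z51 =>
  letR ((9 / 10 : ℝ) * z51) fun z58 =>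
  letR ((19 / 10 : ℝ) - z58) fun z59 =>
  letR (z51 * z59) fun z61 =>
  letR z61 fun z62 =>
  letR (z58 + (1 / 10 : ℝ)) fun z68 =>
  letR (z51 * z68) fun z69 =>
  letR ((1 : ℝ) - z69) fun z70 =>
  a_R1 gs gt ps sg v th z3 z4 z28 z5 z394 z397 z51 z59 z62 z70

theorem a_S {ε : Fin 4 → ℝ} (gs gt : ℕ) (hε : ∀ i, |ε i| ≤ 1) (ps : ℕ) (x0 x1 x2 x3 : AF) (sg v th u3 : ℝ)
    (h0 : Rel ε x0 sg) (h1 : Rel ε x1 v) (h2 : Rel ε x2 th) (h3 : Rel ε x3 u3) :
    a_B gs gt ps x0 x1 x2 x3 = true → a_R gs gt ps sg v th u3 := by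
  delta a_B a_R
  exact parS fun z3 t3 g3 =>
  parS fun z4 t4 g4 =>
  parS fun z28 t28 g28 =>
  sqrS hε g28 fun z388 t388 g388 =>
  parS fun z5 t5 g5 =>
  sqrS hε g5 fun z389 t389 g389 =>
  subS g388 g389 fun z390 t390 g390 =>
  addcS g390 k0 fun z391 t391 g391 =>
  posS hε g391 <|
  normS g390 fun z392 t392 g392 =>
  mulS hε h2 g392 fun z393 t393 g393 =>
  addS g393 g389 fun z394 t394 g394 =>
  rsubS g394 k1 fun z395 t395 g395 =>
  sqrtS hε g395 fun z396 t396 g396 =>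
  rsubS g396 k1 fun z397 t397 g397 =>
  sqrS hε h0 fun z51 t51 g51 =>
  mulS hε (cst_rel k2) g51 fun z58 t58 g58 =>
  rsubS g58 k3 fun z59 t59 g59 =>
  mulS hε g51 g59 fun z61 t61 g61 =>
  normS g61 fun z62 t62 g62 =>
  addcS g58 k4 fun z68 t68 g68 =>
  mulS hε g51 g68 fun z69 t69 g69 =>
  rsubS g69 k1 fun z70 t70 g70 =>
  a_S1 gs gt hε ps x0 x1 x2 z3 z4 z28 z5 z394 z397 z51 z59 z62 z70 sg v th t3 t4 t28 t5 t394 t397 t51 t59 t62 t70 h0 h1 h2 g3 g4 g28 g5 g394 g397 g51 g59 g62 g70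

/- obtain ⟨pp, cc, rb, ra, dr, r, be, s, al, w58, uh, u, w, uwm, Y, psm, Dm, mu0b, mu0a, m0, v2, a1, a0, w64, h0, u0, w0, uw0, w77, X0, Y0, ps0, D0, mu1b, mu1a, m1, w66, h1, u1, w1, uw1, x, Y1, ps1, D1, C, exb, gab, igb, etb, exa, gaa, iga, eta, e1, et, i2, M, CE, bb, iu, fa, A0b, g2b, Acb, fb, LBb, rgb, M0cb, de, rdb, M1cb, Nub, W0b, cbb, cgb, s0cb, W1b, s1cb, w309, crb, p0cb, p1cb, Nwb, Nnb, ba, A0a, g2a, Aca, LBa, rga, M0ca, rda, M1ca, Nua, W0a, cba, cga, s0ca, W1a, s1ca, w162, cra, p0ca, p1ca, Nwa, Nna, Nn, h_rb, h_ra, h_dr, c0, h_r, h_be, h_s, h_al, h_w58, h_uh, h_u, h_w, h_uwm, h_Y, h_psm, p_15, h_Dm, h_mu0b, h_mu0a, h_m0, h_v2, h_a1, h_a0, h_w64, h_h0, h_u0, h_w0, h_uw0, h_w77, h_X0, h_Y0, h_ps0, p_32, h_D0, h_mu1b, h_mu1a, h_m1, h_w66, h_h1, h_u1, h_w1, h_uw1, h_x, h_Y1, h_ps1, p_45, h_D1, h_C, h_exb, h_gab, p_igb, h_igb, h_etb, h_exa, h_gaa, p_iga, h_iga, h_eta, h_e1, h_et, p_cc, p_i2, h_i2,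 p_pp, h_M, h_CE, h_bb, p_bb, p_iu, h_iu, h_fa, h_A0b, h_g2b, h_Acb, p_Acb, h_fb, h_LBb, h_rgb, h_M0cb, p_M0cb, h_de, h_rdb, h_M1cb, p_M1cb, h_Nub, h_W0b, h_cbb, h_cgb, h_s0cb, p_s0cb, h_W1b, h_s1cb, p_s1cb, h_w309, h_crb, h_p0cb, p_p0cb, h_p1cb, p_p1cb, h_Nwb, h_Nnb, h_ba, p_ba, h_A0a, h_g2a, h_Aca, p_Aca, h_LBa, h_rga, h_M0ca, p_M0ca, h_rda, h_M1ca, p_M1ca, h_Nua, h_W0a, h_cba, h_cga, h_s0ca, p_s0ca, h_W1a, h_s1ca, p_s1ca, h_w162, h_cra, h_p0ca, p_p0ca, h_p1ca, p_p1ca, h_Nwa, h_Nna, h_Nn, c1⟩ := h -/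
def a_Spec (rhoa l4a kua kwa ma0a ma1a ma2a mb0a mb1a mb2a bq0a bq1a bq2a gq0a gq1a gq2a xq0a xq1a xq2a am0a am1a bm0a bm1a rhob l4b kub kwb ma0b ma1b ma2b mb0b mb1b mb2b bq0b bq1b bq2b gq0b gq1b gq2b xq0b xq1b xq2b am0b am1b bm0b bm1b sg v th : ℝ) : Prop :=
  ∃ pp cc rb ra dr r be s al w58 uh u w uwm Y psm Dm mu0b mu0a m0 v2 a1 a0 w64 h0 u0 w0 uw0 w77 X0 Y0 ps0 D0 mu1b mu1a m1 w66 h1 u1 w1 uw1 x Y1 ps1 D1 C exb gab igb etb exa gaa iga eta e1 et i2 M CE bb iu fa A0b g2b Acb fb LBb rgb M0cb de rdb M1cb Nub W0b cbb cgb s0cb W1b s1cb w309 crb p0cb p1cb Nwb Nnb ba A0a g2a Aca LBa rga M0ca rda M1ca Nua W0a cba cga s0ca W1a s1ca w162 cra p0ca p1ca Nwa Nna Nn : ℝ,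
    rb = (rhob ^ 2) ∧
    ra = (rhoa ^ 2) ∧
    dr = (rb - ra) ∧
    0 ≤ (dr + (-1 / 64 : ℝ)) ∧
    r = ((th * dr) + ra) ∧
    be = (√((1 : ℝ) - r)) ∧
    s = ((1 : ℝ) - be) ∧
    al = (sg ^ 2) ∧
    w58 = ((9 / 10 : ℝ) * al) ∧
    uh = ((19 / 10 : ℝ) - w58) ∧
    u = (al * uh) ∧
    w = ((1 : ℝ) - (al * (w58 + (1 / 10 : ℝ)))) ∧
    uwm = (u * w) ∧
    Y = (√((1 : ℝ) - al)) ∧
    psm = ((u * sg) + (w * Y)) ∧
    0 < (psm + (√((psm ^ 2) - (uwm * s)))) ∧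
    Dm = (uwm * ((psm + (√((psm ^ 2) - (uwm * s))))⁻¹)) ∧
    mu0b = ((ma0b + (ma1b * sg)) + (ma2b * v)) ∧
    mu0a = ((ma0a + (ma1a * sg)) + (ma2a * v)) ∧
    m0 = ((th * (mu0b - mu0a)) + mu0a) ∧
    v2 = (v ^ 2) ∧
    a1 = (al * v2) ∧
    a0 = (((2 : ℝ) * al) - a1) ∧
    w64 = ((9 / 10 : ℝ) * a0) ∧
    h0 = ((19 / 10 : ℝ) - w64) ∧
    u0 = (a0 * h0) ∧
    w0 = ((1 : ℝ) - (a0 * (w64 + (1 / 10 : ℝ)))) ∧
    uw0 = (u0 * w0) ∧
    w77 = ((2 : ℝ) - v2) ∧
    X0 = (sg * (√w77)) ∧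
    Y0 = (√((1 : ℝ) - a0)) ∧
    ps0 = ((u0 * X0) + (w0 * Y0)) ∧
    0 < (ps0 + (√((ps0 ^ 2) - (uw0 * s)))) ∧
    D0 = (uw0 * ((ps0 + (√((ps0 ^ 2) - (uw0 * s))))⁻¹)) ∧
    mu1b = ((mb0b + (mb1b * sg)) + (mb2b * v)) ∧
    mu1a = ((mb0a + (mb1a * sg)) + (mb2a * v)) ∧
    m1 = ((th * (mu1b - mu1a)) + mu1a) ∧
    w66 = ((9 / 10 : ℝ) * a1) ∧
    h1 = ((19 / 10 : ℝ) - w66) ∧
    u1 = (a1 * h1) ∧
    w1 = ((1 : ℝ) - (a1 * (w66 + (1 / 10 : ℝ)))) ∧
    uw1 = (u1 * w1) ∧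
    x = (sg * v) ∧
    Y1 = (√((1 : ℝ) - a1)) ∧
    ps1 = ((u1 * x) + (w1 * Y1)) ∧
    0 < (ps1 + (√((ps1 ^ 2) - (uw1 * s)))) ∧
    D1 = (uw1 * ((ps1 + (√((ps1 ^ 2) - (uw1 * s))))⁻¹)) ∧
    C = ((((2 : ℝ) * Dm) - (m0 * D0)) - (m1 * D1)) ∧
    exb = ((xq0b + (xq1b * sg)) + (xq2b * v)) ∧
    gab = ((gq0b + (gq1b * sg)) + (gq2b * v)) ∧
    0 < (gab + l4b) ∧
    igb = ((gab + l4b)⁻¹) ∧
    etb = ((2 : ℝ) * (exb * (gab * igb))) ∧
    exa = ((xq0a + (xq1a * sg)) + (xq2a * v)) ∧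
    gaa = ((gq0a + (gq1a * sg)) + (gq2a * v)) ∧
    0 < (gaa + l4a) ∧
    iga = ((gaa + l4a)⁻¹) ∧
    eta = ((2 : ℝ) * (exa * (gaa * iga))) ∧
    e1 = ((th * (etb - eta)) + eta) ∧
    et = (e1 * u) ∧
    0 < cc ∧
    0 < ((2 : ℝ) - r) ∧
    i2 = (((2 : ℝ) - r)⁻¹) ∧
    0 < pp ∧
    M = (pp - (x * ((Real.log pp) + (1 : ℝ)))) ∧
    CE = ((x * ((cc * ((Real.log cc) + (-1 : ℝ))) + (1 : ℝ))) + ((cc * (r * i2)) * M)) ∧
    bb = ((bq0b + (bq1b * sg)) + (bq2b * v)) ∧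
    0 < bb ∧
    0 < uh ∧
    iu = (uh⁻¹) ∧
    fa = (w77 * (h0 * iu)) ∧
    A0b = (mu0b * fa) ∧
    g2b = (gab ^ 2) ∧
    Acb = (√((2 : ℝ) - g2b)) ∧
    0 < Acb ∧
    fb = ((1 / 2 : ℝ) * (h1 * iu)) ∧
    LBb = ((((mu1b * (v * (v + l4b))) * fb) + exb) * igb) ∧
    rgb = (rhob * ((1 : ℝ) - g2b)) ∧
    M0cb = (√(rgb + (1 : ℝ))) ∧
    0 < M0cb ∧
    de = (al - a1) ∧
    rdb = (rhob * de) ∧
    M1cb = (√((1 : ℝ) - rgb)) ∧
    0 < M1cb ∧
    Nub = (((((A0b * (Acb⁻¹)) * ((X0 - (bb * Acb)) ^ 2)) + ((2 : ℝ) * (LBb * ((x - (bb * gab)) ^ 2)))) - ((M0cb⁻¹) * ((((bb * M0cb) - sg) ^ 2) + rdb))) - ((M1cb⁻¹) * ((((bb * M1cb) - sg) ^ 2) - rdb))) ∧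
    W0b = (mu0b * w0) ∧
    cbb = (bb ^ 2) ∧
    cgb = (cbb * g2b) ∧
    s0cb = (√((cgb - ((2 : ℝ) * cbb)) + (1 : ℝ))) ∧
    0 < s0cb ∧
    W1b = (mu1b * w1) ∧
    s1cb = (√((1 : ℝ) - cgb)) ∧
    0 < s1cb ∧
    w309 = ((1 : ℝ) - cbb) ∧
    crb = (cbb * rgb) ∧
    p0cb = (√(w309 - crb)) ∧
    0 < p0cb ∧
    p1cb = (√(w309 + crb)) ∧
    0 < p1cb ∧
    Nwb = ((((W0b * (s0cb⁻¹)) * ((Y0 - s0cb) ^ 2)) + ((W1b * (s1cb⁻¹)) * ((Y1 - s1cb) ^ 2))) - (w * (((p0cb⁻¹) * (((p0cb - Y) ^ 2) - rdb)) + ((p1cb⁻¹) * (((p1cb - Y) ^ 2) + rdb))))) ∧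
    Nnb = ((1 / 2 : ℝ) * (((u * (bb⁻¹)) * Nub) + Nwb)) ∧
    ba = ((bq0a + (bq1a * sg)) + (bq2a * v)) ∧
    0 < ba ∧
    A0a = (mu0a * fa) ∧
    g2a = (gaa ^ 2) ∧
    Aca = (√((2 : ℝ) - g2a)) ∧
    0 < Aca ∧
    LBa = ((((mu1a * (v * (v + l4a))) * fb) + exa) * iga) ∧
    rga = (rhoa * ((1 : ℝ) - g2a)) ∧
    M0ca = (√(rga + (1 : ℝ))) ∧
    0 < M0ca ∧
    rda = (rhoa * de) ∧
    M1ca = (√((1 : ℝ) - rga)) ∧
    0 < M1ca ∧
    Nua = (((((A0a * (Aca⁻¹)) * ((X0 - (ba * Aca)) ^ 2)) + ((2 : ℝ) * (LBa * ((x - (ba * gaa)) ^ 2)))) - ((M0ca⁻¹) * ((((ba * M0ca) - sg) ^ 2) + rda))) - ((M1ca⁻¹) * ((((ba * M1ca) - sg) ^ 2) - rda))) ∧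
    W0a = (mu0a * w0) ∧
    cba = (ba ^ 2) ∧
    cga = (cba * g2a) ∧
    s0ca = (√((cga - ((2 : ℝ) * cba)) + (1 : ℝ))) ∧
    0 < s0ca ∧
    W1a = (mu1a * w1) ∧
    s1ca = (√((1 : ℝ) - cga)) ∧
    0 < s1ca ∧
    w162 = ((1 : ℝ) - cba) ∧
    cra = (cba * rga) ∧
    p0ca = (√(w162 - cra)) ∧
    0 < p0ca ∧
    p1ca = (√(w162 + cra)) ∧
    0 < p1ca ∧
    Nwa = ((((W0a * (s0ca⁻¹)) * ((Y0 - s0ca) ^ 2)) + ((W1a * (s1ca⁻¹)) * ((Y1 - s1ca) ^ 2))) - (w * (((p0ca⁻¹) * (((p0ca - Y) ^ 2) - rda)) + ((p1ca⁻¹) * (((p1ca - Y) ^ 2) + rda))))) ∧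
    Nna = ((1 / 2 : ℝ) * (((u * (ba⁻¹)) * Nua) + Nwa)) ∧
    Nn = ((th * (Nnb - Nna)) + Nna) ∧
    0 ≤ (((s * C) - (et * CE)) - Nn)

theorem a_E {gs gt ps : ℕ} {sg v th u3 : ℝ} (h : a_R gs gt ps sg v th u3) : a_Spec (parV gs 0) (parV gs 1) (parV gs 2) (parV gs 3) (parV gs 4) (parV gs 5) (parV gs 6) (parV gs 7) (parV gs 8) (parV gs 9) (parV gs 10) (parV gs 11) (parV gs 12) (parV gs 13) (parV gs 14) (parV gs 15) (parV gs 16) (parV gs 17) (parV gs 18) (parV gs 19) (parV gs 20) (parV gs 21) (parV gs 22) (parV gt 0) (parV gt 1) (parV gt 2) (parV gt 3) (parV gt 4) (parV gt 5) (parV gt 6) (parV gt 7) (parV gt 8) (parV gt 9) (parV gt 10) (parV gt 11) (parV gt 12) (parV gt 13) (parV gt 14) (parV gt 15) (parV gt 16) (parV gt 17) (parV gt 18) (parV gt 19) (parV gt 20) (parV gt 21) (parV gt 22) sg v th := by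
  delta a_R at h
  exact letR_ex h fun pp _ h =>
  letR_ex h fun cc _ h =>
  letR_in h fun h =>
  letR_ex h fun rb q1 h =>
  letR_in h fun h =>
  letR_ex h fun ra q2 h =>
  letR_ex h fun dr q3 h =>
  letR_in h fun h =>
  posR_ex h fun q4 h =>
  letR_in h fun h =>
  letR_in h fun h =>
  letR_ex h fun r q5 h =>
  letR_in h fun h =>
  letR_ex h fun be q6 h =>
  letR_ex h fun s q7 h =>
  letR_ex h fun al q8 h =>
  letR_ex h fun w58 q9 h =>
  letR_ex h fun uh q10 h =>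
  letR_in h fun h =>
  letR_ex h fun u q11 h =>
  letR_in h fun h =>
  letR_in h fun h =>
  letR_ex h fun w q12 h =>
  (by delta a_R1 at h; exact
  letR_in h fun h =>
  letR_ex h fun uwm q13 h =>
  letR_in h fun h =>
  letR_in h fun h =>
  letR_ex h fun Y q14 h =>
  letR_in h fun h =>
  letR_ex h fun psm q15 h =>
  letR_in h fun h =>
  letR_in h fun h =>
  letR_in h fun h =>
  letR_in h fun h =>
  letR_in h fun h =>
  letR_in h fun h =>
  invR_ex h fun q16 h =>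
  letR_in h fun h =>
  letR_in h fun h =>
  letR_ex h fun Dm q17 h =>
  letR_in h fun h =>
  letR_in h fun h =>
  letR_in h fun h =>
  letR_in h fun h =>
  letR_in h fun h =>
  letR_in h fun h =>
  letR_in h fun h =>
  letR_ex h fun mu0b q18 h =>
  letR_in h fun h =>
  letR_in h fun h =>
  letR_in h fun h =>
  letR_in h fun h =>
  letR_in h fun h =>
  letR_in h fun h =>
  letR_ex h fun mu0a q19 h =>
  (by delta a_R2 at h; exact
  letR_in h fun h =>
  letR_in h fun h =>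
  letR_in h fun h =>
  letR_ex h fun m0 q20 h =>
  letR_in h fun h =>
  letR_in h fun h =>
  letR_ex h fun v2 q21 h =>
  letR_ex h fun a1 q22 h =>
  letR_ex h fun a0 q23 h =>
  letR_in h fun h =>
  letR_ex h fun w64 q24 h =>
  letR_ex h fun h0 q25 h =>
  letR_in h fun h =>
  letR_ex h fun u0 q26 h =>
  letR_in h fun h =>
  letR_in h fun h =>
  letR_ex h fun w0 q27 h =>
  letR_in h fun h =>
  letR_ex h fun uw0 q28 h =>
  letR_ex h fun w77 q29 h =>
  letR_in h fun h =>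
  letR_in h fun h =>
  letR_ex h fun X0 q30 h =>
  letR_in h fun h =>
  letR_in h fun h =>
  letR_ex h fun Y0 q31 h =>
  letR_in h fun h =>
  letR_ex h fun ps0 q32 h =>
  letR_in h fun h =>
  letR_in h fun h =>
  letR_in h fun h =>
  letR_in h fun h =>
  letR_in h fun h =>
  letR_in h fun h =>
  invR_ex h fun q33 h =>
  letR_in h fun h =>
  letR_in h fun h =>
  letR_ex h fun D0 q34 h =>
  letR_in h fun h =>
  letR_in h fun h =>
  (by delta a_R3 at h; exact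
  letR_in h fun h =>
  letR_in h fun h =>
  letR_in h fun h =>
  letR_in h fun h =>
  letR_in h fun h =>
  letR_in h fun h =>
  letR_ex h fun mu1b q35 h =>
  letR_in h fun h =>
  letR_in h fun h =>
  letR_in h fun h =>
  letR_in h fun h =>
  letR_in h fun h =>
  letR_in h fun h =>
  letR_ex h fun mu1a q36 h =>
  letR_in h fun h =>
  letR_in h fun h =>
  letR_in h fun h =>
  letR_ex h fun m1 q37 h =>
  letR_in h fun h =>
  letR_ex h fun w66 q38 h =>
  letR_ex h fun h1 q39 h =>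
  letR_in h fun h =>
  letR_ex h fun u1 q40 h =>
  letR_in h fun h =>
  letR_in h fun h =>
  letR_ex h fun w1 q41 h =>
  (by delta a_R4 at h; exact
  letR_in h fun h =>
  letR_ex h fun uw1 q42 h =>
  letR_ex h fun x q43 h =>
  letR_in h fun h =>
  letR_in h fun h =>
  letR_ex h fun Y1 q44 h =>
  letR_in h fun h =>
  letR_ex h fun ps1 q45 h =>
  letR_in h fun h =>
  letR_in h fun h =>
  letR_in h fun h =>
  letR_in h fun h =>
  letR_in h fun h =>
  letR_in h fun h =>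
  invR_ex h fun q46 h =>
  letR_in h fun h =>
  letR_in h fun h =>
  letR_ex h fun D1 q47 h =>
  letR_in h fun h =>
  letR_ex h fun C q48 h =>
  letR_in h fun h =>
  letR_in h fun h =>
  letR_in h fun h =>
  letR_in h fun h =>
  letR_in h fun h =>
  letR_in h fun h =>
  letR_in h fun h =>
  letR_in h fun h =>
  letR_ex h fun exb q49 h =>
  (by delta a_R5 at h; exact
  letR_in h fun h =>
  letR_in h fun h =>
  letR_in h fun h =>
  letR_in h fun h =>
  letR_in h fun h =>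
  letR_in h fun h =>
  letR_in h fun h =>
  letR_ex h fun gab q50 h =>
  letR_in h fun h =>
  letR_in h fun h =>
  letR_in h fun h =>
  invR_ex h fun q51 h =>
  letR_ex h fun igb q52 h =>
  letR_in h fun h =>
  letR_in h fun h =>
  letR_in h fun h =>
  letR_in h fun h =>
  letR_ex h fun etb q53 h =>
  letR_in h fun h =>
  letR_in h fun h =>
  letR_in h fun h =>
  letR_in h fun h =>
  letR_in h fun h =>
  letR_in h fun h =>
  letR_ex h fun exa q54 h =>
  (by delta a_R6 at h; exact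
  letR_in h fun h =>
  letR_in h fun h =>
  letR_in h fun h =>
  letR_in h fun h =>
  letR_in h fun h =>
  letR_in h fun h =>
  letR_in h fun h =>
  letR_ex h fun gaa q55 h =>
  letR_in h fun h =>
  letR_in h fun h =>
  letR_in h fun h =>
  invR_ex h fun q56 h =>
  letR_ex h fun iga q57 h =>
  letR_in h fun h =>
  letR_in h fun h =>
  letR_in h fun h =>
  letR_in h fun h =>
  letR_ex h fun eta q58 h =>
  letR_in h fun h =>
  letR_in h fun h =>
  letR_in h fun h =>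
  letR_ex h fun e1 q59 h =>
  letR_in h fun h =>
  letR_in h fun h =>
  letR_ex h fun et q60 h =>
  logR_ex h fun q61 h =>
  letR_in h fun h =>
  letR_in h fun h =>
  letR_in h fun h =>
  letR_in h fun h =>
  letR_in h fun h =>
  letR_in h fun h =>
  letR_in h fun h =>
  invR_ex h fun q62 h =>
  letR_ex h fun i2 q63 h =>
  letR_in h fun h =>
  letR_in h fun h =>
  letR_in h fun h =>
  logR_ex h fun q64 h =>
  letR_in h fun h =>
  letR_in h fun h =>
  letR_in h fun h =>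
  letR_ex h fun M q65 h =>
  letR_in h fun h =>
  letR_in h fun h =>
  (by delta a_R7 at h; exact
  letR_ex h fun CE q66 h =>
  letR_in h fun h =>
  letR_in h fun h =>
  letR_in h fun h =>
  letR_in h fun h =>
  letR_in h fun h =>
  letR_in h fun h =>
  letR_in h fun h =>
  letR_in h fun h =>
  letR_in h fun h =>
  letR_ex h fun bb q67 h =>
  invR_ex h fun q68 h =>
  letR_in h fun h =>
  letR_in h fun h =>
  letR_in h fun h =>
  letR_in h fun h =>
  invR_ex h fun q69 h =>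
  letR_ex h fun iu q70 h =>
  letR_in h fun h =>
  letR_in h fun h =>
  letR_in h fun h =>
  letR_ex h fun fa q71 h =>
  letR_in h fun h =>
  letR_ex h fun A0b q72 h =>
  letR_ex h fun g2b q73 h =>
  letR_in h fun h =>
  letR_ex h fun Acb q74 h =>
  invR_ex h fun q75 h =>
  letR_in h fun h =>
  letR_in h fun h =>
  letR_in h fun h =>
  letR_in h fun h =>
  letR_in h fun h =>
  letR_in h fun h =>
  letR_in h fun h =>
  letR_in h fun h =>
  letR_in h fun h =>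
  letR_in h fun h =>
  letR_in h fun h =>
  letR_in h fun h =>
  letR_in h fun h =>
  letR_in h fun h =>
  letR_in h fun h =>
  (by delta a_R8 at h; exact
  letR_in h fun h =>
  letR_ex h fun fb q76 h =>
  letR_in h fun h =>
  letR_in h fun h =>
  letR_in h fun h =>
  letR_in h fun h =>
  letR_ex h fun LBb q77 h =>
  letR_in h fun h =>
  letR_in h fun h =>
  letR_in h fun h =>
  letR_in h fun h =>
  letR_in h fun h =>
  letR_in h fun h =>
  letR_in h fun h =>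
  letR_in h fun h =>
  letR_ex h fun rgb q78 h =>
  letR_in h fun h =>
  letR_ex h fun M0cb q79 h =>
  invR_ex h fun q80 h =>
  letR_in h fun h =>
  letR_in h fun h =>
  letR_in h fun h =>
  letR_in h fun h =>
  letR_in h fun h =>
  letR_ex h fun de q81 h =>
  letR_in h fun h =>
  letR_ex h fun rdb q82 h =>
  letR_in h fun h =>
  letR_in h fun h =>
  letR_in h fun h =>
  letR_in h fun h =>
  (by delta a_R9 at h; exact
  letR_in h fun h =>
  letR_ex h fun M1cb q83 h =>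
  invR_ex h fun q84 h =>
  letR_in h fun h =>
  letR_in h fun h =>
  letR_in h fun h =>
  letR_in h fun h =>
  letR_in h fun h =>
  letR_in h fun h =>
  letR_in h fun h =>
  letR_in h fun h =>
  letR_ex h fun Nub q85 h =>
  letR_in h fun h =>
  letR_in h fun h =>
  letR_in h fun h =>
  letR_ex h fun W0b q86 h =>
  letR_ex h fun cbb q87 h =>
  letR_in h fun h =>
  letR_ex h fun cgb q88 h =>
  letR_in h fun h =>
  letR_in h fun h =>
  letR_in h fun h =>
  letR_ex h fun s0cb q89 h =>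
  invR_ex h fun q90 h =>
  letR_in h fun h =>
  letR_in h fun h =>
  letR_in h fun h =>
  letR_in h fun h =>
  letR_in h fun h =>
  letR_in h fun h =>
  letR_in h fun h =>
  letR_in h fun h =>
  letR_ex h fun W1b q91 h =>
  letR_in h fun h =>
  letR_ex h fun s1cb q92 h =>
  invR_ex h fun q93 h =>
  letR_in h fun h =>
  letR_in h fun h =>
  letR_in h fun h =>
  letR_in h fun h =>
  letR_in h fun h =>
  letR_in h fun h =>
  letR_in h fun h =>
  letR_in h fun h =>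
  (by delta a_R10 at h; exact
  letR_ex h fun w309 q94 h =>
  letR_in h fun h =>
  letR_ex h fun crb q95 h =>
  letR_in h fun h =>
  letR_ex h fun p0cb q96 h =>
  invR_ex h fun q97 h =>
  letR_in h fun h =>
  letR_in h fun h =>
  letR_in h fun h =>
  letR_in h fun h =>
  letR_in h fun h =>
  letR_in h fun h =>
  letR_in h fun h =>
  letR_in h fun h =>
  letR_ex h fun p1cb q98 h =>
  invR_ex h fun q99 h =>
  letR_in h fun h =>
  letR_in h fun h =>
  letR_in h fun h =>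
  letR_in h fun h =>
  letR_in h fun h =>
  letR_in h fun h =>
  letR_in h fun h =>
  letR_in h fun h =>
  letR_in h fun h =>
  letR_in h fun h =>
  letR_ex h fun Nwb q100 h =>
  letR_in h fun h =>
  letR_ex h fun Nnb q101 h =>
  (by delta a_R11 at h; exact
  letR_in h fun h =>
  letR_in h fun h =>
  letR_in h fun h =>
  letR_in h fun h =>
  letR_in h fun h =>
  letR_in h fun h =>
  letR_ex h fun ba q102 h =>
  invR_ex h fun q103 h =>
  letR_in h fun h =>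
  letR_in h fun h =>
  letR_in h fun h =>
  letR_in h fun h =>
  letR_in h fun h =>
  letR_ex h fun A0a q104 h =>
  letR_ex h fun g2a q105 h =>
  letR_in h fun h =>
  letR_ex h fun Aca q106 h =>
  invR_ex h fun q107 h =>
  letR_in h fun h =>
  letR_in h fun h =>
  letR_in h fun h =>
  letR_in h fun h =>
  letR_in h fun h =>
  letR_in h fun h =>
  letR_in h fun h =>
  letR_in h fun h =>
  letR_in h fun h =>
  letR_in h fun h =>
  letR_in h fun h =>
  letR_in h fun h =>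
  letR_in h fun h =>
  letR_in h fun h =>
  letR_in h fun h =>
  letR_in h fun h =>
  letR_in h fun h =>
  letR_in h fun h =>
  letR_ex h fun LBa q108 h =>
  letR_in h fun h =>
  letR_in h fun h =>
  letR_in h fun h =>
  letR_in h fun h =>
  letR_in h fun h =>
  (by delta a_R12 at h; exact
  letR_in h fun h =>
  letR_in h fun h =>
  letR_in h fun h =>
  letR_ex h fun rga q109 h =>
  letR_in h fun h =>
  letR_ex h fun M0ca q110 h =>
  invR_ex h fun q111 h =>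
  letR_in h fun h =>
  letR_in h fun h =>
  letR_in h fun h =>
  letR_in h fun h =>
  letR_in h fun h =>
  letR_ex h fun rda q112 h =>
  letR_in h fun h =>
  letR_in h fun h =>
  letR_in h fun h =>
  letR_in h fun h =>
  letR_in h fun h =>
  letR_ex h fun M1ca q113 h =>
  invR_ex h fun q114 h =>
  letR_in h fun h =>
  letR_in h fun h =>
  letR_in h fun h =>
  letR_in h fun h =>
  letR_in h fun h =>
  letR_in h fun h =>
  letR_in h fun h =>
  letR_in h fun h =>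
  letR_ex h fun Nua q115 h =>
  letR_in h fun h =>
  letR_in h fun h =>
  letR_in h fun h =>
  letR_ex h fun W0a q116 h =>
  letR_ex h fun cba q117 h =>
  (by delta a_R13 at h; exact
  letR_in h fun h =>
  letR_ex h fun cga q118 h =>
  letR_in h fun h =>
  letR_in h fun h =>
  letR_in h fun h =>
  letR_ex h fun s0ca q119 h =>
  invR_ex h fun q120 h =>
  letR_in h fun h =>
  letR_in h fun h =>
  letR_in h fun h =>
  letR_in h fun h =>
  letR_in h fun h =>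
  letR_in h fun h =>
  letR_in h fun h =>
  letR_in h fun h =>
  letR_ex h fun W1a q121 h =>
  letR_in h fun h =>
  letR_ex h fun s1ca q122 h =>
  invR_ex h fun q123 h =>
  letR_in h fun h =>
  letR_in h fun h =>
  letR_in h fun h =>
  letR_in h fun h =>
  letR_in h fun h =>
  letR_in h fun h =>
  letR_in h fun h =>
  letR_in h fun h =>
  letR_ex h fun w162 q124 h =>
  letR_in h fun h =>
  letR_ex h fun cra q125 h =>
  (by delta a_R14 at h; exact
  letR_in h fun h =>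
  letR_ex h fun p0ca q126 h =>
  invR_ex h fun q127 h =>
  letR_in h fun h =>
  letR_in h fun h =>
  letR_in h fun h =>
  letR_in h fun h =>
  letR_in h fun h =>
  letR_in h fun h =>
  letR_in h fun h =>
  letR_in h fun h =>
  letR_ex h fun p1ca q128 h =>
  invR_ex h fun q129 h =>
  letR_in h fun h =>
  letR_in h fun h =>
  letR_in h fun h =>
  letR_in h fun h =>
  letR_in h fun h =>
  letR_in h fun h =>
  letR_in h fun h =>
  letR_in h fun h =>
  letR_in h fun h =>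
  letR_in h fun h =>
  letR_ex h fun Nwa q130 h =>
  letR_in h fun h =>
  letR_ex h fun Nna q131 h =>
  letR_in h fun h =>
  letR_in h fun h =>
  letR_in h fun h =>
  letR_ex h fun Nn q132 h =>
  letR_in h fun h =>
  posR_ex h fun q133 h =>
  ⟨pp, cc, rb, ra, dr, r, be, s, al, w58, uh, u, w, uwm, Y, psm, Dm, mu0b, mu0a, m0, v2, a1, a0, w64, h0, u0, w0, uw0, w77, X0, Y0, ps0, D0, mu1b, mu1a, m1, w66, h1, u1, w1, uw1, x, Y1, ps1, D1, C, exb, gab, igb, etb, exa, gaa, iga, eta, e1, et, i2, M, CE, bb, iu, fa, A0b, g2b, Acb, fb, LBb, rgb, M0cb, de, rdb, M1cb, Nub, W0b, cbb, cgb, s0cb, W1b, s1cb, w309, crb, p0cb, p1cb, Nwb, Nnb, ba, A0a, g2a, Aca, LBa, rga, M0ca, rda, M1ca, Nua, W0a, cba, cga, s0ca, W1a, s1ca, w162, cra, p0ca, p1ca, Nwa, Nna, Nn, q1, q2, q3, q4, q5, q6, q7, q8, q9, q10, q11, q12, q13, q14, q15, q16, q17, q18, q19, q20, q21, q22, q23, q24, q25, q26, q27, q28, q29, q30, q31, q32, q33, q34, q35,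 q36, q37, q38, q39, q40, q41, q42, q43, q44, q45, q46, q47, q48, q49, q50, q51, q52, q53, q54, q55, q56, q57, q58, q59, q60, q61, q62, q63, q64, q65, q66, q67, q68, q69, q70, q71, q72, q73, q74, q75, q76, q77, q78, q79, q80, q81, q82, q83, q84, q85, q86, q87, q88, q89, q90, q91, q92, q93, q94, q95, q96, q97, q98, q99, q100, q101, q102, q103, q104, q105, q106, q107, q108, q109, q110, q111, q112, q113, q114, q115, q116, q117, q118, q119, q120, q121, q122, q123, q124, q125, q126, q127, q128, q129, q130, q131, q132, q133⟩))))))))))))))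

theorem k9 : |2 ^ 48 * (-257 / 1024 : ℝ) - (((4722366412226023129088 : ℕ) : ℝ) - 2 ^ 72)| ≤ ((0 : ℕ) : ℝ) := by norm_num [abs_le]
def d_B (gs gt ps : ℕ) (x0 x1 x2 x3 : AF) : Bool :=
  sqrK x0 fun z49 =>
  sqrK x1 fun z50 =>
  rsubK z50 4722366764344621924352 0 fun z51 =>
  mulK z49 z51 fun z52 =>
  addcK z52 4722366412226023129088 0 fun z53 =>
  posK z53 <|
  true

def d_R (gs gt ps : ℕ) (sg v th u3 : ℝ) : Prop :=
  letR (sg ^ 2) fun z49 =>
  letR (v ^ 2) fun z50 =>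
  letR ((1 : ℝ) - z50) fun z51 =>
  letR (z49 * z51) fun z52 =>
  letR (z52 + (-257 / 1024 : ℝ)) fun z53 =>
  posR z53 <|
  True

theorem d_S {ε : Fin 4 → ℝ} (gs gt : ℕ) (hε : ∀ i, |ε i| ≤ 1) (ps : ℕ) (x0 x1 x2 x3 : AF) (sg v th u3 : ℝ)
    (h0 : Rel ε x0 sg) (h1 : Rel ε x1 v) (h2 : Rel ε x2 th) (h3 : Rel ε x3 u3) :
    d_B gs gt ps x0 x1 x2 x3 = true → d_R gs gt ps sg v th u3 := by
  delta d_B d_R
  exact sqrS hε h0 fun z49 t49 g49 =>
  sqrS hε h1 fun z50 t50 g50 =>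
  rsubS g50 k1 fun z51 t51 g51 =>
  mulS hε g49 g51 fun z52 t52 g52 =>
  addcS g52 k9 fun z53 t53 g53 =>
  posS hε g53 <|
  fun _ => trivial

/- obtain ⟨c0⟩ := h -/
def d_Spec (rhoa l4a kua kwa ma0a ma1a ma2a mb0a mb1a mb2a bq0a bq1a bq2a gq0a gq1a gq2a xq0a xq1a xq2a am0a am1a bm0a bm1a rhob l4b kub kwb ma0b ma1b ma2b mb0b mb1b mb2b bq0b bq1b bq2b gq0b gq1b gq2b xq0b xq1b xq2b am0b am1b bm0b bm1b sg v th : ℝ) : Prop :=
  0 ≤ (((sg ^ 2) * ((1 : ℝ) - (v ^ 2))) + (-257 / 1024 : ℝ))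

theorem d_E {gs gt ps : ℕ} {sg v th u3 : ℝ} (h : d_R gs gt ps sg v th u3) : d_Spec (parV gs 0) (parV gs 1) (parV gs 2) (parV gs 3) (parV gs 4) (parV gs 5) (parV gs 6) (parV gs 7) (parV gs 8) (parV gs 9) (parV gs 10) (parV gs 11) (parV gs 12) (parV gs 13) (parV gs 14) (parV gs 15) (parV gs 16) (parV gs 17) (parV gs 18) (parV gs 19) (parV gs 20) (parV gs 21) (parV gs 22) (parV gt 0) (parV gt 1) (parV gt 2) (parV gt 3) (parV gt 4) (parV gt 5) (parV gt 6) (parV gt 7) (parV gt 8) (parV gt 9) (parV gt 10) (parV gt 11) (parV gt 12) (parV gt 13) (parV gt 14) (parV gt 15) (parV gt 16) (parV gt 17) (parV gt 18) (parV gt 19) (parV gt 20) (parV gt 21) (parV gt 22) sg v th := by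
  delta d_R at h
  exact letR_in h fun h =>
  letR_in h fun h =>
  letR_in h fun h =>
  letR_in h fun h =>
  letR_in h fun h =>
  posR_ex h fun q1 h =>
  q1

def PB (gs gt : ℕ) : Prog := fun j ps x0 x1 x2 x3 =>
  Nat.rec (motive := fun _ => Bool) (a_B gs gt ps x0 x1 x2 x3) (fun j _ => d_B gs gt ps x0 x1 x2 x3) j

def PR (gs gt : ℕ) : ℕ → ℕ → ℝ → ℝ → ℝ → ℝ → Prop := fun j ps sg v th u3 =>
  Nat.rec (motive := fun _ => Prop) (a_R gs gt ps sg v th u3) (fun j _ => d_R gs gt ps sg v th u3) j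

theorem PS (gs gt : ℕ) : Sound (PB gs gt) (PR gs gt) := fun _ hε j => match j with
  | 0 => a_S gs gt hε
  | _ + 1 => d_S gs gt hε

theorem PE {j gs gt ps : ℕ} {sg v th u3 : ℝ} : PR gs gt j ps sg v th u3 → a_Spec (parV gs 0) (parV gs 1) (parV gs 2) (parV gs 3) (parV gs 4) (parV gs 5) (parV gs 6) (parV gs 7) (parV gs 8) (parV gs 9) (parV gs 10) (parV gs 11) (parV gs 12) (parV gs 13) (parV gs 14) (parV gs 15) (parV gs 16) (parV gs 17) (parV gs 18) (parV gs 19) (parV gs 20) (parV gs 21) (parV gs 22) (parV gt 0) (parV gt 1) (parV gt 2) (parV gt 3) (parV gt 4) (parV gt 5) (parV gt 6) (parV gt 7) (parV gt 8) (parV gt 9) (parV gt 10) (parV gt 11) (parV gt 12) (parV gt 13) (parV gt 14) (parV gt 15) (parV gt 16) (parV gt 17) (parV gt 18) (parV gt 19) (parV gt 20) (parV gt 21) (parV gt 22) sg v th ∨ d_Spec (parV gs 0) (parV gs 1) (parV gs 2) (parV gs 3) (parV gs 4) (parV gs 5) (parV gs 6) (parV gs 7) (parV gs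 8) (parV gs 9) (parV gs 10) (parV gs 11) (parV gs 12) (parV gs 13) (parV gs 14) (parV gs 15) (parV gs 16) (parV gs 17) (parV gs 18) (parV gs 19) (parV gs 20) (parV gs 21) (parV gs 22) (parV gt 0) (parV gt 1) (parV gt 2) (parV gt 3) (parV gt 4) (parV gt 5) (parV gt 6) (parV gt 7) (parV gt 8) (parV gt 9) (parV gt 10) (parV gt 11) (parV gt 12) (parV gt 13) (parV gt 14) (parV gt 15) (parV gt 16) (parV gt 17) (parV gt 18) (parV gt 19) (parV gt 20) (parV gt 21) (parV gt 22) sg v th := match j with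
  | 0 => fun h => Or.inl (@a_E gs gt ps sg v th u3 h)
  | _ + 1 => fun h => Or.inr (@d_E gs gt ps sg v th u3 h)

theorem of_good {gs gt l0 h0 l1 h1 l2 h2 l3 h3 : ℕ} (h : Good (PR gs gt) l0 h0 l1 h1 l2 h2 l3 h3) {sg v th u3 : ℝ}
    (hb : InBox l0 h0 l1 h1 l2 h2 l3 h3 sg v th u3) : a_Spec (parV gs 0) (parV gs 1) (parV gs 2) (parV gs 3) (parV gs 4) (parV gs 5) (parV gs 6) (parV gs 7) (parV gs 8) (parV gs 9) (parV gs 10) (parV gs 11) (parV gs 12) (parV gs 13) (parV gs 14) (parV gs 15) (parV gs 16) (parV gs 17) (parV gs 18) (parV gs 19) (parV gs 20) (parV gs 21) (parV gs 22) (parV gt 0) (parV gt 1) (parV gt 2) (parV gt 3) (parV gt 4) (parV gt 5) (parV gt 6) (parV gt 7) (parV gt 8) (parV gt 9) (parV gt 10) (parV gt 11) (parV gt 12) (parV gt 13) (parV gt 14) (parV gt 15) (parV gt 16) (parV gt 17) (parV gt 18) (parV gt 19) (parV gt 20) (parV gt 21) (parV gt 22) sg v th ∨ d_Spec (parV gs 0) (parV gs 1) (parV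 gs 2) (parV gs 3) (parV gs 4) (parV gs 5) (parV gs 6) (parV gs 7) (parV gs 8) (parV gs 9) (parV gs 10) (parV gs 11) (parV gs 12) (parV gs 13) (parV gs 14) (parV gs 15) (parV gs 16) (parV gs 17) (parV gs 18) (parV gs 19) (parV gs 20) (parV gs 21) (parV gs 22) (parV gt 0) (parV gt 1) (parV gt 2) (parV gt 3) (parV gt 4) (parV gt 5) (parV gt 6) (parV gt 7) (parV gt 8) (parV gt 9) (parV gt 10) (parV gt 11) (parV gt 12) (parV gt 13) (parV gt 14) (parV gt 15) (parV gt 16) (parV gt 17) (parV gt 18) (parV gt 19) (parV gt 20) (parV gt 21) (parV gt 22) sg v th := by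
  obtain ⟨j, ps, h⟩ := h sg v th u3 hb
  exact PE h

def l0 : Tree := Tree.leaf 0
def l1 : Tree := Tree.leaf 1

end

end Crest.Agent.R307.BB
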