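import Crest.Agent.R307.AA

set_option autoImplicit false
set_option maxRecDepth 100000
set_option linter.unusedVariables false

namespace Crest.Agent.R307.BD
open Crest.Agent.R307.AA

noncomputable section

theorem k0 : |2 ^ 48 * (0 : ℝ) - (((4722366482869645213696 : ℕ) : ℝ) - 2 ^ 72)| ≤ ((0 : ℕ) : ℝ) := by norm_num [abs_le]
theorem k1 : |2 ^ 48 * (7 / 8 : ℝ) - (((4722366729160249835520 : ℕ) : ℝ) - 2 ^ 72)| ≤ ((0 : ℕ) : ℝ) := by norm_num [abs_le]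
theorem k2 : |2 ^ 48 * (-1 / 1024 : ℝ) - (((4722366482594767306752 : ℕ) : ℝ) - 2 ^ 72)| ≤ ((0 : ℕ) : ℝ) := by norm_num [abs_le]
theorem k3 : |2 ^ 48 * (-3 / 32 : ℝ) - (((4722366456481366147072 : ℕ) : ℝ) - 2 ^ 72)| ≤ ((0 : ℕ) : ℝ) := by norm_num [abs_le]
theorem k4 : |2 ^ 48 * (1 : ℝ) - (((4722366764344621924352 : ℕ) : ℝ) - 2 ^ 72)| ≤ ((0 : ℕ) : ℝ) := by norm_num [abs_le]
theorem k5 : |2 ^ 48 * (2 : ℝ) - (((4722367045819598635008 : ℕ) : ℝ) - 2 ^ 72)| ≤ ((0 : ℕ) : ℝ) := by norm_num [abs_le]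
theorem k6 : |2 ^ 48 * (63 / 64 : ℝ) - (((4722366759946575413248 : ℕ) : ℝ) - 2 ^ 72)| ≤ ((0 : ℕ) : ℝ) := by norm_num [abs_le]
theorem k7 : (2 : ℝ) = val 4722367045819598635008 := by norm_num [val]
theorem k8 : |2 ^ 48 * (9 / 10 : ℝ) - (((4722366736197124253286 : ℕ) : ℝ) - 2 ^ 72)| ≤ ((1 : ℕ) : ℝ) := by norm_num [abs_le]
theorem k9 : |2 ^ 48 * (19 / 10 : ℝ) - (((4722367017672100963942 : ℕ) : ℝ) - 2 ^ 72)| ≤ ((1 : ℕ) : ℝ) := by norm_num [abs_le]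
theorem k10 : |2 ^ 48 * (9 / 20 : ℝ) - (((4722366609533384733491 : ℕ) : ℝ) - 2 ^ 72)| ≤ ((1 : ℕ) : ℝ) := by norm_num [abs_le]
theorem k11 : |2 ^ 48 * (19 / 20 : ℝ) - (((4722366750270873088819 : ℕ) : ℝ) - 2 ^ 72)| ≤ ((1 : ℕ) : ℝ) := by norm_num [abs_le]
theorem k12 : |2 ^ 48 * (1 / 10 : ℝ) - (((4722366511017142884761 : ℕ) : ℝ) - 2 ^ 72)| ≤ ((1 : ℕ) : ℝ) := by norm_num [abs_le]
def a_B3 (gs ps : ℕ) (z57 z45 z47 z60 z61 z51 z70 z115 : AF) : Bool :=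
  smulK z115 4722367045819598635008 fun z116 =>
  parK gs 20 fun z22 =>
  subK z116 z22 fun z117 =>
  posK z117 <|
  addcK z61 4722366511017142884761 1 fun z88 =>
  mulK z60 z88 fun z89 =>
  rsubK z89 4722366764344621924352 0 fun z90 =>
  mulK z57 z90 fun z91 =>
  normK z91 fun z92 =>
  parK gs 21 fun z23 =>
  addcK z51 4722366511017142884761 1 fun z85 =>
  mulK z45 z85 fun z86 =>
  rsubK z86 4722366764344621924352 0 fun z87 =>
  mulK z23 z87 fun z118 =>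
  subK z92 z118 fun z119 =>
  posK z119 <|
  mulK (cst 4722366736197124253286 1) z47 fun z93 =>
  addcK z93 4722366511017142884761 1 fun z94 =>
  mulK z47 z94 fun z95 =>
  rsubK z95 4722366764344621924352 0 fun z96 =>
  mulK z70 z96 fun z97 =>
  normK z97 fun z98 =>
  parK gs 22 fun z24 =>
  mulK z24 z87 fun z120 =>
  subK z98 z120 fun z121 =>
  posK z121 <|
  true

def a_R3 (gs ps : ℕ) (z57 z45 z47 z60 z61 z51 z70 z115 : ℝ) : Prop :=
  letR ((2 : ℝ) * z115) fun z116 =>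
  letR (parV gs 20) fun z22 =>
  letR (z116 - z22) fun z117 =>
  posR z117 <|
  letR (z61 + (1 / 10 : ℝ)) fun z88 =>
  letR (z60 * z88) fun z89 =>
  letR ((1 : ℝ) - z89) fun z90 =>
  letR (z57 * z90) fun z91 =>
  letR z91 fun z92 =>
  letR (parV gs 21) fun z23 =>
  letR (z51 + (1 / 10 : ℝ)) fun z85 =>
  letR (z45 * z85) fun z86 =>
  letR ((1 : ℝ) - z86) fun z87 =>
  letR (z23 * z87) fun z118 =>
  letR (z92 - z118) fun z119 =>
  posR z119 <|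
  letR ((9 / 10 : ℝ) * z47) fun z93 =>
  letR (z93 + (1 / 10 : ℝ)) fun z94 =>
  letR (z47 * z94) fun z95 =>
  letR ((1 : ℝ) - z95) fun z96 =>
  letR (z70 * z96) fun z97 =>
  letR z97 fun z98 =>
  letR (parV gs 22) fun z24 =>
  letR (z24 * z87) fun z120 =>
  letR (z98 - z120) fun z121 =>
  posR z121 <|
  True

theorem a_S3 {ε : Fin 4 → ℝ} (gs : ℕ) (hε : ∀ i, |ε i| ≤ 1) (ps : ℕ) (z57 z45 z47 z60 z61 z51 z70 z115 : AF) (t57 t45 t47 t60 t61 t51 t70 t115 : ℝ)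
    (g57 : Rel ε z57 t57) (g45 : Rel ε z45 t45) (g47 : Rel ε z47 t47) (g60 : Rel ε z60 t60) (g61 : Rel ε z61 t61) (g51 : Rel ε z51 t51) (g70 : Rel ε z70 t70) (g115 : Rel ε z115 t115) :
    a_B3 gs ps z57 z45 z47 z60 z61 z51 z70 z115 = true → a_R3 gs ps t57 t45 t47 t60 t61 t51 t70 t115 := by
  delta a_B3 a_R3
  exact smulS hε g115 k7 fun z116 t116 g116 =>
  parS fun z22 t22 g22 =>
  subS g116 g22 fun z117 t117 g117 =>
  posS hε g117 <|
  addcS g61 k12 fun z88 t88 g88 =>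
  mulS hε g60 g88 fun z89 t89 g89 =>
  rsubS g89 k4 fun z90 t90 g90 =>
  mulS hε g57 g90 fun z91 t91 g91 =>
  normS g91 fun z92 t92 g92 =>
  parS fun z23 t23 g23 =>
  addcS g51 k12 fun z85 t85 g85 =>
  mulS hε g45 g85 fun z86 t86 g86 =>
  rsubS g86 k4 fun z87 t87 g87 =>
  mulS hε g23 g87 fun z118 t118 g118 =>
  subS g92 g118 fun z119 t119 g119 =>
  posS hε g119 <|
  mulS hε (cst_rel k8) g47 fun z93 t93 g93 =>
  addcS g93 k12 fun z94 t94 g94 =>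
  mulS hε g47 g94 fun z95 t95 g95 =>
  rsubS g95 k4 fun z96 t96 g96 =>
  mulS hε g70 g96 fun z97 t97 g97 =>
  normS g97 fun z98 t98 g98 =>
  parS fun z24 t24 g24 =>
  mulS hε g24 g87 fun z120 t120 g120 =>
  subS g98 g120 fun z121 t121 g121 =>
  posS hε g121 <|
  fun _ => trivial

def a_B2 (gs ps : ℕ) (x0 x1 z3 z28 z32 z44 z40 z101 : AF) : Bool :=
  normK z28 fun z57 =>
  sqrK x1 fun z46 =>
  rsubK z46 4722367045819598635008 0 fun z56 =>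
  mulK z57 z56 fun z58 =>
  normK z58 fun z59 =>
  sqrK x0 fun z45 =>
  smulK z45 4722367045819598635008 fun z48 =>
  mulK z45 z46 fun z47 =>
  subK z48 z47 fun z49 =>
  normK z49 fun z60 =>
  mulK (cst 4722366736197124253286 1) z60 fun z61 =>
  rsubK z61 4722367017672100963942 1 fun z62 =>
  mulK (cst 4722366736197124253286 1) z45 fun z51 =>
  rsubK z51 4722367017672100963942 1 fun z52 =>
  invK z52 fun z53 =>
  mulK z62 z53 fun z63 =>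
  normK z63 fun z64 =>
  mulK z59 z64 fun z65 =>
  normK z65 fun z66 =>
  parK gs 19 fun z21 =>
  subK z66 z21 fun z114 =>
  posK z114 <|
  normK z32 fun z70 =>
  addK x1 z3 fun z67 =>
  normK z67 fun z68 =>
  mulK x1 z68 fun z69 =>
  mulK z70 z69 fun z71 =>
  normK z71 fun z72 =>
  mulK (cst 4722366609533384733491 1) z47 fun z74 =>
  rsubK z74 4722366750270873088819 1 fun z75 =>
  mulK z75 z53 fun z76 =>
  normK z76 fun z77 =>
  mulK z72 z77 fun z78 =>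
  addK z78 z44 fun z79 =>
  normK z79 fun z82 =>
  addK z40 z3 fun z80 =>
  invK z80 fun z81 =>
  mulK z82 z81 fun z83 =>
  normK z83 fun z84 =>
  mulK z101 z84 fun z115 =>
  a_B3 gs ps z57 z45 z47 z60 z61 z51 z70 z115

def a_R2 (gs ps : ℕ) (sg v z3 z28 z32 z44 z40 z101 : ℝ) : Prop :=
  letR z28 fun z57 =>
  letR (v ^ 2) fun z46 =>
  letR ((2 : ℝ) - z46) fun z56 =>
  letR (z57 * z56) fun z58 =>
  letR z58 fun z59 =>
  letR (sg ^ 2) fun z45 =>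
  letR ((2 : ℝ) * z45) fun z48 =>
  letR (z45 * z46) fun z47 =>
  letR (z48 - z47) fun z49 =>
  letR z49 fun z60 =>
  letR ((9 / 10 : ℝ) * z60) fun z61 =>
  letR ((19 / 10 : ℝ) - z61) fun z62 =>
  letR ((9 / 10 : ℝ) * z45) fun z51 =>
  letR ((19 / 10 : ℝ) - z51) fun z52 =>
  invR z52 fun z53 =>
  letR (z62 * z53) fun z63 =>
  letR z63 fun z64 =>
  letR (z59 * z64) fun z65 =>
  letR z65 fun z66 =>
  letR (parV gs 19) fun z21 =>
  letR (z66 - z21) fun z114 =>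
  posR z114 <|
  letR z32 fun z70 =>
  letR (v + z3) fun z67 =>
  letR z67 fun z68 =>
  letR (v * z68) fun z69 =>
  letR (z70 * z69) fun z71 =>
  letR z71 fun z72 =>
  letR ((9 / 20 : ℝ) * z47) fun z74 =>
  letR ((19 / 20 : ℝ) - z74) fun z75 =>
  letR (z75 * z53) fun z76 =>
  letR z76 fun z77 =>
  letR (z72 * z77) fun z78 =>
  letR (z78 + z44) fun z79 =>
  letR z79 fun z82 =>
  letR (z40 + z3) fun z80 =>
  invR z80 fun z81 =>
  letR (z82 * z81) fun z83 =>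
  letR z83 fun z84 =>
  letR (z101 * z84) fun z115 =>
  a_R3 gs ps z57 z45 z47 z60 z61 z51 z70 z115

theorem a_S2 {ε : Fin 4 → ℝ} (gs : ℕ) (hε : ∀ i, |ε i| ≤ 1) (ps : ℕ) (x0 x1 z3 z28 z32 z44 z40 z101 : AF) (sg v t3 t28 t32 t44 t40 t101 : ℝ)
    (h0 : Rel ε x0 sg) (h1 : Rel ε x1 v) (g3 : Rel ε z3 t3) (g28 : Rel ε z28 t28) (g32 : Rel ε z32 t32) (g44 : Rel ε z44 t44) (g40 : Rel ε z40 t40) (g101 : Rel ε z101 t101) :
    a_B2 gs ps x0 x1 z3 z28 z32 z44 z40 z101 = true → a_R2 gs ps sg v t3 t28 t32 t44 t40 t101 := by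
  delta a_B2 a_R2
  exact normS g28 fun z57 t57 g57 =>
  sqrS hε h1 fun z46 t46 g46 =>
  rsubS g46 k5 fun z56 t56 g56 =>
  mulS hε g57 g56 fun z58 t58 g58 =>
  normS g58 fun z59 t59 g59 =>
  sqrS hε h0 fun z45 t45 g45 =>
  smulS hε g45 k7 fun z48 t48 g48 =>
  mulS hε g45 g46 fun z47 t47 g47 =>
  subS g48 g47 fun z49 t49 g49 =>
  normS g49 fun z60 t60 g60 =>
  mulS hε (cst_rel k8) g60 fun z61 t61 g61 =>
  rsubS g61 k9 fun z62 t62 g62 =>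
  mulS hε (cst_rel k8) g45 fun z51 t51 g51 =>
  rsubS g51 k9 fun z52 t52 g52 =>
  invS hε g52 fun z53 t53 g53 =>
  mulS hε g62 g53 fun z63 t63 g63 =>
  normS g63 fun z64 t64 g64 =>
  mulS hε g59 g64 fun z65 t65 g65 =>
  normS g65 fun z66 t66 g66 =>
  parS fun z21 t21 g21 =>
  subS g66 g21 fun z114 t114 g114 =>
  posS hε g114 <|
  normS g32 fun z70 t70 g70 =>
  addS h1 g3 fun z67 t67 g67 =>
  normS g67 fun z68 t68 g68 =>
  mulS hε h1 g68 fun z69 t69 g69 =>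
  mulS hε g70 g69 fun z71 t71 g71 =>
  normS g71 fun z72 t72 g72 =>
  mulS hε (cst_rel k10) g47 fun z74 t74 g74 =>
  rsubS g74 k11 fun z75 t75 g75 =>
  mulS hε g75 g53 fun z76 t76 g76 =>
  normS g76 fun z77 t77 g77 =>
  mulS hε g72 g77 fun z78 t78 g78 =>
  addS g78 g44 fun z79 t79 g79 =>
  normS g79 fun z82 t82 g82 =>
  addS g40 g3 fun z80 t80 g80 =>
  invS hε g80 fun z81 t81 g81 =>
  mulS hε g82 g81 fun z83 t83 g83 =>
  normS g83 fun z84 t84 g84 =>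
  mulS hε g101 g84 fun z115 t115 g115 =>
  a_S3 gs hε ps z57 z45 z47 z60 z61 z51 z70 z115 t57 t45 t47 t60 t61 t51 t70 t115 g57 g45 g47 g60 g61 g51 g70 g115

def a_B1 (gs ps : ℕ) (x0 x1 z3 z28 z32 : AF) : Bool :=
  parK gs 16 fun z18 =>
  parK gs 17 fun z19 =>
  mulK z19 x0 fun z41 =>
  addK z18 z41 fun z42 =>
  parK gs 18 fun z20 =>
  mulK z20 x1 fun z43 =>
  addK z42 z43 fun z44 =>
  posK z44 <|
  parK gs 10 fun z12 =>
  parK gs 11 fun z13 =>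
  mulK z13 x0 fun z33 =>
  addK z12 z33 fun z34 =>
  parK gs 12 fun z14 =>
  mulK z14 x1 fun z35 =>
  addK z34 z35 fun z36 =>
  addcK z36 4722366456481366147072 0 fun z109 =>
  posK z109 <|
  parK gs 13 fun z15 =>
  parK gs 14 fun z16 =>
  mulK z16 x0 fun z37 =>
  addK z15 z37 fun z38 =>
  parK gs 15 fun z17 =>
  mulK z17 x1 fun z39 =>
  addK z38 z39 fun z40 =>
  rsubK z40 4722366764344621924352 0 fun z110 =>
  posK z110 <|
  normK z36 fun z99 =>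
  sqrK z99 fun z100 =>
  normK z40 fun z101 =>
  sqrK z101 fun z102 =>
  rsubK z102 4722367045819598635008 0 fun z111 =>
  mulK z100 z111 fun z112 =>
  rsubK z112 4722366759946575413248 0 fun z113 =>
  posK z113 <|
  a_B2 gs ps x0 x1 z3 z28 z32 z44 z40 z101

def a_R1 (gs ps : ℕ) (sg v z3 z28 z32 : ℝ) : Prop :=
  letR (parV gs 16) fun z18 =>
  letR (parV gs 17) fun z19 =>
  letR (z19 * sg) fun z41 =>
  letR (z18 + z41) fun z42 =>
  letR (parV gs 18) fun z20 =>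
  letR (z20 * v) fun z43 =>
  letR (z42 + z43) fun z44 =>
  posR z44 <|
  letR (parV gs 10) fun z12 =>
  letR (parV gs 11) fun z13 =>
  letR (z13 * sg) fun z33 =>
  letR (z12 + z33) fun z34 =>
  letR (parV gs 12) fun z14 =>
  letR (z14 * v) fun z35 =>
  letR (z34 + z35) fun z36 =>
  letR (z36 + (-3 / 32 : ℝ)) fun z109 =>
  posR z109 <|
  letR (parV gs 13) fun z15 =>
  letR (parV gs 14) fun z16 =>
  letR (z16 * sg) fun z37 =>
  letR (z15 + z37) fun z38 =>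
  letR (parV gs 15) fun z17 =>
  letR (z17 * v) fun z39 =>
  letR (z38 + z39) fun z40 =>
  letR ((1 : ℝ) - z40) fun z110 =>
  posR z110 <|
  letR z36 fun z99 =>
  letR (z99 ^ 2) fun z100 =>
  letR z40 fun z101 =>
  letR (z101 ^ 2) fun z102 =>
  letR ((2 : ℝ) - z102) fun z111 =>
  letR (z100 * z111) fun z112 =>
  letR ((63 / 64 : ℝ) - z112) fun z113 =>
  posR z113 <|
  a_R2 gs ps sg v z3 z28 z32 z44 z40 z101

theorem a_S1 {ε : Fin 4 → ℝ} (gs : ℕ) (hε : ∀ i, |ε i| ≤ 1) (ps : ℕ) (x0 x1 z3 z28 z32 : AF) (sg v t3 t28 t32 : ℝ)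
    (h0 : Rel ε x0 sg) (h1 : Rel ε x1 v) (g3 : Rel ε z3 t3) (g28 : Rel ε z28 t28) (g32 : Rel ε z32 t32) :
    a_B1 gs ps x0 x1 z3 z28 z32 = true → a_R1 gs ps sg v t3 t28 t32 := by
  delta a_B1 a_R1
  exact parS fun z18 t18 g18 =>
  parS fun z19 t19 g19 =>
  mulS hε g19 h0 fun z41 t41 g41 =>
  addS g18 g41 fun z42 t42 g42 =>
  parS fun z20 t20 g20 =>
  mulS hε g20 h1 fun z43 t43 g43 =>
  addS g42 g43 fun z44 t44 g44 =>
  posS hε g44 <|
  parS fun z12 t12 g12 =>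
  parS fun z13 t13 g13 =>
  mulS hε g13 h0 fun z33 t33 g33 =>
  addS g12 g33 fun z34 t34 g34 =>
  parS fun z14 t14 g14 =>
  mulS hε g14 h1 fun z35 t35 g35 =>
  addS g34 g35 fun z36 t36 g36 =>
  addcS g36 k3 fun z109 t109 g109 =>
  posS hε g109 <|
  parS fun z15 t15 g15 =>
  parS fun z16 t16 g16 =>
  mulS hε g16 h0 fun z37 t37 g37 =>
  addS g15 g37 fun z38 t38 g38 =>
  parS fun z17 t17 g17 =>
  mulS hε g17 h1 fun z39 t39 g39 =>
  addS g38 g39 fun z40 t40 g40 =>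
  rsubS g40 k4 fun z110 t110 g110 =>
  posS hε g110 <|
  normS g36 fun z99 t99 g99 =>
  sqrS hε g99 fun z100 t100 g100 =>
  normS g40 fun z101 t101 g101 =>
  sqrS hε g101 fun z102 t102 g102 =>
  rsubS g102 k5 fun z111 t111 g111 =>
  mulS hε g100 g111 fun z112 t112 g112 =>
  rsubS g112 k6 fun z113 t113 g113 =>
  posS hε g113 <|
  a_S2 gs hε ps x0 x1 z3 z28 z32 z44 z40 z101 sg v t3 t28 t32 t44 t40 t101 h0 h1 g3 g28 g32 g44 g40 g101

def a_B (gs ps : ℕ) (x0 x1 x2 x3 : AF) : Bool :=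
  parK gs 1 fun z3 =>
  posK z3 <|
  rsubK z3 4722366482869645213696 0 fun z105 =>
  posK z105 <|
  parK gs 0 fun z2 =>
  posK z2 <|
  rsubK z2 4722366729160249835520 0 fun z106 =>
  posK z106 <|
  parK gs 2 fun z4 =>
  addcK z4 4722366482594767306752 0 fun z107 =>
  posK z107 <|
  parK gs 3 fun z5 =>
  addcK z5 4722366482594767306752 0 fun z108 =>
  posK z108 <|
  parK gs 4 fun z6 =>
  parK gs 5 fun z7 =>
  mulK z7 x0 fun z25 =>
  addK z6 z25 fun z26 =>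
  parK gs 6 fun z8 =>
  mulK z8 x1 fun z27 =>
  addK z26 z27 fun z28 =>
  posK z28 <|
  parK gs 7 fun z9 =>
  parK gs 8 fun z10 =>
  mulK z10 x0 fun z29 =>
  addK z9 z29 fun z30 =>
  parK gs 9 fun z11 =>
  mulK z11 x1 fun z31 =>
  addK z30 z31 fun z32 =>
  posK z32 <|
  a_B1 gs ps x0 x1 z3 z28 z32

def a_R (gs ps : ℕ) (sg v u2 u3 : ℝ) : Prop :=
  letR (parV gs 1) fun z3 =>
  posR z3 <|
  letR ((0 : ℝ) - z3) fun z105 =>
  posR z105 <|
  letR (parV gs 0) fun z2 =>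
  posR z2 <|
  letR ((7 / 8 : ℝ) - z2) fun z106 =>
  posR z106 <|
  letR (parV gs 2) fun z4 =>
  letR (z4 + (-1 / 1024 : ℝ)) fun z107 =>
  posR z107 <|
  letR (parV gs 3) fun z5 =>
  letR (z5 + (-1 / 1024 : ℝ)) fun z108 =>
  posR z108 <|
  letR (parV gs 4) fun z6 =>
  letR (parV gs 5) fun z7 =>
  letR (z7 * sg) fun z25 =>
  letR (z6 + z25) fun z26 =>
  letR (parV gs 6) fun z8 =>
  letR (z8 * v) fun z27 =>
  letR (z26 + z27) fun z28 =>
  posR z28 <|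
  letR (parV gs 7) fun z9 =>
  letR (parV gs 8) fun z10 =>
  letR (z10 * sg) fun z29 =>
  letR (z9 + z29) fun z30 =>
  letR (parV gs 9) fun z11 =>
  letR (z11 * v) fun z31 =>
  letR (z30 + z31) fun z32 =>
  posR z32 <|
  a_R1 gs ps sg v z3 z28 z32

theorem a_S {ε : Fin 4 → ℝ} (gs : ℕ) (hε : ∀ i, |ε i| ≤ 1) (ps : ℕ) (x0 x1 x2 x3 : AF) (sg v u2 u3 : ℝ)
    (h0 : Rel ε x0 sg) (h1 : Rel ε x1 v) (h2 : Rel ε x2 u2) (h3 : Rel ε x3 u3) :
    a_B gs ps x0 x1 x2 x3 = true → a_R gs ps sg v u2 u3 := by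
  delta a_B a_R
  exact parS fun z3 t3 g3 =>
  posS hε g3 <|
  rsubS g3 k0 fun z105 t105 g105 =>
  posS hε g105 <|
  parS fun z2 t2 g2 =>
  posS hε g2 <|
  rsubS g2 k1 fun z106 t106 g106 =>
  posS hε g106 <|
  parS fun z4 t4 g4 =>
  addcS g4 k2 fun z107 t107 g107 =>
  posS hε g107 <|
  parS fun z5 t5 g5 =>
  addcS g5 k2 fun z108 t108 g108 =>
  posS hε g108 <|
  parS fun z6 t6 g6 =>
  parS fun z7 t7 g7 =>
  mulS hε g7 h0 fun z25 t25 g25 =>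
  addS g6 g25 fun z26 t26 g26 =>
  parS fun z8 t8 g8 =>
  mulS hε g8 h1 fun z27 t27 g27 =>
  addS g26 g27 fun z28 t28 g28 =>
  posS hε g28 <|
  parS fun z9 t9 g9 =>
  parS fun z10 t10 g10 =>
  mulS hε g10 h0 fun z29 t29 g29 =>
  addS g9 g29 fun z30 t30 g30 =>
  parS fun z11 t11 g11 =>
  mulS hε g11 h1 fun z31 t31 g31 =>
  addS g30 g31 fun z32 t32 g32 =>
  posS hε g32 <|
  a_S1 gs hε ps x0 x1 z3 z28 z32 sg v t3 t28 t32 h0 h1 g3 g28 g32

/- obtain ⟨mu0, mu1, ex, b, ga, cb, g2, v2, al, a1, a0, w61, w51, uh, iu, A0, LB, W0, w, W1, c0, c1, c2, c3, c4, c5, h_mu0, c6, h_mu1, c7, h_ex, c8, h_b, c9, h_ga, c10, h_cb, h_g2, c11, h_v2, h_al, h_a1, h_a0, h_w61, h_w51, h_uh, p_iu, h_iu, h_A0, c12, p_30, h_LB, c13, h_W0, h_w, c14, h_W1, c15⟩ := h -/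
def a_Spec (rho l4 ku kw ma0 ma1 ma2 mb0 mb1 mb2 bq0 bq1 bq2 gq0 gq1 gq2 xq0 xq1 xq2 am0 am1 bm0 bm1 sg v : ℝ) : Prop :=
  ∃ mu0 mu1 ex b ga cb g2 v2 al a1 a0 w61 w51 uh iu A0 LB W0 w W1 : ℝ,
    0 ≤ l4 ∧
    0 ≤ ((0 : ℝ) - l4) ∧
    0 ≤ rho ∧
    0 ≤ ((7 / 8 : ℝ) - rho) ∧
    0 ≤ (ku + (-1 / 1024 : ℝ)) ∧
    0 ≤ (kw + (-1 / 1024 : ℝ)) ∧
    mu0 = ((ma0 + (ma1 * sg)) + (ma2 * v)) ∧
    0 ≤ mu0 ∧
    mu1 = ((mb0 + (mb1 * sg)) + (mb2 * v)) ∧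
    0 ≤ mu1 ∧
    ex = ((xq0 + (xq1 * sg)) + (xq2 * v)) ∧
    0 ≤ ex ∧
    b = ((bq0 + (bq1 * sg)) + (bq2 * v)) ∧
    0 ≤ (b + (-3 / 32 : ℝ)) ∧
    ga = ((gq0 + (gq1 * sg)) + (gq2 * v)) ∧
    0 ≤ ((1 : ℝ) - ga) ∧
    cb = (b ^ 2) ∧
    g2 = (ga ^ 2) ∧
    0 ≤ ((63 / 64 : ℝ) - (cb * ((2 : ℝ) - g2))) ∧
    v2 = (v ^ 2) ∧
    al = (sg ^ 2) ∧
    a1 = (al * v2) ∧
    a0 = (((2 : ℝ) * al) - a1) ∧
    w61 = ((9 / 10 : ℝ) * a0) ∧
    w51 = ((9 / 10 : ℝ) * al) ∧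
    uh = ((19 / 10 : ℝ) - w51) ∧
    0 < uh ∧
    iu = (uh⁻¹) ∧
    A0 = ((mu0 * ((2 : ℝ) - v2)) * (((19 / 10 : ℝ) - w61) * iu)) ∧
    0 ≤ (A0 - am0) ∧
    0 < (ga + l4) ∧
    LB = ((((mu1 * (v * (v + l4))) * (((19 / 20 : ℝ) - ((9 / 20 : ℝ) * a1)) * iu)) + ex) * ((ga + l4)⁻¹)) ∧
    0 ≤ (((2 : ℝ) * (ga * LB)) - am1) ∧
    W0 = (mu0 * ((1 : ℝ) - (a0 * (w61 + (1 / 10 : ℝ))))) ∧
    w = ((1 : ℝ) - (al * (w51 + (1 / 10 : ℝ)))) ∧
    0 ≤ (W0 - (bm0 * w)) ∧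
    W1 = (mu1 * ((1 : ℝ) - (a1 * (((9 / 10 : ℝ) * a1) + (1 / 10 : ℝ))))) ∧
    0 ≤ (W1 - (bm1 * w))

theorem a_E {gs ps : ℕ} {sg v u2 u3 : ℝ} (h : a_R gs ps sg v u2 u3) : a_Spec (parV gs 0) (parV gs 1) (parV gs 2) (parV gs 3) (parV gs 4) (parV gs 5) (parV gs 6) (parV gs 7) (parV gs 8) (parV gs 9) (parV gs 10) (parV gs 11) (parV gs 12) (parV gs 13) (parV gs 14) (parV gs 15) (parV gs 16) (parV gs 17) (parV gs 18) (parV gs 19) (parV gs 20) (parV gs 21) (parV gs 22) sg v := by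
  delta a_R at h
  exact letR_in h fun h =>
  posR_ex h fun q1 h =>
  letR_in h fun h =>
  posR_ex h fun q2 h =>
  letR_in h fun h =>
  posR_ex h fun q3 h =>
  letR_in h fun h =>
  posR_ex h fun q4 h =>
  letR_in h fun h =>
  letR_in h fun h =>
  posR_ex h fun q5 h =>
  letR_in h fun h =>
  letR_in h fun h =>
  posR_ex h fun q6 h =>
  letR_in h fun h =>
  letR_in h fun h =>
  letR_in h fun h =>
  letR_in h fun h =>
  letR_in h fun h =>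
  letR_in h fun h =>
  letR_ex h fun mu0 q7 h =>
  posR_ex h fun q8 h =>
  letR_in h fun h =>
  letR_in h fun h =>
  letR_in h fun h =>
  letR_in h fun h =>
  letR_in h fun h =>
  letR_in h fun h =>
  letR_ex h fun mu1 q9 h =>
  posR_ex h fun q10 h =>
  (by delta a_R1 at h; exact
  letR_in h fun h =>
  letR_in h fun h =>
  letR_in h fun h =>
  letR_in h fun h =>
  letR_in h fun h =>
  letR_in h fun h =>
  letR_ex h fun ex q11 h =>
  posR_ex h fun q12 h =>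
  letR_in h fun h =>
  letR_in h fun h =>
  letR_in h fun h =>
  letR_in h fun h =>
  letR_in h fun h =>
  letR_in h fun h =>
  letR_ex h fun b q13 h =>
  letR_in h fun h =>
  posR_ex h fun q14 h =>
  letR_in h fun h =>
  letR_in h fun h =>
  letR_in h fun h =>
  letR_in h fun h =>
  letR_in h fun h =>
  letR_in h fun h =>
  letR_ex h fun ga q15 h =>
  letR_in h fun h =>
  posR_ex h fun q16 h =>
  letR_in h fun h =>
  letR_ex h fun cb q17 h =>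
  letR_in h fun h =>
  letR_ex h fun g2 q18 h =>
  letR_in h fun h =>
  letR_in h fun h =>
  letR_in h fun h =>
  posR_ex h fun q19 h =>
  (by delta a_R2 at h; exact
  letR_in h fun h =>
  letR_ex h fun v2 q20 h =>
  letR_in h fun h =>
  letR_in h fun h =>
  letR_in h fun h =>
  letR_ex h fun al q21 h =>
  letR_in h fun h =>
  letR_ex h fun a1 q22 h =>
  letR_ex h fun a0 q23 h =>
  letR_in h fun h =>
  letR_ex h fun w61 q24 h =>
  letR_in h fun h =>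
  letR_ex h fun w51 q25 h =>
  letR_ex h fun uh q26 h =>
  invR_ex h fun q27 h =>
  letR_ex h fun iu q28 h =>
  letR_in h fun h =>
  letR_in h fun h =>
  letR_in h fun h =>
  letR_ex h fun A0 q29 h =>
  letR_in h fun h =>
  letR_in h fun h =>
  posR_ex h fun q30 h =>
  letR_in h fun h =>
  letR_in h fun h =>
  letR_in h fun h =>
  letR_in h fun h =>
  letR_in h fun h =>
  letR_in h fun h =>
  letR_in h fun h =>
  letR_in h fun h =>
  letR_in h fun h =>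
  letR_in h fun h =>
  letR_in h fun h =>
  letR_in h fun h =>
  letR_in h fun h =>
  letR_in h fun h =>
  invR_ex h fun q31 h =>
  letR_in h fun h =>
  letR_in h fun h =>
  letR_ex h fun LB q32 h =>
  letR_in h fun h =>
  (by delta a_R3 at h; exact
  letR_in h fun h =>
  letR_in h fun h =>
  letR_in h fun h =>
  posR_ex h fun q33 h =>
  letR_in h fun h =>
  letR_in h fun h =>
  letR_in h fun h =>
  letR_in h fun h =>
  letR_ex h fun W0 q34 h =>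
  letR_in h fun h =>
  letR_in h fun h =>
  letR_in h fun h =>
  letR_ex h fun w q35 h =>
  letR_in h fun h =>
  letR_in h fun h =>
  posR_ex h fun q36 h =>
  letR_in h fun h =>
  letR_in h fun h =>
  letR_in h fun h =>
  letR_in h fun h =>
  letR_in h fun h =>
  letR_ex h fun W1 q37 h =>
  letR_in h fun h =>
  letR_in h fun h =>
  letR_in h fun h =>
  posR_ex h fun q38 h =>
  ⟨mu0, mu1, ex, b, ga, cb, g2, v2, al, a1, a0, w61, w51, uh, iu, A0, LB, W0, w, W1, q1, q2, q3, q4, q5, q6, q7, q8, q9, q10, q11, q12, q13, q14, q15, q16, q17, q18, q19, q20, q21, q22, q23, q24, q25, q26, q27, q28, q29, q30, q31, q32, q33, q34, q35, q36, q37, q38⟩)))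

theorem k13 : |2 ^ 48 * (-1 : ℝ) - (((4722366201394668503040 : ℕ) : ℝ) - 2 ^ 72)| ≤ ((0 : ℕ) : ℝ) := by norm_num [abs_le]
def b_B3 (gs ps : ℕ) (x1 z3 z32 z44 z40 z57 z45 z47 z60 z61 z51 z53 : AF) : Bool :=
  normK z32 fun z70 =>
  addK x1 z3 fun z67 =>
  normK z67 fun z68 =>
  mulK x1 z68 fun z69 =>
  mulK z70 z69 fun z71 =>
  normK z71 fun z72 =>
  mulK (cst 4722366609533384733491 1) z47 fun z74 =>
  rsubK z74 4722366750270873088819 1 fun z75 =>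
  mulK z75 z53 fun z76 =>
  normK z76 fun z77 =>
  mulK z72 z77 fun z78 =>
  addK z78 z44 fun z79 =>
  normK z79 fun z82 =>
  addK z40 z3 fun z80 =>
  invK z80 fun z81 =>
  mulK z82 z81 fun z83 =>
  normK z83 fun z84 =>
  posK z84 <|
  addcK z61 4722366511017142884761 1 fun z88 =>
  mulK z60 z88 fun z89 =>
  rsubK z89 4722366764344621924352 0 fun z90 =>
  mulK z57 z90 fun z91 =>
  normK z91 fun z92 =>
  parK gs 21 fun z23 =>
  addcK z51 4722366511017142884761 1 fun z85 =>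
  mulK z45 z85 fun z86 =>
  rsubK z86 4722366764344621924352 0 fun z87 =>
  mulK z23 z87 fun z121 =>
  subK z92 z121 fun z122 =>
  posK z122 <|
  mulK (cst 4722366736197124253286 1) z47 fun z93 =>
  addcK z93 4722366511017142884761 1 fun z94 =>
  mulK z47 z94 fun z95 =>
  rsubK z95 4722366764344621924352 0 fun z96 =>
  mulK z70 z96 fun z97 =>
  normK z97 fun z98 =>
  parK gs 22 fun z24 =>
  mulK z24 z87 fun z123 =>
  subK z98 z123 fun z124 =>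
  posK z124 <|
  true

def b_R3 (gs ps : ℕ) (v z3 z32 z44 z40 z57 z45 z47 z60 z61 z51 z53 : ℝ) : Prop :=
  letR z32 fun z70 =>
  letR (v + z3) fun z67 =>
  letR z67 fun z68 =>
  letR (v * z68) fun z69 =>
  letR (z70 * z69) fun z71 =>
  letR z71 fun z72 =>
  letR ((9 / 20 : ℝ) * z47) fun z74 =>
  letR ((19 / 20 : ℝ) - z74) fun z75 =>
  letR (z75 * z53) fun z76 =>
  letR z76 fun z77 =>
  letR (z72 * z77) fun z78 =>
  letR (z78 + z44) fun z79 =>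
  letR z79 fun z82 =>
  letR (z40 + z3) fun z80 =>
  invR z80 fun z81 =>
  letR (z82 * z81) fun z83 =>
  letR z83 fun z84 =>
  posR z84 <|
  letR (z61 + (1 / 10 : ℝ)) fun z88 =>
  letR (z60 * z88) fun z89 =>
  letR ((1 : ℝ) - z89) fun z90 =>
  letR (z57 * z90) fun z91 =>
  letR z91 fun z92 =>
  letR (parV gs 21) fun z23 =>
  letR (z51 + (1 / 10 : ℝ)) fun z85 =>
  letR (z45 * z85) fun z86 =>
  letR ((1 : ℝ) - z86) fun z87 =>
  letR (z23 * z87) fun z121 =>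
  letR (z92 - z121) fun z122 =>
  posR z122 <|
  letR ((9 / 10 : ℝ) * z47) fun z93 =>
  letR (z93 + (1 / 10 : ℝ)) fun z94 =>
  letR (z47 * z94) fun z95 =>
  letR ((1 : ℝ) - z95) fun z96 =>
  letR (z70 * z96) fun z97 =>
  letR z97 fun z98 =>
  letR (parV gs 22) fun z24 =>
  letR (z24 * z87) fun z123 =>
  letR (z98 - z123) fun z124 =>
  posR z124 <|
  True

theorem b_S3 {ε : Fin 4 → ℝ} (gs : ℕ) (hε : ∀ i, |ε i| ≤ 1) (ps : ℕ) (x1 z3 z32 z44 z40 z57 z45 z47 z60 z61 z51 z53 : AF) (v t3 t32 t44 t40 t57 t45 t47 t60 t61 t51 t53 : ℝ)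
    (h1 : Rel ε x1 v) (g3 : Rel ε z3 t3) (g32 : Rel ε z32 t32) (g44 : Rel ε z44 t44) (g40 : Rel ε z40 t40) (g57 : Rel ε z57 t57) (g45 : Rel ε z45 t45) (g47 : Rel ε z47 t47) (g60 : Rel ε z60 t60) (g61 : Rel ε z61 t61) (g51 : Rel ε z51 t51) (g53 : Rel ε z53 t53) :
    b_B3 gs ps x1 z3 z32 z44 z40 z57 z45 z47 z60 z61 z51 z53 = true → b_R3 gs ps v t3 t32 t44 t40 t57 t45 t47 t60 t61 t51 t53 := by
  delta b_B3 b_R3
  exact normS g32 fun z70 t70 g70 =>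
  addS h1 g3 fun z67 t67 g67 =>
  normS g67 fun z68 t68 g68 =>
  mulS hε h1 g68 fun z69 t69 g69 =>
  mulS hε g70 g69 fun z71 t71 g71 =>
  normS g71 fun z72 t72 g72 =>
  mulS hε (cst_rel k10) g47 fun z74 t74 g74 =>
  rsubS g74 k11 fun z75 t75 g75 =>
  mulS hε g75 g53 fun z76 t76 g76 =>
  normS g76 fun z77 t77 g77 =>
  mulS hε g72 g77 fun z78 t78 g78 =>
  addS g78 g44 fun z79 t79 g79 =>
  normS g79 fun z82 t82 g82 =>
  addS g40 g3 fun z80 t80 g80 =>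
  invS hε g80 fun z81 t81 g81 =>
  mulS hε g82 g81 fun z83 t83 g83 =>
  normS g83 fun z84 t84 g84 =>
  posS hε g84 <|
  addcS g61 k12 fun z88 t88 g88 =>
  mulS hε g60 g88 fun z89 t89 g89 =>
  rsubS g89 k4 fun z90 t90 g90 =>
  mulS hε g57 g90 fun z91 t91 g91 =>
  normS g91 fun z92 t92 g92 =>
  parS fun z23 t23 g23 =>
  addcS g51 k12 fun z85 t85 g85 =>
  mulS hε g45 g85 fun z86 t86 g86 =>
  rsubS g86 k4 fun z87 t87 g87 =>
  mulS hε g23 g87 fun z121 t121 g121 =>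
  subS g92 g121 fun z122 t122 g122 =>
  posS hε g122 <|
  mulS hε (cst_rel k8) g47 fun z93 t93 g93 =>
  addcS g93 k12 fun z94 t94 g94 =>
  mulS hε g47 g94 fun z95 t95 g95 =>
  rsubS g95 k4 fun z96 t96 g96 =>
  mulS hε g70 g96 fun z97 t97 g97 =>
  normS g97 fun z98 t98 g98 =>
  parS fun z24 t24 g24 =>
  mulS hε g24 g87 fun z123 t123 g123 =>
  subS g98 g123 fun z124 t124 g124 =>
  posS hε g124 <|
  fun _ => trivial

def b_B2 (gs ps : ℕ) (x0 x1 z3 z28 z32 z44 z36 z40 : AF) : Bool :=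
  rsubK z40 4722366764344621924352 0 fun z116 =>
  posK z116 <|
  normK z36 fun z99 =>
  sqrK z99 fun z100 =>
  normK z40 fun z101 =>
  sqrK z101 fun z102 =>
  rsubK z102 4722367045819598635008 0 fun z117 =>
  mulK z100 z117 fun z118 =>
  rsubK z118 4722366759946575413248 0 fun z119 =>
  posK z119 <|
  normK z28 fun z57 =>
  sqrK x1 fun z46 =>
  rsubK z46 4722367045819598635008 0 fun z56 =>
  mulK z57 z56 fun z58 =>
  normK z58 fun z59 =>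
  sqrK x0 fun z45 =>
  smulK z45 4722367045819598635008 fun z48 =>
  mulK z45 z46 fun z47 =>
  subK z48 z47 fun z49 =>
  normK z49 fun z60 =>
  mulK (cst 4722366736197124253286 1) z60 fun z61 =>
  rsubK z61 4722367017672100963942 1 fun z62 =>
  mulK (cst 4722366736197124253286 1) z45 fun z51 =>
  rsubK z51 4722367017672100963942 1 fun z52 =>
  invK z52 fun z53 =>
  mulK z62 z53 fun z63 =>
  normK z63 fun z64 =>
  mulK z59 z64 fun z65 =>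
  normK z65 fun z66 =>
  parK gs 19 fun z21 =>
  subK z66 z21 fun z120 =>
  posK z120 <|
  b_B3 gs ps x1 z3 z32 z44 z40 z57 z45 z47 z60 z61 z51 z53

def b_R2 (gs ps : ℕ) (sg v z3 z28 z32 z44 z36 z40 : ℝ) : Prop :=
  letR ((1 : ℝ) - z40) fun z116 =>
  posR z116 <|
  letR z36 fun z99 =>
  letR (z99 ^ 2) fun z100 =>
  letR z40 fun z101 =>
  letR (z101 ^ 2) fun z102 =>
  letR ((2 : ℝ) - z102) fun z117 =>
  letR (z100 * z117) fun z118 =>
  letR ((63 / 64 : ℝ) - z118) fun z119 =>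
  posR z119 <|
  letR z28 fun z57 =>
  letR (v ^ 2) fun z46 =>
  letR ((2 : ℝ) - z46) fun z56 =>
  letR (z57 * z56) fun z58 =>
  letR z58 fun z59 =>
  letR (sg ^ 2) fun z45 =>
  letR ((2 : ℝ) * z45) fun z48 =>
  letR (z45 * z46) fun z47 =>
  letR (z48 - z47) fun z49 =>
  letR z49 fun z60 =>
  letR ((9 / 10 : ℝ) * z60) fun z61 =>
  letR ((19 / 10 : ℝ) - z61) fun z62 =>
  letR ((9 / 10 : ℝ) * z45) fun z51 =>
  letR ((19 / 10 : ℝ) - z51) fun z52 =>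
  invR z52 fun z53 =>
  letR (z62 * z53) fun z63 =>
  letR z63 fun z64 =>
  letR (z59 * z64) fun z65 =>
  letR z65 fun z66 =>
  letR (parV gs 19) fun z21 =>
  letR (z66 - z21) fun z120 =>
  posR z120 <|
  b_R3 gs ps v z3 z32 z44 z40 z57 z45 z47 z60 z61 z51 z53

theorem b_S2 {ε : Fin 4 → ℝ} (gs : ℕ) (hε : ∀ i, |ε i| ≤ 1) (ps : ℕ) (x0 x1 z3 z28 z32 z44 z36 z40 : AF) (sg v t3 t28 t32 t44 t36 t40 : ℝ)
    (h0 : Rel ε x0 sg) (h1 : Rel ε x1 v) (g3 : Rel ε z3 t3) (g28 : Rel ε z28 t28) (g32 : Rel ε z32 t32) (g44 : Rel ε z44 t44) (g36 : Rel ε z36 t36) (g40 : Rel ε z40 t40) :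
    b_B2 gs ps x0 x1 z3 z28 z32 z44 z36 z40 = true → b_R2 gs ps sg v t3 t28 t32 t44 t36 t40 := by
  delta b_B2 b_R2
  exact rsubS g40 k4 fun z116 t116 g116 =>
  posS hε g116 <|
  normS g36 fun z99 t99 g99 =>
  sqrS hε g99 fun z100 t100 g100 =>
  normS g40 fun z101 t101 g101 =>
  sqrS hε g101 fun z102 t102 g102 =>
  rsubS g102 k5 fun z117 t117 g117 =>
  mulS hε g100 g117 fun z118 t118 g118 =>
  rsubS g118 k6 fun z119 t119 g119 =>
  posS hε g119 <|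
  normS g28 fun z57 t57 g57 =>
  sqrS hε h1 fun z46 t46 g46 =>
  rsubS g46 k5 fun z56 t56 g56 =>
  mulS hε g57 g56 fun z58 t58 g58 =>
  normS g58 fun z59 t59 g59 =>
  sqrS hε h0 fun z45 t45 g45 =>
  smulS hε g45 k7 fun z48 t48 g48 =>
  mulS hε g45 g46 fun z47 t47 g47 =>
  subS g48 g47 fun z49 t49 g49 =>
  normS g49 fun z60 t60 g60 =>
  mulS hε (cst_rel k8) g60 fun z61 t61 g61 =>
  rsubS g61 k9 fun z62 t62 g62 =>
  mulS hε (cst_rel k8) g45 fun z51 t51 g51 =>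
  rsubS g51 k9 fun z52 t52 g52 =>
  invS hε g52 fun z53 t53 g53 =>
  mulS hε g62 g53 fun z63 t63 g63 =>
  normS g63 fun z64 t64 g64 =>
  mulS hε g59 g64 fun z65 t65 g65 =>
  normS g65 fun z66 t66 g66 =>
  parS fun z21 t21 g21 =>
  subS g66 g21 fun z120 t120 g120 =>
  posS hε g120 <|
  b_S3 gs hε ps x1 z3 z32 z44 z40 z57 z45 z47 z60 z61 z51 z53 v t3 t32 t44 t40 t57 t45 t47 t60 t61 t51 t53 h1 g3 g32 g44 g40 g57 g45 g47 g60 g61 g51 g53

def b_B1 (gs ps : ℕ) (x0 x1 z3 z15 z16 z17 : AF) : Bool :=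
  parK gs 4 fun z6 =>
  parK gs 5 fun z7 =>
  mulK z7 x0 fun z25 =>
  addK z6 z25 fun z26 =>
  parK gs 6 fun z8 =>
  mulK z8 x1 fun z27 =>
  addK z26 z27 fun z28 =>
  posK z28 <|
  parK gs 7 fun z9 =>
  parK gs 8 fun z10 =>
  mulK z10 x0 fun z29 =>
  addK z9 z29 fun z30 =>
  parK gs 9 fun z11 =>
  mulK z11 x1 fun z31 =>
  addK z30 z31 fun z32 =>
  posK z32 <|
  parK gs 16 fun z18 =>
  parK gs 17 fun z19 =>
  mulK z19 x0 fun z41 =>
  addK z18 z41 fun z42 =>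
  parK gs 18 fun z20 =>
  mulK z20 x1 fun z43 =>
  addK z42 z43 fun z44 =>
  posK z44 <|
  parK gs 10 fun z12 =>
  parK gs 11 fun z13 =>
  mulK z13 x0 fun z33 =>
  addK z12 z33 fun z34 =>
  parK gs 12 fun z14 =>
  mulK z14 x1 fun z35 =>
  addK z34 z35 fun z36 =>
  addcK z36 4722366456481366147072 0 fun z115 =>
  posK z115 <|
  mulK z16 x0 fun z37 =>
  addK z15 z37 fun z38 =>
  mulK z17 x1 fun z39 =>
  addK z38 z39 fun z40 =>
  b_B2 gs ps x0 x1 z3 z28 z32 z44 z36 z40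

def b_R1 (gs ps : ℕ) (sg v z3 z15 z16 z17 : ℝ) : Prop :=
  letR (parV gs 4) fun z6 =>
  letR (parV gs 5) fun z7 =>
  letR (z7 * sg) fun z25 =>
  letR (z6 + z25) fun z26 =>
  letR (parV gs 6) fun z8 =>
  letR (z8 * v) fun z27 =>
  letR (z26 + z27) fun z28 =>
  posR z28 <|
  letR (parV gs 7) fun z9 =>
  letR (parV gs 8) fun z10 =>
  letR (z10 * sg) fun z29 =>
  letR (z9 + z29) fun z30 =>
  letR (parV gs 9) fun z11 =>
  letR (z11 * v) fun z31 =>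
  letR (z30 + z31) fun z32 =>
  posR z32 <|
  letR (parV gs 16) fun z18 =>
  letR (parV gs 17) fun z19 =>
  letR (z19 * sg) fun z41 =>
  letR (z18 + z41) fun z42 =>
  letR (parV gs 18) fun z20 =>
  letR (z20 * v) fun z43 =>
  letR (z42 + z43) fun z44 =>
  posR z44 <|
  letR (parV gs 10) fun z12 =>
  letR (parV gs 11) fun z13 =>
  letR (z13 * sg) fun z33 =>
  letR (z12 + z33) fun z34 =>
  letR (parV gs 12) fun z14 =>
  letR (z14 * v) fun z35 =>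
  letR (z34 + z35) fun z36 =>
  letR (z36 + (-3 / 32 : ℝ)) fun z115 =>
  posR z115 <|
  letR (z16 * sg) fun z37 =>
  letR (z15 + z37) fun z38 =>
  letR (z17 * v) fun z39 =>
  letR (z38 + z39) fun z40 =>
  b_R2 gs ps sg v z3 z28 z32 z44 z36 z40

theorem b_S1 {ε : Fin 4 → ℝ} (gs : ℕ) (hε : ∀ i, |ε i| ≤ 1) (ps : ℕ) (x0 x1 z3 z15 z16 z17 : AF) (sg v t3 t15 t16 t17 : ℝ)
    (h0 : Rel ε x0 sg) (h1 : Rel ε x1 v) (g3 : Rel ε z3 t3) (g15 : Rel ε z15 t15) (g16 : Rel ε z16 t16) (g17 : Rel ε z17 t17) :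
    b_B1 gs ps x0 x1 z3 z15 z16 z17 = true → b_R1 gs ps sg v t3 t15 t16 t17 := by
  delta b_B1 b_R1
  exact parS fun z6 t6 g6 =>
  parS fun z7 t7 g7 =>
  mulS hε g7 h0 fun z25 t25 g25 =>
  addS g6 g25 fun z26 t26 g26 =>
  parS fun z8 t8 g8 =>
  mulS hε g8 h1 fun z27 t27 g27 =>
  addS g26 g27 fun z28 t28 g28 =>
  posS hε g28 <|
  parS fun z9 t9 g9 =>
  parS fun z10 t10 g10 =>
  mulS hε g10 h0 fun z29 t29 g29 =>
  addS g9 g29 fun z30 t30 g30 =>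
  parS fun z11 t11 g11 =>
  mulS hε g11 h1 fun z31 t31 g31 =>
  addS g30 g31 fun z32 t32 g32 =>
  posS hε g32 <|
  parS fun z18 t18 g18 =>
  parS fun z19 t19 g19 =>
  mulS hε g19 h0 fun z41 t41 g41 =>
  addS g18 g41 fun z42 t42 g42 =>
  parS fun z20 t20 g20 =>
  mulS hε g20 h1 fun z43 t43 g43 =>
  addS g42 g43 fun z44 t44 g44 =>
  posS hε g44 <|
  parS fun z12 t12 g12 =>
  parS fun z13 t13 g13 =>
  mulS hε g13 h0 fun z33 t33 g33 =>
  addS g12 g33 fun z34 t34 g34 =>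
  parS fun z14 t14 g14 =>
  mulS hε g14 h1 fun z35 t35 g35 =>
  addS g34 g35 fun z36 t36 g36 =>
  addcS g36 k3 fun z115 t115 g115 =>
  posS hε g115 <|
  mulS hε g16 h0 fun z37 t37 g37 =>
  addS g15 g37 fun z38 t38 g38 =>
  mulS hε g17 h1 fun z39 t39 g39 =>
  addS g38 g39 fun z40 t40 g40 =>
  b_S2 gs hε ps x0 x1 z3 z28 z32 z44 z36 z40 sg v t3 t28 t32 t44 t36 t40 h0 h1 g3 g28 g32 g44 g36 g40

def b_B (gs ps : ℕ) (x0 x1 x2 x3 : AF) : Bool :=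
  parK gs 1 fun z3 =>
  addcK z3 4722366201394668503040 0 fun z105 =>
  posK z105 <|
  rsubK z3 4722366764344621924352 0 fun z106 =>
  posK z106 <|
  parK gs 13 fun z15 =>
  posK z15 <|
  rsubK z15 4722366482869645213696 0 fun z107 =>
  posK z107 <|
  parK gs 14 fun z16 =>
  posK z16 <|
  rsubK z16 4722366482869645213696 0 fun z108 =>
  posK z108 <|
  parK gs 15 fun z17 =>
  addcK z17 4722366201394668503040 0 fun z109 =>
  posK z109 <|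
  rsubK z17 4722366764344621924352 0 fun z110 =>
  posK z110 <|
  parK gs 20 fun z22 =>
  posK z22 <|
  rsubK z22 4722366482869645213696 0 fun z111 =>
  posK z111 <|
  parK gs 0 fun z2 =>
  posK z2 <|
  rsubK z2 4722366729160249835520 0 fun z112 =>
  posK z112 <|
  parK gs 2 fun z4 =>
  addcK z4 4722366482594767306752 0 fun z113 =>
  posK z113 <|
  parK gs 3 fun z5 =>
  addcK z5 4722366482594767306752 0 fun z114 =>
  posK z114 <|
  b_B1 gs ps x0 x1 z3 z15 z16 z17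

def b_R (gs ps : ℕ) (sg v u2 u3 : ℝ) : Prop :=
  letR (parV gs 1) fun z3 =>
  letR (z3 + (-1 : ℝ)) fun z105 =>
  posR z105 <|
  letR ((1 : ℝ) - z3) fun z106 =>
  posR z106 <|
  letR (parV gs 13) fun z15 =>
  posR z15 <|
  letR ((0 : ℝ) - z15) fun z107 =>
  posR z107 <|
  letR (parV gs 14) fun z16 =>
  posR z16 <|
  letR ((0 : ℝ) - z16) fun z108 =>
  posR z108 <|
  letR (parV gs 15) fun z17 =>
  letR (z17 + (-1 : ℝ)) fun z109 =>
  posR z109 <|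
  letR ((1 : ℝ) - z17) fun z110 =>
  posR z110 <|
  letR (parV gs 20) fun z22 =>
  posR z22 <|
  letR ((0 : ℝ) - z22) fun z111 =>
  posR z111 <|
  letR (parV gs 0) fun z2 =>
  posR z2 <|
  letR ((7 / 8 : ℝ) - z2) fun z112 =>
  posR z112 <|
  letR (parV gs 2) fun z4 =>
  letR (z4 + (-1 / 1024 : ℝ)) fun z113 =>
  posR z113 <|
  letR (parV gs 3) fun z5 =>
  letR (z5 + (-1 / 1024 : ℝ)) fun z114 =>
  posR z114 <|
  b_R1 gs ps sg v z3 z15 z16 z17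

theorem b_S {ε : Fin 4 → ℝ} (gs : ℕ) (hε : ∀ i, |ε i| ≤ 1) (ps : ℕ) (x0 x1 x2 x3 : AF) (sg v u2 u3 : ℝ)
    (h0 : Rel ε x0 sg) (h1 : Rel ε x1 v) (h2 : Rel ε x2 u2) (h3 : Rel ε x3 u3) :
    b_B gs ps x0 x1 x2 x3 = true → b_R gs ps sg v u2 u3 := by
  delta b_B b_R
  exact parS fun z3 t3 g3 =>
  addcS g3 k13 fun z105 t105 g105 =>
  posS hε g105 <|
  rsubS g3 k4 fun z106 t106 g106 =>
  posS hε g106 <|
  parS fun z15 t15 g15 =>
  posS hε g15 <|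
  rsubS g15 k0 fun z107 t107 g107 =>
  posS hε g107 <|
  parS fun z16 t16 g16 =>
  posS hε g16 <|
  rsubS g16 k0 fun z108 t108 g108 =>
  posS hε g108 <|
  parS fun z17 t17 g17 =>
  addcS g17 k13 fun z109 t109 g109 =>
  posS hε g109 <|
  rsubS g17 k4 fun z110 t110 g110 =>
  posS hε g110 <|
  parS fun z22 t22 g22 =>
  posS hε g22 <|
  rsubS g22 k0 fun z111 t111 g111 =>
  posS hε g111 <|
  parS fun z2 t2 g2 =>
  posS hε g2 <|
  rsubS g2 k1 fun z112 t112 g112 =>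
  posS hε g112 <|
  parS fun z4 t4 g4 =>
  addcS g4 k2 fun z113 t113 g113 =>
  posS hε g113 <|
  parS fun z5 t5 g5 =>
  addcS g5 k2 fun z114 t114 g114 =>
  posS hε g114 <|
  b_S1 gs hε ps x0 x1 z3 z15 z16 z17 sg v t3 t15 t16 t17 h0 h1 g3 g15 g16 g17

/- obtain ⟨mu0, mu1, ex, b, ga, cb, g2, v2, al, a1, a0, w61, w51, uh, iu, A0, LB, W0, w, W1, c0, c1, c2, c3, c4, c5, c6, c7, c8, c9, c10, c11, c12, c13, h_mu0, c14, h_mu1, c15, h_ex, c16, h_b, c17, h_ga, c18, h_cb, h_g2, c19, h_v2, h_al, h_a1, h_a0, h_w61, h_w51, h_uh, p_iu, h_iu, h_A0, c20, p_38, h_LB, c21, h_W0, h_w, c22, h_W1, c23⟩ := h -/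
def b_Spec (rho l4 ku kw ma0 ma1 ma2 mb0 mb1 mb2 bq0 bq1 bq2 gq0 gq1 gq2 xq0 xq1 xq2 am0 am1 bm0 bm1 sg v : ℝ) : Prop :=
  ∃ mu0 mu1 ex b ga cb g2 v2 al a1 a0 w61 w51 uh iu A0 LB W0 w W1 : ℝ,
    0 ≤ (l4 + (-1 : ℝ)) ∧
    0 ≤ ((1 : ℝ) - l4) ∧
    0 ≤ gq0 ∧
    0 ≤ ((0 : ℝ) - gq0) ∧
    0 ≤ gq1 ∧
    0 ≤ ((0 : ℝ) - gq1) ∧
    0 ≤ (gq2 + (-1 : ℝ)) ∧
    0 ≤ ((1 : ℝ) - gq2) ∧
    0 ≤ am1 ∧
    0 ≤ ((0 : ℝ) - am1) ∧
    0 ≤ rho ∧
    0 ≤ ((7 / 8 : ℝ) - rho) ∧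
    0 ≤ (ku + (-1 / 1024 : ℝ)) ∧
    0 ≤ (kw + (-1 / 1024 : ℝ)) ∧
    mu0 = ((ma0 + (ma1 * sg)) + (ma2 * v)) ∧
    0 ≤ mu0 ∧
    mu1 = ((mb0 + (mb1 * sg)) + (mb2 * v)) ∧
    0 ≤ mu1 ∧
    ex = ((xq0 + (xq1 * sg)) + (xq2 * v)) ∧
    0 ≤ ex ∧
    b = ((bq0 + (bq1 * sg)) + (bq2 * v)) ∧
    0 ≤ (b + (-3 / 32 : ℝ)) ∧
    ga = ((gq0 + (gq1 * sg)) + (gq2 * v)) ∧
    0 ≤ ((1 : ℝ) - ga) ∧
    cb = (b ^ 2) ∧
    g2 = (ga ^ 2) ∧
    0 ≤ ((63 / 64 : ℝ) - (cb * ((2 : ℝ) - g2))) ∧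
    v2 = (v ^ 2) ∧
    al = (sg ^ 2) ∧
    a1 = (al * v2) ∧
    a0 = (((2 : ℝ) * al) - a1) ∧
    w61 = ((9 / 10 : ℝ) * a0) ∧
    w51 = ((9 / 10 : ℝ) * al) ∧
    uh = ((19 / 10 : ℝ) - w51) ∧
    0 < uh ∧
    iu = (uh⁻¹) ∧
    A0 = ((mu0 * ((2 : ℝ) - v2)) * (((19 / 10 : ℝ) - w61) * iu)) ∧
    0 ≤ (A0 - am0) ∧
    0 < (ga + l4) ∧
    LB = ((((mu1 * (v * (v + l4))) * (((19 / 20 : ℝ) - ((9 / 20 : ℝ) * a1)) * iu)) + ex) * ((ga + l4)⁻¹)) ∧
    0 ≤ LB ∧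
    W0 = (mu0 * ((1 : ℝ) - (a0 * (w61 + (1 / 10 : ℝ))))) ∧
    w = ((1 : ℝ) - (al * (w51 + (1 / 10 : ℝ)))) ∧
    0 ≤ (W0 - (bm0 * w)) ∧
    W1 = (mu1 * ((1 : ℝ) - (a1 * (((9 / 10 : ℝ) * a1) + (1 / 10 : ℝ))))) ∧
    0 ≤ (W1 - (bm1 * w))

theorem b_E {gs ps : ℕ} {sg v u2 u3 : ℝ} (h : b_R gs ps sg v u2 u3) : b_Spec (parV gs 0) (parV gs 1) (parV gs 2) (parV gs 3) (parV gs 4) (parV gs 5) (parV gs 6) (parV gs 7) (parV gs 8) (parV gs 9) (parV gs 10) (parV gs 11) (parV gs 12) (parV gs 13) (parV gs 14) (parV gs 15) (parV gs 16) (parV gs 17) (parV gs 18) (parV gs 19) (parV gs 20) (parV gs 21) (parV gs 22) sg v := by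
  delta b_R at h
  exact letR_in h fun h =>
  letR_in h fun h =>
  posR_ex h fun q1 h =>
  letR_in h fun h =>
  posR_ex h fun q2 h =>
  letR_in h fun h =>
  posR_ex h fun q3 h =>
  letR_in h fun h =>
  posR_ex h fun q4 h =>
  letR_in h fun h =>
  posR_ex h fun q5 h =>
  letR_in h fun h =>
  posR_ex h fun q6 h =>
  letR_in h fun h =>
  letR_in h fun h =>
  posR_ex h fun q7 h =>
  letR_in h fun h =>
  posR_ex h fun q8 h =>
  letR_in h fun h =>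
  posR_ex h fun q9 h =>
  letR_in h fun h =>
  posR_ex h fun q10 h =>
  letR_in h fun h =>
  posR_ex h fun q11 h =>
  letR_in h fun h =>
  posR_ex h fun q12 h =>
  letR_in h fun h =>
  letR_in h fun h =>
  posR_ex h fun q13 h =>
  letR_in h fun h =>
  letR_in h fun h =>
  posR_ex h fun q14 h =>
  (by delta b_R1 at h; exact
  letR_in h fun h =>
  letR_in h fun h =>
  letR_in h fun h =>
  letR_in h fun h =>
  letR_in h fun h =>
  letR_in h fun h =>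
  letR_ex h fun mu0 q15 h =>
  posR_ex h fun q16 h =>
  letR_in h fun h =>
  letR_in h fun h =>
  letR_in h fun h =>
  letR_in h fun h =>
  letR_in h fun h =>
  letR_in h fun h =>
  letR_ex h fun mu1 q17 h =>
  posR_ex h fun q18 h =>
  letR_in h fun h =>
  letR_in h fun h =>
  letR_in h fun h =>
  letR_in h fun h =>
  letR_in h fun h =>
  letR_in h fun h =>
  letR_ex h fun ex q19 h =>
  posR_ex h fun q20 h =>
  letR_in h fun h =>
  letR_in h fun h =>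
  letR_in h fun h =>
  letR_in h fun h =>
  letR_in h fun h =>
  letR_in h fun h =>
  letR_ex h fun b q21 h =>
  letR_in h fun h =>
  posR_ex h fun q22 h =>
  letR_in h fun h =>
  letR_in h fun h =>
  letR_in h fun h =>
  letR_ex h fun ga q23 h =>
  (by delta b_R2 at h; exact
  letR_in h fun h =>
  posR_ex h fun q24 h =>
  letR_in h fun h =>
  letR_ex h fun cb q25 h =>
  letR_in h fun h =>
  letR_ex h fun g2 q26 h =>
  letR_in h fun h =>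
  letR_in h fun h =>
  letR_in h fun h =>
  posR_ex h fun q27 h =>
  letR_in h fun h =>
  letR_ex h fun v2 q28 h =>
  letR_in h fun h =>
  letR_in h fun h =>
  letR_in h fun h =>
  letR_ex h fun al q29 h =>
  letR_in h fun h =>
  letR_ex h fun a1 q30 h =>
  letR_ex h fun a0 q31 h =>
  letR_in h fun h =>
  letR_ex h fun w61 q32 h =>
  letR_in h fun h =>
  letR_ex h fun w51 q33 h =>
  letR_ex h fun uh q34 h =>
  invR_ex h fun q35 h =>
  letR_ex h fun iu q36 h =>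
  letR_in h fun h =>
  letR_in h fun h =>
  letR_in h fun h =>
  letR_ex h fun A0 q37 h =>
  letR_in h fun h =>
  letR_in h fun h =>
  posR_ex h fun q38 h =>
  (by delta b_R3 at h; exact
  letR_in h fun h =>
  letR_in h fun h =>
  letR_in h fun h =>
  letR_in h fun h =>
  letR_in h fun h =>
  letR_in h fun h =>
  letR_in h fun h =>
  letR_in h fun h =>
  letR_in h fun h =>
  letR_in h fun h =>
  letR_in h fun h =>
  letR_in h fun h =>
  letR_in h fun h =>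
  letR_in h fun h =>
  invR_ex h fun q39 h =>
  letR_in h fun h =>
  letR_in h fun h =>
  letR_ex h fun LB q40 h =>
  posR_ex h fun q41 h =>
  letR_in h fun h =>
  letR_in h fun h =>
  letR_in h fun h =>
  letR_in h fun h =>
  letR_ex h fun W0 q42 h =>
  letR_in h fun h =>
  letR_in h fun h =>
  letR_in h fun h =>
  letR_ex h fun w q43 h =>
  letR_in h fun h =>
  letR_in h fun h =>
  posR_ex h fun q44 h =>
  letR_in h fun h =>
  letR_in h fun h =>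
  letR_in h fun h =>
  letR_in h fun h =>
  letR_in h fun h =>
  letR_ex h fun W1 q45 h =>
  letR_in h fun h =>
  letR_in h fun h =>
  letR_in h fun h =>
  posR_ex h fun q46 h =>
  ⟨mu0, mu1, ex, b, ga, cb, g2, v2, al, a1, a0, w61, w51, uh, iu, A0, LB, W0, w, W1, q1, q2, q3, q4, q5, q6, q7, q8, q9, q10, q11, q12, q13, q14, q15, q16, q17, q18, q19, q20, q21, q22, q23, q24, q25, q26, q27, q28, q29, q30, q31, q32, q33, q34, q35, q36, q37, q38, q39, q40, q41, q42, q43, q44, q45, q46⟩)))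

theorem k14 : |2 ^ 48 * (-257 / 1024 : ℝ) - (((4722366412226023129088 : ℕ) : ℝ) - 2 ^ 72)| ≤ ((0 : ℕ) : ℝ) := by norm_num [abs_le]
def d_B (gs ps : ℕ) (x0 x1 x2 x3 : AF) : Bool :=
  sqrK x0 fun z25 =>
  sqrK x1 fun z26 =>
  rsubK z26 4722366764344621924352 0 fun z27 =>
  mulK z25 z27 fun z28 =>
  addcK z28 4722366412226023129088 0 fun z29 =>
  posK z29 <|
  true

def d_R (gs ps : ℕ) (sg v u2 u3 : ℝ) : Prop :=
  letR (sg ^ 2) fun z25 =>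
  letR (v ^ 2) fun z26 =>
  letR ((1 : ℝ) - z26) fun z27 =>
  letR (z25 * z27) fun z28 =>
  letR (z28 + (-257 / 1024 : ℝ)) fun z29 =>
  posR z29 <|
  True

theorem d_S {ε : Fin 4 → ℝ} (gs : ℕ) (hε : ∀ i, |ε i| ≤ 1) (ps : ℕ) (x0 x1 x2 x3 : AF) (sg v u2 u3 : ℝ)
    (h0 : Rel ε x0 sg) (h1 : Rel ε x1 v) (h2 : Rel ε x2 u2) (h3 : Rel ε x3 u3) :
    d_B gs ps x0 x1 x2 x3 = true → d_R gs ps sg v u2 u3 := by
  delta d_B d_R
  exact sqrS hε h0 fun z25 t25 g25 =>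
  sqrS hε h1 fun z26 t26 g26 =>
  rsubS g26 k4 fun z27 t27 g27 =>
  mulS hε g25 g27 fun z28 t28 g28 =>
  addcS g28 k14 fun z29 t29 g29 =>
  posS hε g29 <|
  fun _ => trivial

/- obtain ⟨c0⟩ := h -/
def d_Spec (rho l4 ku kw ma0 ma1 ma2 mb0 mb1 mb2 bq0 bq1 bq2 gq0 gq1 gq2 xq0 xq1 xq2 am0 am1 bm0 bm1 sg v : ℝ) : Prop :=
  0 ≤ (((sg ^ 2) * ((1 : ℝ) - (v ^ 2))) + (-257 / 1024 : ℝ))

theorem d_E {gs ps : ℕ} {sg v u2 u3 : ℝ} (h : d_R gs ps sg v u2 u3) : d_Spec (parV gs 0) (parV gs 1) (parV gs 2) (parV gs 3) (parV gs 4) (parV gs 5) (parV gs 6) (parV gs 7) (parV gs 8) (parV gs 9) (parV gs 10) (parV gs 11) (parV gs 12) (parV gs 13) (parV gs 14) (parV gs 15) (parV gs 16) (parV gs 17) (parV gs 18) (parV gs 19) (parV gs 20) (parV gs 21) (parV gs 22) sg v := by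
  delta d_R at h
  exact letR_in h fun h =>
  letR_in h fun h =>
  letR_in h fun h =>
  letR_in h fun h =>
  letR_in h fun h =>
  posR_ex h fun q1 h =>
  q1

def PB (gs : ℕ) : Prog := fun j ps x0 x1 x2 x3 =>
  Nat.rec (motive := fun _ => Bool) (a_B gs ps x0 x1 x2 x3) (fun j _ => Nat.rec (motive := fun _ => Bool) (b_B gs ps x0 x1 x2 x3) (fun j _ => d_B gs ps x0 x1 x2 x3) j) j

def PR (gs : ℕ) : ℕ → ℕ → ℝ → ℝ → ℝ → ℝ → Prop := fun j ps sg v u2 u3 =>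
  Nat.rec (motive := fun _ => Prop) (a_R gs ps sg v u2 u3) (fun j _ => Nat.rec (motive := fun _ => Prop) (b_R gs ps sg v u2 u3) (fun j _ => d_R gs ps sg v u2 u3) j) j

theorem PS (gs : ℕ) : Sound (PB gs) (PR gs) := fun _ hε j => match j with
  | 0 => a_S gs hε
  | 1 => b_S gs hε
  | _ + 2 => d_S gs hε

theorem PE {j gs ps : ℕ} {sg v u2 u3 : ℝ} : PR gs j ps sg v u2 u3 → a_Spec (parV gs 0) (parV gs 1) (parV gs 2) (parV gs 3) (parV gs 4) (parV gs 5) (parV gs 6) (parV gs 7) (parV gs 8) (parV gs 9) (parV gs 10) (parV gs 11) (parV gs 12) (parV gs 13) (parV gs 14) (parV gs 15) (parV gs 16) (parV gs 17) (parV gs 18) (parV gs 19) (parV gs 20) (parV gs 21) (parV gs 22) sg v ∨ b_Spec (parV gs 0) (parV gs 1) (parV gs 2) (parV gs 3) (parV gs 4) (parV gs 5) (parV gs 6) (parV gs 7) (parV gs 8) (parV gs 9) (parV gs 10) (parV gs 11) (parV gs 12) (parV gs 13) (parV gs 14) (parV gs 15)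 (parV gs 16) (parV gs 17) (parV gs 18) (parV gs 19) (parV gs 20) (parV gs 21) (parV gs 22) sg v ∨ d_Spec (parV gs 0) (parV gs 1) (parV gs 2) (parV gs 3) (parV gs 4) (parV gs 5) (parV gs 6) (parV gs 7) (parV gs 8) (parV gs 9) (parV gs 10) (parV gs 11) (parV gs 12) (parV gs 13) (parV gs 14) (parV gs 15) (parV gs 16) (parV gs 17) (parV gs 18) (parV gs 19) (parV gs 20) (parV gs 21) (parV gs 22) sg v := match j with
  | 0 => fun h => Or.inl (@a_E gs ps sg v u2 u3 h)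
  | 1 => fun h => Or.inr (Or.inl (@b_E gs ps sg v u2 u3 h))
  | _ + 2 => fun h => Or.inr (Or.inr (@d_E gs ps sg v u2 u3 h))

theorem of_good {gs l0 h0 l1 h1 l2 h2 l3 h3 : ℕ} (h : Good (PR gs) l0 h0 l1 h1 l2 h2 l3 h3) {sg v u2 u3 : ℝ}
    (hb : InBox l0 h0 l1 h1 l2 h2 l3 h3 sg v u2 u3) : a_Spec (parV gs 0) (parV gs 1) (parV gs 2) (parV gs 3) (parV gs 4) (parV gs 5) (parV gs 6) (parV gs 7) (parV gs 8) (parV gs 9) (parV gs 10) (parV gs 11) (parV gs 12) (parV gs 13) (parV gs 14) (parV gs 15) (parV gs 16) (parV gs 17) (parV gs 18) (parV gs 19) (parV gs 20) (parV gs 21) (parV gs 22) sg v ∨ b_Spec (parV gs 0) (parV gs 1) (parV gs 2) (parV gs 3) (parV gs 4) (parV gs 5) (parV gs 6) (parV gs 7) (parV gs 8) (parV gs 9) (parV gs 10) (parV gs 11) (parV gs 12) (parV gs 13) (parV gs 14) (parV gs 15) (parV gs 16) (parV gs 17) (parV gs 18) (parV gs 19) (parV gs 20) (parV gs 21) (parV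 gs 22) sg v ∨ d_Spec (parV gs 0) (parV gs 1) (parV gs 2) (parV gs 3) (parV gs 4) (parV gs 5) (parV gs 6) (parV gs 7) (parV gs 8) (parV gs 9) (parV gs 10) (parV gs 11) (parV gs 12) (parV gs 13) (parV gs 14) (parV gs 15) (parV gs 16) (parV gs 17) (parV gs 18) (parV gs 19) (parV gs 20) (parV gs 21) (parV gs 22) sg v := by
  obtain ⟨j, ps, h⟩ := h sg v u2 u3 hb
  exact PE h

def l0 : Tree := Tree.leaf 0
def l1 : Tree := Tree.leaf 1
def l2 : Tree := Tree.leaf 2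

end

end Crest.Agent.R307.BD
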