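import Crest.Agent.R307.HBa
import Crest.Agent.R307.HBb
import Crest.Agent.R307.HVDefs

/-! Row 307, regime `δ ≥ 5/8 α`: definitions and small tools.
`α = σ²`, `δ = σ² (1 - v²)`; base point `(b² (2 - γ²), (b γ)²)`. -/

set_option autoImplicit false
set_option linter.unusedVariables false

namespace Crest.Agent.R307

noncomputable section

/-- `δ` -/
def dB (σ v : ℝ) : ℝ := σ ^ 2 * (1 - v ^ 2)

/-- normalised weight of `(√a1 - r1)²` -/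
def LBv (m1 ex γ l4 σ v : ℝ) : ℝ :=
  ((m1 * (v * (v + l4))) * ((19 / 20 - 9 / 20 * (σ ^ 2 * v ^ 2)) * (19 / 10 - 9 / 10 * σ ^ 2)⁻¹) + ex) * (γ + l4)⁻¹

/-- the multiplier of the hypercontractive term -/
def etav (ex γ l4 σ : ℝ) : ℝ := 2 * (ex * (γ * (γ + l4)⁻¹)) * uf (σ ^ 2)

/-- the defect of a vertex certificate -/
def FBb (ρ m0 m1 b γ L σ v a0 a1 : ℝ) : ℝ :=
  FB ρ (uf (σ ^ 2)) (uf (1 - σ ^ 2)) (m0 * uf (σ ^ 2 + dB σ v)) (L * uf (σ ^ 2) / b)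
    (m0 * uf (1 - (σ ^ 2 + dB σ v))) (m1 * uf (1 - (σ ^ 2 - dB σ v))) (b ^ 2 * (2 - γ ^ 2)) (b * γ) a0 a1

/-- side conditions of a vertex -/
structure SideB (ρ l4 ku kw m0 m1 b γ ex σ v : ℝ) : Prop where
  r0 : 0 ≤ ρ
  r1 : ρ < 1
  ku0 : 0 < ku
  kw0 : 0 < kw
  m00 : 0 ≤ m0
  m10 : 0 ≤ m1
  ex0 : 0 ≤ ex
  b0 : 3 / 32 ≤ b
  g0 : 0 ≤ γ
  g1 : γ ≤ 1
  c1 : b ^ 2 * (2 - γ ^ 2) < 1
  gl : 0 < γ + l4
  mode : l4 = 0 ∨ γ = v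
  L0 : 0 ≤ LBv m1 ex γ l4 σ v
  Ku : Kap ρ (m0 * uf (σ ^ 2 + dB σ v) / uf (σ ^ 2))
    (2 * (b * γ) * (LBv m1 ex γ l4 σ v * uf (σ ^ 2) / b) / uf (σ ^ 2)) ku
  Kw : Kap ρ (m1 * uf (1 - (σ ^ 2 - dB σ v)) / uf (1 - σ ^ 2)) (m0 * uf (1 - (σ ^ 2 + dB σ v)) / uf (1 - σ ^ 2)) kw

/-- the point `(σ, v)` is admissible -/
structure PtB (σ v : ℝ) : Prop where
  s0 : 1 / 8 ≤ σ
  s1 : σ ^ 2 ≤ 1 / 2
  v0 : 0 ≤ v
  v1 : v ≤ 1
  d4 : dB σ v ≤ 1 / 4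

/-- `2 ψ(α) - ψ(α + ρ δ) - ψ(α - ρ δ) + FB (α + δ, α - δ)` -/
def Nnv (ρ l4 m0 m1 b γ ex σ v : ℝ) : ℝ :=
  2 * psiH (σ ^ 2) (σ ^ 2) - psiH (σ ^ 2) (σ ^ 2 + ρ * dB σ v) - psiH (σ ^ 2) (σ ^ 2 - ρ * dB σ v)
    + FBb ρ m0 m1 b γ (LBv m1 ex γ l4 σ v) σ v (σ ^ 2 + dB σ v) (σ ^ 2 - dB σ v)

/-- the scalar half of the certificate -/
def SB (ρ β m0 m1 η N σ v : ℝ) : Prop :=
  N + η * (√(σ ^ 2 - dB σ v) - (σ ^ 2 - dB σ v) ^ (1 / (2 - ρ ^ 2))) ≤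
    2 * (psiH (σ ^ 2) (σ ^ 2) - RH β (σ ^ 2))
      - m0 * (psiH (σ ^ 2 + dB σ v) (σ ^ 2 + dB σ v) - RH β (σ ^ 2 + dB σ v))
      - m1 * (psiH (σ ^ 2 - dB σ v) (σ ^ 2 - dB σ v) - RH β (σ ^ 2 - dB σ v))

end

theorem B_uf_pos {a : ℝ} (h0 : 0 < a) (h1 : a ≤ 1) : 0 < uf a := by
  unfold uf; apply mul_pos h0; linarith

theorem B_sq {A a : ℝ} (h : A = √a) (hp : 0 < A) : A ^ 2 = a := by
  subst h; exact Real.sq_sqrt (Real.sqrt_pos.1 hp).le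

/-- `n A - Ac = e d` from `A² - Ac² = - e j` -/
theorem B_dnear {n e A Ac j d : ℝ} (hn : n = e + 1) (h : A ^ 2 - Ac ^ 2 = -(e * j)) (hp : 0 < A + Ac)
    (hd : d = A - j * (A + Ac)⁻¹) : n * A - Ac = e * d := by
  subst hn hd
  field_simp
  linear_combination h

/-- `sc - s = c z` from `sc² - s² = c N` -/
theorem B_dfar {c N s sc z : ℝ} (h : sc ^ 2 - s ^ 2 = c * N) (hp : 0 < s + sc) (hz : z = N * (s + sc)⁻¹) :
    sc - s = c * z := by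
  subst hz
  field_simp
  linear_combination h

theorem B_Bg {a c s t : ℝ} (hs : 0 ≤ s) (ht : 0 ≤ t) (ha : a = s ^ 2) (hc : c = t ^ 2) : Bg a c = (s - t) ^ 2 / (2 * t) := by
  subst ha hc; unfold Bg; rw [Real.sqrt_sq hs, Real.sqrt_sq ht]

theorem B_Bg' {a c s t : ℝ} (hs : 0 ≤ s) (ht : 0 ≤ t) (ha : a = s ^ 2) (hc : c = t ^ 2) :
    Bg' a c = 1 / (2 * t) - 1 / (2 * s) := by
  subst ha hc; unfold Bg'; rw [Real.sqrt_sq hs, Real.sqrt_sq ht]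

/-- variant of `FB_nonneg_of_ref`: reference point `(a0, t²)`, `ψ t = r1`. -/
theorem FB_ref2 {ρ u w U0 Λ W0 W1 c0 r1 ku kw x a0 t ψ : ℝ} (h0 : 0 ≤ ρ) (h1 : ρ < 1)
    (hu : 0 < u) (hw : 0 < w) (hU0 : 0 ≤ U0) (hΛ : 0 ≤ Λ) (hW0 : 0 ≤ W0) (hW1 : 0 ≤ W1)
    (hc0 : 0 < c0) (hc1 : c0 < 1) (hr0 : 0 ≤ r1) (hr1 : r1 < 1)
    (hku : Kap ρ (U0 / u) (2 * r1 * Λ / u) ku) (hkw : Kap ρ (W1 / w) (W0 / w) kw)
    (hx0 : 0 < x) (hx1 : x < 1) (ht : 0 ≤ t) (hψ : 0 ≤ ψ) (hψt : ψ * t = r1) (ha : a0 + t ^ 2 = 2 * x) (ha0 : 0 < a0) (ha1 : a0 < 1)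
    (hb1 : t ^ 2 < 1)
    (hκ : 0 < u * ku / (x * √x) + w * kw / ((1 - x) * √(1 - x)))
    (hP : 2 * FB' ρ u w U0 Λ W0 W1 c0 r1 a0 (t ^ 2) ψ⁻¹ ^ 2 ≤
      (u * ku / (x * √x) + w * kw / ((1 - x) * √(1 - x))) * FB ρ u w U0 Λ W0 W1 c0 r1 a0 (t ^ 2))
    {b0 b1 : ℝ} (hb00 : 0 ≤ b0) (hb01 : b0 ≤ 1) (hb10 : 0 ≤ b1) (hb11 : b1 ≤ 1) (hb : b0 + b1 = 2 * x) :
    0 ≤ FB ρ u w U0 Λ W0 W1 c0 r1 b0 b1 := by
  obtain ⟨M, hM⟩ := HBb_expand (u := u) (w := w) (U0 := U0) (Λ := Λ) (W0 := W0) (W1 := W1) (x := x)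
    h0 h1 hc0 hc1 hr0 hr1
  have hsq : 0 ≤ t ^ 2 := sq_nonneg _
  obtain ⟨g₀, hg₀⟩ : ∃ g₀, g₀ = a0 - x := ⟨_, rfl⟩
  obtain ⟨g, hg⟩ : ∃ g, g = b0 - x := ⟨_, rfl⟩
  have e0 : a0 = x + g₀ := by linarith
  have e1 : t ^ 2 = x - g₀ := by linarith
  have e2 : b0 = x + g := by linarith
  have e3 : b1 = x - g := by linarith
  have hcv := ((HBb_convex h0 h1 hu hx0 hku).subset Set.inter_subset_left
    ((convex_Icc (-x) x).inter (convex_Icc (-(1 - x)) (1 - x)))).add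
    ((HBb_convex h0 h1 hw (by linarith : 0 < 1 - x) hkw).subset Set.inter_subset_right
    ((convex_Icc (-x) x).inter (convex_Icc (-(1 - x)) (1 - x))))
  have p1 : 0 < x + 1 * g₀ := by linarith
  have p3 : 0 < x + ρ * g₀ := by nlinarith
  have p4 : 0 < x + -ρ * g₀ := by nlinarith
  have q1 : 0 < 1 - x + 1 * g₀ := by linarith
  have q2 : 0 < 1 - x + -1 * g₀ := by linarith
  have q3 : 0 < 1 - x + ρ * g₀ := by nlinarith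
  have q4 : 0 < 1 - x + -ρ * g₀ := by nlinarith
  obtain ⟨e, he, he'⟩ : ∃ e : ℝ, HasDerivAt (fun g => 2 * r1 * Λ * √(x + -1 * g)) (-e) g₀ ∧
      0 ≤ (e - Λ * ψ) * (g - g₀) := by
    rcases hr0.eq_or_lt with h | h
    · refine ⟨0, ?_, ?_⟩
      · simp only [← h, mul_zero, zero_mul, neg_zero]
        exact hasDerivAt_const _ _
      · rw [← h] at hψt
        rcases mul_eq_zero.1 hψt with h4 | h4
        · simp [h4]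
        · have h2 : g₀ = x := by rw [h4] at e1; linarith
          have h3 : 0 ≤ Λ * ψ := by positivity
          nlinarith
    · have h2 : 0 < t := by
        rcases ht.eq_or_lt with h4 | h4
        · rw [← h4] at hψt; linarith
        · exact h4
      have h3 : x + -1 * g₀ = t ^ 2 := by linarith
      refine ⟨Λ * ψ, ?_, by simp⟩
      refine HasDerivAt.congr_deriv ((HBb_d1 (p := x) (q := -1) (g := g₀)
        (by rw [h3]; positivity)).const_mul (2 * r1 * Λ)) ?_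
      rw [h3, Real.sqrt_sq h2.le, ← hψt]
      field_simp
  have hd := (HBb_supp2 (A0 := U0) (u := u) p1 p3 p4 he (u * ku / (x * √x))).add
    (HBb_supp2 (A0 := W1) (u := w) (A1 := W0) (e := W0 * (1 / (2 * √(1 - x + -1 * g₀)))) q1 q3 q4
      (HasDerivAt.congr_deriv ((HBb_d1 q2).const_mul W0) (by ring))
      (w * kw / ((1 - x) * √(1 - x))))
  have hs := HBb_support hcv (a := g₀) (g := g)
    ⟨⟨by linarith, by linarith⟩, by linarith, by linarith⟩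
    ⟨⟨by linarith, by linarith⟩, by linarith, by linarith⟩ hd
  have hA := hM g₀ (by linarith) (by linarith) (by linarith) (by linarith)
  have hB := hM g (by linarith) (by linarith) (by linarith) (by linarith)
  rw [← e0, ← e1] at hA
  rw [← e2, ← e3] at hB
  have key : FB ρ u w U0 Λ W0 W1 c0 r1 a0 (t ^ 2) +
      FB' ρ u w U0 Λ W0 W1 c0 r1 a0 (t ^ 2) ψ⁻¹ * (g - g₀) +
      (u * ku / (x * √x) + w * kw / ((1 - x) * √(1 - x))) / 8 * (g - g₀) ^ 2 ≤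
      FB ρ u w U0 Λ W0 W1 c0 r1 b0 b1 := by
    rw [hA, hB, e1, e0]
    unfold FB' Bg'
    rw [show (1 + ρ) / 2 * (x + g₀) + (1 - ρ) / 2 * (x - g₀) = x + ρ * g₀ by ring,
      show (1 - ρ) / 2 * (x + g₀) + (1 + ρ) / 2 * (x - g₀) = x + -ρ * g₀ by ring,
      show 1 - (x + ρ * g₀) = 1 - x + -ρ * g₀ by ring,
      show 1 - (x + -ρ * g₀) = 1 - x + ρ * g₀ by ring,
      show 1 - (x + g₀) = 1 - x + -1 * g₀ by ring, show 1 - (x - g₀) = 1 - x + 1 * g₀ by ring,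
      show x + g₀ = x + 1 * g₀ by ring]
    simp only [Pi.add_apply] at hs
    generalize u * ku / (x * √x) = K1 at hs ⊢
    generalize w * kw / ((1 - x) * √(1 - x)) = K2 at hs ⊢
    generalize 1 / (2 * √c0) = z1
    generalize 1 / (2 * √(1 - c0)) = z2
    generalize 1 / (2 * √(1 - r1 ^ 2)) = z3
    generalize 1 / (2 * √((1 + ρ) / 2 * c0 + (1 - ρ) / 2 * r1 ^ 2)) = z4
    generalize 1 / (2 * √((1 - ρ) / 2 * c0 + (1 + ρ) / 2 * r1 ^ 2)) = z5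
    generalize 1 / (2 * √(1 - ((1 + ρ) / 2 * c0 + (1 - ρ) / 2 * r1 ^ 2))) = z6
    generalize 1 / (2 * √(1 - ((1 - ρ) / 2 * c0 + (1 + ρ) / 2 * r1 ^ 2))) = z7
    generalize 1 / (2 * √(x + 1 * g₀)) = y1 at hs ⊢
    generalize 1 / (2 * √(x + ρ * g₀)) = y2 at hs ⊢
    generalize 1 / (2 * √(x + -ρ * g₀)) = y3 at hs ⊢
    generalize 1 / (2 * √(1 - x + 1 * g₀)) = y4 at hs ⊢
    generalize 1 / (2 * √(1 - x + -1 * g₀)) = y5 at hs ⊢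
    generalize 1 / (2 * √(1 - x + ρ * g₀)) = y6 at hs ⊢
    generalize 1 / (2 * √(1 - x + -ρ * g₀)) = y7 at hs ⊢
    rw [one_div ψ⁻¹, inv_inv]
    clear * - hs he'
    linarith
  generalize FB ρ u w U0 Λ W0 W1 c0 r1 a0 (t ^ 2) = P at *
  generalize FB' ρ u w U0 Λ W0 W1 c0 r1 a0 (t ^ 2) ψ⁻¹ = d at *
  generalize u * ku / (x * √x) + w * kw / ((1 - x) * √(1 - x)) = K at *
  refine le_trans ?_ key
  clear * - hκ hP
  refine nonneg_of_mul_nonneg_right (a := K) ?_ hκ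
  nlinarith [sq_nonneg (K * (g - g₀) + 4 * d)]

/-- the normalised form of the last check -/
theorem B_fin {F F' Kt K Φ Ψ β n e : ℝ} (hβ : 0 < β) (hn : 0 < n) (hK : 0 < K) (hF : F = e ^ 2 * β * Φ)
    (hF' : n * β * F' = e * Ψ) (hKt : K ≤ Kt * (β * n) ^ 3) (hc : 0 ≤ K * Φ - 2 * (n * Ψ ^ 2)) :
    0 < Kt ∧ 2 * F' ^ 2 ≤ Kt * F := by
  have hbn : 0 < (β * n) ^ 3 := by positivity
  have hKt0 : 0 < Kt := (mul_pos_iff_of_pos_right hbn).1 (lt_of_lt_of_le hK hKt)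
  refine ⟨hKt0, ?_⟩
  have hΦ : 0 ≤ Φ := by
    have : 0 ≤ K * Φ := by nlinarith [mul_nonneg hn.le (sq_nonneg Ψ)]
    exact nonneg_of_mul_nonneg_right this hK
  have h1 : K * Φ ≤ Kt * (β * n) ^ 3 * Φ := mul_le_mul_of_nonneg_right hKt hΦ
  have h2 : 2 * (n * Ψ ^ 2) * e ^ 2 ≤ Kt * (β * n) ^ 3 * Φ * e ^ 2 :=
    mul_le_mul_of_nonneg_right (by linarith) (sq_nonneg e)
  have h3 : 0 < n ^ 3 * β ^ 2 := by positivity
  refine le_of_mul_le_mul_left ?_ h3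
  have h4 : n ^ 3 * β ^ 2 * (2 * F' ^ 2) = 2 * (n * Ψ ^ 2) * e ^ 2 := by
    have : n ^ 3 * β ^ 2 * (2 * F' ^ 2) = 2 * n * (n * β * F') ^ 2 := by ring
    rw [this, hF']; ring
  rw [h4, hF]
  linarith [h2, show Kt * (β * n) ^ 3 * Φ * e ^ 2 = n ^ 3 * β ^ 2 * (Kt * (e ^ 2 * β * Φ)) by ring]

theorem B_Phi {K Φ Ψ n : ℝ} (hn : 0 ≤ n) (hK : 0 < K) (hc : 0 ≤ K * Φ - 2 * (n * Ψ ^ 2)) : 0 ≤ Φ := by
  have : 0 ≤ K * Φ := by nlinarith [mul_nonneg hn (sq_nonneg Ψ)]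
  exact nonneg_of_mul_nonneg_right this hK

end Crest.Agent.R307
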