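import Crest.Agent.R307.AA

set_option autoImplicit false
set_option maxRecDepth 100000
set_option linter.unusedVariables false

namespace Crest.Agent.R307.BK
open Crest.Agent.R307.AA

noncomputable section

theorem k0 : |2 ^ 48 * (2 : ℝ) - (((4722367045819598635008 : ℕ) : ℝ) - 2 ^ 72)| ≤ ((0 : ℕ) : ℝ) := by norm_num [abs_le]
theorem k1 : |2 ^ 48 * (1 : ℝ) - (((4722366764344621924352 : ℕ) : ℝ) - 2 ^ 72)| ≤ ((0 : ℕ) : ℝ) := by norm_num [abs_le]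
def a_B1 (gs ps : ℕ) (z25 z31 z43 : AF) : Bool :=
  parK gs 21 fun z22 =>
  parK gs 22 fun z23 =>
  mulK z23 z31 fun z56 =>
  subK z56 z43 fun z57 =>
  parK gs 3 fun z4 =>
  subK z57 z4 fun z58 =>
  normK z58 fun z59 =>
  mulK z25 z59 fun z60 =>
  addK z22 z60 fun z61 =>
  posK z61 <|
  mulK z22 z31 fun z62 =>
  subK z62 z43 fun z63 =>
  subK z63 z4 fun z64 =>
  normK z64 fun z65 =>
  mulK z25 z65 fun z66 =>
  addK z23 z66 fun z67 =>
  posK z67 <|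
  true

def a_R1 (gs ps : ℕ) (z25 z31 z43 : ℝ) : Prop :=
  letR (parV gs 21) fun z22 =>
  letR (parV gs 22) fun z23 =>
  letR (z23 * z31) fun z56 =>
  letR (z56 - z43) fun z57 =>
  letR (parV gs 3) fun z4 =>
  letR (z57 - z4) fun z58 =>
  letR z58 fun z59 =>
  letR (z25 * z59) fun z60 =>
  letR (z22 + z60) fun z61 =>
  posR z61 <|
  letR (z22 * z31) fun z62 =>
  letR (z62 - z43) fun z63 =>
  letR (z63 - z4) fun z64 =>
  letR z64 fun z65 =>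
  letR (z25 * z65) fun z66 =>
  letR (z23 + z66) fun z67 =>
  posR z67 <|
  True

theorem a_S1 {ε : Fin 4 → ℝ} (gs : ℕ) (hε : ∀ i, |ε i| ≤ 1) (ps : ℕ) (z25 z31 z43 : AF) (t25 t31 t43 : ℝ)
    (g25 : Rel ε z25 t25) (g31 : Rel ε z31 t31) (g43 : Rel ε z43 t43) :
    a_B1 gs ps z25 z31 z43 = true → a_R1 gs ps t25 t31 t43 := by
  delta a_B1 a_R1
  exact parS fun z22 t22 g22 =>
  parS fun z23 t23 g23 =>
  mulS hε g23 g31 fun z56 t56 g56 =>
  subS g56 g43 fun z57 t57 g57 =>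
  parS fun z4 t4 g4 =>
  subS g57 g4 fun z58 t58 g58 =>
  normS g58 fun z59 t59 g59 =>
  mulS hε g25 g59 fun z60 t60 g60 =>
  addS g22 g60 fun z61 t61 g61 =>
  posS hε g61 <|
  mulS hε g22 g31 fun z62 t62 g62 =>
  subS g62 g43 fun z63 t63 g63 =>
  subS g63 g4 fun z64 t64 g64 =>
  normS g64 fun z65 t65 g65 =>
  mulS hε g25 g65 fun z66 t66 g66 =>
  addS g23 g66 fun z67 t67 g67 =>
  posS hε g67 <|
  fun _ => trivial

def a_B (gs ps : ℕ) (x0 x1 x2 x3 : AF) : Bool :=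
  parK gs 20 fun z21 =>
  sqrK x0 fun z24 =>
  mulK z24 x0 fun z25 =>
  parK gs 19 fun z20 =>
  rsubK z24 4722367045819598635008 0 fun z28 =>
  sqrtK z28 fun z29 =>
  mulK z28 z29 fun z30 =>
  invK z30 fun z31 =>
  mulK z20 z31 fun z44 =>
  parK gs 0 fun z1 =>
  sqrK z1 fun z32 =>
  rsubK z24 4722366764344621924352 0 fun z26 =>
  mulK z1 z26 fun z27 =>
  addcK z27 4722366764344621924352 0 fun z33 =>
  sqrtK z33 fun z34 =>
  mulK z33 z34 fun z35 =>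
  invK z35 fun z36 =>
  rsubK z27 4722366764344621924352 0 fun z37 =>
  sqrtK z37 fun z38 =>
  mulK z37 z38 fun z39 =>
  invK z39 fun z40 =>
  addK z36 z40 fun z41 =>
  normK z41 fun z42 =>
  mulK z32 z42 fun z43 =>
  subK z44 z43 fun z45 =>
  parK gs 2 fun z3 =>
  subK z45 z3 fun z46 =>
  normK z46 fun z47 =>
  mulK z25 z47 fun z48 =>
  addK z21 z48 fun z49 =>
  posK z49 <|
  mulK z21 z31 fun z50 =>
  subK z50 z43 fun z51 =>
  subK z51 z3 fun z52 =>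
  normK z52 fun z53 =>
  mulK z25 z53 fun z54 =>
  addK z20 z54 fun z55 =>
  posK z55 <|
  a_B1 gs ps z25 z31 z43

def a_R (gs ps : ℕ) (s u1 u2 u3 : ℝ) : Prop :=
  letR (parV gs 20) fun z21 =>
  letR (s ^ 2) fun z24 =>
  letR (z24 * s) fun z25 =>
  letR (parV gs 19) fun z20 =>
  letR ((2 : ℝ) - z24) fun z28 =>
  letR (√z28) fun z29 =>
  letR (z28 * z29) fun z30 =>
  invR z30 fun z31 =>
  letR (z20 * z31) fun z44 =>
  letR (parV gs 0) fun z1 =>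
  letR (z1 ^ 2) fun z32 =>
  letR ((1 : ℝ) - z24) fun z26 =>
  letR (z1 * z26) fun z27 =>
  letR (z27 + (1 : ℝ)) fun z33 =>
  letR (√z33) fun z34 =>
  letR (z33 * z34) fun z35 =>
  invR z35 fun z36 =>
  letR ((1 : ℝ) - z27) fun z37 =>
  letR (√z37) fun z38 =>
  letR (z37 * z38) fun z39 =>
  invR z39 fun z40 =>
  letR (z36 + z40) fun z41 =>
  letR z41 fun z42 =>
  letR (z32 * z42) fun z43 =>
  letR (z44 - z43) fun z45 =>
  letR (parV gs 2) fun z3 =>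
  letR (z45 - z3) fun z46 =>
  letR z46 fun z47 =>
  letR (z25 * z47) fun z48 =>
  letR (z21 + z48) fun z49 =>
  posR z49 <|
  letR (z21 * z31) fun z50 =>
  letR (z50 - z43) fun z51 =>
  letR (z51 - z3) fun z52 =>
  letR z52 fun z53 =>
  letR (z25 * z53) fun z54 =>
  letR (z20 + z54) fun z55 =>
  posR z55 <|
  a_R1 gs ps z25 z31 z43

theorem a_S {ε : Fin 4 → ℝ} (gs : ℕ) (hε : ∀ i, |ε i| ≤ 1) (ps : ℕ) (x0 x1 x2 x3 : AF) (s u1 u2 u3 : ℝ)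
    (h0 : Rel ε x0 s) (h1 : Rel ε x1 u1) (h2 : Rel ε x2 u2) (h3 : Rel ε x3 u3) :
    a_B gs ps x0 x1 x2 x3 = true → a_R gs ps s u1 u2 u3 := by
  delta a_B a_R
  exact parS fun z21 t21 g21 =>
  sqrS hε h0 fun z24 t24 g24 =>
  mulS hε g24 h0 fun z25 t25 g25 =>
  parS fun z20 t20 g20 =>
  rsubS g24 k0 fun z28 t28 g28 =>
  sqrtS hε g28 fun z29 t29 g29 =>
  mulS hε g28 g29 fun z30 t30 g30 =>
  invS hε g30 fun z31 t31 g31 =>
  mulS hε g20 g31 fun z44 t44 g44 =>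
  parS fun z1 t1 g1 =>
  sqrS hε g1 fun z32 t32 g32 =>
  rsubS g24 k1 fun z26 t26 g26 =>
  mulS hε g1 g26 fun z27 t27 g27 =>
  addcS g27 k1 fun z33 t33 g33 =>
  sqrtS hε g33 fun z34 t34 g34 =>
  mulS hε g33 g34 fun z35 t35 g35 =>
  invS hε g35 fun z36 t36 g36 =>
  rsubS g27 k1 fun z37 t37 g37 =>
  sqrtS hε g37 fun z38 t38 g38 =>
  mulS hε g37 g38 fun z39 t39 g39 =>
  invS hε g39 fun z40 t40 g40 =>
  addS g36 g40 fun z41 t41 g41 =>
  normS g41 fun z42 t42 g42 =>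
  mulS hε g32 g42 fun z43 t43 g43 =>
  subS g44 g43 fun z45 t45 g45 =>
  parS fun z3 t3 g3 =>
  subS g45 g3 fun z46 t46 g46 =>
  normS g46 fun z47 t47 g47 =>
  mulS hε g25 g47 fun z48 t48 g48 =>
  addS g21 g48 fun z49 t49 g49 =>
  posS hε g49 <|
  mulS hε g21 g31 fun z50 t50 g50 =>
  subS g50 g43 fun z51 t51 g51 =>
  subS g51 g3 fun z52 t52 g52 =>
  normS g52 fun z53 t53 g53 =>
  mulS hε g25 g53 fun z54 t54 g54 =>
  addS g20 g54 fun z55 t55 g55 =>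
  posS hε g55 <|
  a_S1 gs hε ps z25 z31 z43 t25 t31 t43 g25 g31 g43

/- obtain ⟨s2, s3, x2, f2, ry, xp, xm, fr, h_s2, h_s3, h_x2, p_f2, h_f2, h_ry, h_xp, p_7, h_xm, p_9, h_fr, c0, c1, c2, c3⟩ := h -/
def a_Spec (rho l4 ku kw ma0 ma1 ma2 mb0 mb1 mb2 bq0 bq1 bq2 gq0 gq1 gq2 xq0 xq1 xq2 am0 am1 bm0 bm1 s : ℝ) : Prop :=
  ∃ s2 s3 x2 f2 ry xp xm fr : ℝ,
    s2 = (s ^ 2) ∧
    s3 = (s2 * s) ∧
    x2 = ((2 : ℝ) - s2) ∧
    0 < (x2 * (√x2)) ∧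
    f2 = ((x2 * (√x2))⁻¹) ∧
    ry = (rho * ((1 : ℝ) - s2)) ∧
    xp = (ry + (1 : ℝ)) ∧
    0 < (xp * (√xp)) ∧
    xm = ((1 : ℝ) - ry) ∧
    0 < (xm * (√xm)) ∧
    fr = ((rho ^ 2) * (((xp * (√xp))⁻¹) + ((xm * (√xm))⁻¹))) ∧
    0 ≤ (am1 + (s3 * (((am0 * f2) - fr) - ku))) ∧
    0 ≤ (am0 + (s3 * (((am1 * f2) - fr) - ku))) ∧
    0 ≤ (bm0 + (s3 * (((bm1 * f2) - fr) - kw))) ∧
    0 ≤ (bm1 + (s3 * (((bm0 * f2) - fr) - kw)))

theorem a_E {gs ps : ℕ} {s u1 u2 u3 : ℝ} (h : a_R gs ps s u1 u2 u3) : a_Spec (parV gs 0) (parV gs 1) (parV gs 2) (parV gs 3) (parV gs 4) (parV gs 5) (parV gs 6) (parV gs 7) (parV gs 8) (parV gs 9) (parV gs 10) (parV gs 11) (parV gs 12) (parV gs 13) (parV gs 14) (parV gs 15) (parV gs 16) (parV gs 17) (parV gs 18) (parV gs 19) (parV gs 20) (parV gs 21) (parV gs 22) s := by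
  delta a_R at h
  exact letR_in h fun h =>
  letR_ex h fun s2 q1 h =>
  letR_ex h fun s3 q2 h =>
  letR_in h fun h =>
  letR_ex h fun x2 q3 h =>
  letR_in h fun h =>
  letR_in h fun h =>
  invR_ex h fun q4 h =>
  letR_ex h fun f2 q5 h =>
  letR_in h fun h =>
  letR_in h fun h =>
  letR_in h fun h =>
  letR_in h fun h =>
  letR_ex h fun ry q6 h =>
  letR_ex h fun xp q7 h =>
  letR_in h fun h =>
  letR_in h fun h =>
  invR_ex h fun q8 h =>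
  letR_in h fun h =>
  letR_ex h fun xm q9 h =>
  letR_in h fun h =>
  letR_in h fun h =>
  invR_ex h fun q10 h =>
  letR_in h fun h =>
  letR_in h fun h =>
  letR_in h fun h =>
  letR_ex h fun fr q11 h =>
  letR_in h fun h =>
  letR_in h fun h =>
  letR_in h fun h =>
  letR_in h fun h =>
  letR_in h fun h =>
  letR_in h fun h =>
  posR_ex h fun q12 h =>
  letR_in h fun h =>
  letR_in h fun h =>
  letR_in h fun h =>
  letR_in h fun h =>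
  letR_in h fun h =>
  letR_in h fun h =>
  posR_ex h fun q13 h =>
  (by delta a_R1 at h; exact
  letR_in h fun h =>
  letR_in h fun h =>
  letR_in h fun h =>
  letR_in h fun h =>
  letR_in h fun h =>
  letR_in h fun h =>
  letR_in h fun h =>
  letR_in h fun h =>
  letR_in h fun h =>
  posR_ex h fun q14 h =>
  letR_in h fun h =>
  letR_in h fun h =>
  letR_in h fun h =>
  letR_in h fun h =>
  letR_in h fun h =>
  letR_in h fun h =>
  posR_ex h fun q15 h =>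
  ⟨s2, s3, x2, f2, ry, xp, xm, fr, q1, q2, q3, q4, q5, q6, q7, q8, q9, q10, q11, q12, q13, q14, q15⟩)

def b_B1 (gs ps : ℕ) (z31 z43 z25 : AF) : Bool :=
  parK gs 21 fun z22 =>
  parK gs 22 fun z23 =>
  mulK z23 z31 fun z53 =>
  subK z53 z43 fun z54 =>
  parK gs 3 fun z4 =>
  subK z54 z4 fun z55 =>
  normK z55 fun z56 =>
  mulK z25 z56 fun z57 =>
  addK z22 z57 fun z58 =>
  posK z58 <|
  mulK z22 z31 fun z59 =>
  subK z59 z43 fun z60 =>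
  subK z60 z4 fun z61 =>
  normK z61 fun z62 =>
  mulK z25 z62 fun z63 =>
  addK z23 z63 fun z64 =>
  posK z64 <|
  true

def b_R1 (gs ps : ℕ) (z31 z43 z25 : ℝ) : Prop :=
  letR (parV gs 21) fun z22 =>
  letR (parV gs 22) fun z23 =>
  letR (z23 * z31) fun z53 =>
  letR (z53 - z43) fun z54 =>
  letR (parV gs 3) fun z4 =>
  letR (z54 - z4) fun z55 =>
  letR z55 fun z56 =>
  letR (z25 * z56) fun z57 =>
  letR (z22 + z57) fun z58 =>
  posR z58 <|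
  letR (z22 * z31) fun z59 =>
  letR (z59 - z43) fun z60 =>
  letR (z60 - z4) fun z61 =>
  letR z61 fun z62 =>
  letR (z25 * z62) fun z63 =>
  letR (z23 + z63) fun z64 =>
  posR z64 <|
  True

theorem b_S1 {ε : Fin 4 → ℝ} (gs : ℕ) (hε : ∀ i, |ε i| ≤ 1) (ps : ℕ) (z31 z43 z25 : AF) (t31 t43 t25 : ℝ)
    (g31 : Rel ε z31 t31) (g43 : Rel ε z43 t43) (g25 : Rel ε z25 t25) :
    b_B1 gs ps z31 z43 z25 = true → b_R1 gs ps t31 t43 t25 := by
  delta b_B1 b_R1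
  exact parS fun z22 t22 g22 =>
  parS fun z23 t23 g23 =>
  mulS hε g23 g31 fun z53 t53 g53 =>
  subS g53 g43 fun z54 t54 g54 =>
  parS fun z4 t4 g4 =>
  subS g54 g4 fun z55 t55 g55 =>
  normS g55 fun z56 t56 g56 =>
  mulS hε g25 g56 fun z57 t57 g57 =>
  addS g22 g57 fun z58 t58 g58 =>
  posS hε g58 <|
  mulS hε g22 g31 fun z59 t59 g59 =>
  subS g59 g43 fun z60 t60 g60 =>
  subS g60 g4 fun z61 t61 g61 =>
  normS g61 fun z62 t62 g62 =>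
  mulS hε g25 g62 fun z63 t63 g63 =>
  addS g23 g63 fun z64 t64 g64 =>
  posS hε g64 <|
  fun _ => trivial

def b_B (gs ps : ℕ) (x0 x1 x2 x3 : AF) : Bool :=
  parK gs 20 fun z21 =>
  posK z21 <|
  parK gs 19 fun z20 =>
  sqrK x0 fun z24 =>
  rsubK z24 4722367045819598635008 0 fun z28 =>
  sqrtK z28 fun z29 =>
  mulK z28 z29 fun z30 =>
  invK z30 fun z31 =>
  mulK z20 z31 fun z44 =>
  parK gs 0 fun z1 =>
  sqrK z1 fun z32 =>
  rsubK z24 4722366764344621924352 0 fun z26 =>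
  mulK z1 z26 fun z27 =>
  addcK z27 4722366764344621924352 0 fun z33 =>
  sqrtK z33 fun z34 =>
  mulK z33 z34 fun z35 =>
  invK z35 fun z36 =>
  rsubK z27 4722366764344621924352 0 fun z37 =>
  sqrtK z37 fun z38 =>
  mulK z37 z38 fun z39 =>
  invK z39 fun z40 =>
  addK z36 z40 fun z41 =>
  normK z41 fun z42 =>
  mulK z32 z42 fun z43 =>
  subK z44 z43 fun z45 =>
  parK gs 2 fun z3 =>
  subK z45 z3 fun z46 =>
  posK z46 <|
  mulK z24 x0 fun z25 =>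
  mulK z21 z31 fun z47 =>
  subK z47 z43 fun z48 =>
  subK z48 z3 fun z49 =>
  normK z49 fun z50 =>
  mulK z25 z50 fun z51 =>
  addK z20 z51 fun z52 =>
  posK z52 <|
  b_B1 gs ps z31 z43 z25

def b_R (gs ps : ℕ) (s u1 u2 u3 : ℝ) : Prop :=
  letR (parV gs 20) fun z21 =>
  posR z21 <|
  letR (parV gs 19) fun z20 =>
  letR (s ^ 2) fun z24 =>
  letR ((2 : ℝ) - z24) fun z28 =>
  letR (√z28) fun z29 =>
  letR (z28 * z29) fun z30 =>
  invR z30 fun z31 =>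
  letR (z20 * z31) fun z44 =>
  letR (parV gs 0) fun z1 =>
  letR (z1 ^ 2) fun z32 =>
  letR ((1 : ℝ) - z24) fun z26 =>
  letR (z1 * z26) fun z27 =>
  letR (z27 + (1 : ℝ)) fun z33 =>
  letR (√z33) fun z34 =>
  letR (z33 * z34) fun z35 =>
  invR z35 fun z36 =>
  letR ((1 : ℝ) - z27) fun z37 =>
  letR (√z37) fun z38 =>
  letR (z37 * z38) fun z39 =>
  invR z39 fun z40 =>
  letR (z36 + z40) fun z41 =>
  letR z41 fun z42 =>
  letR (z32 * z42) fun z43 =>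
  letR (z44 - z43) fun z45 =>
  letR (parV gs 2) fun z3 =>
  letR (z45 - z3) fun z46 =>
  posR z46 <|
  letR (z24 * s) fun z25 =>
  letR (z21 * z31) fun z47 =>
  letR (z47 - z43) fun z48 =>
  letR (z48 - z3) fun z49 =>
  letR z49 fun z50 =>
  letR (z25 * z50) fun z51 =>
  letR (z20 + z51) fun z52 =>
  posR z52 <|
  b_R1 gs ps z31 z43 z25

theorem b_S {ε : Fin 4 → ℝ} (gs : ℕ) (hε : ∀ i, |ε i| ≤ 1) (ps : ℕ) (x0 x1 x2 x3 : AF) (s u1 u2 u3 : ℝ)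
    (h0 : Rel ε x0 s) (h1 : Rel ε x1 u1) (h2 : Rel ε x2 u2) (h3 : Rel ε x3 u3) :
    b_B gs ps x0 x1 x2 x3 = true → b_R gs ps s u1 u2 u3 := by
  delta b_B b_R
  exact parS fun z21 t21 g21 =>
  posS hε g21 <|
  parS fun z20 t20 g20 =>
  sqrS hε h0 fun z24 t24 g24 =>
  rsubS g24 k0 fun z28 t28 g28 =>
  sqrtS hε g28 fun z29 t29 g29 =>
  mulS hε g28 g29 fun z30 t30 g30 =>
  invS hε g30 fun z31 t31 g31 =>
  mulS hε g20 g31 fun z44 t44 g44 =>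
  parS fun z1 t1 g1 =>
  sqrS hε g1 fun z32 t32 g32 =>
  rsubS g24 k1 fun z26 t26 g26 =>
  mulS hε g1 g26 fun z27 t27 g27 =>
  addcS g27 k1 fun z33 t33 g33 =>
  sqrtS hε g33 fun z34 t34 g34 =>
  mulS hε g33 g34 fun z35 t35 g35 =>
  invS hε g35 fun z36 t36 g36 =>
  rsubS g27 k1 fun z37 t37 g37 =>
  sqrtS hε g37 fun z38 t38 g38 =>
  mulS hε g37 g38 fun z39 t39 g39 =>
  invS hε g39 fun z40 t40 g40 =>
  addS g36 g40 fun z41 t41 g41 =>
  normS g41 fun z42 t42 g42 =>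
  mulS hε g32 g42 fun z43 t43 g43 =>
  subS g44 g43 fun z45 t45 g45 =>
  parS fun z3 t3 g3 =>
  subS g45 g3 fun z46 t46 g46 =>
  posS hε g46 <|
  mulS hε g24 h0 fun z25 t25 g25 =>
  mulS hε g21 g31 fun z47 t47 g47 =>
  subS g47 g43 fun z48 t48 g48 =>
  subS g48 g3 fun z49 t49 g49 =>
  normS g49 fun z50 t50 g50 =>
  mulS hε g25 g50 fun z51 t51 g51 =>
  addS g20 g51 fun z52 t52 g52 =>
  posS hε g52 <|
  b_S1 gs hε ps z31 z43 z25 t31 t43 t25 g31 g43 g25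

/- obtain ⟨s2, x2, f2, ry, xp, xm, fr, s3, c0, h_s2, h_x2, p_f2, h_f2, h_ry, h_xp, p_7, h_xm, p_9, h_fr, c1, h_s3, c2, c3, c4⟩ := h -/
def b_Spec (rho l4 ku kw ma0 ma1 ma2 mb0 mb1 mb2 bq0 bq1 bq2 gq0 gq1 gq2 xq0 xq1 xq2 am0 am1 bm0 bm1 s : ℝ) : Prop :=
  ∃ s2 x2 f2 ry xp xm fr s3 : ℝ,
    0 ≤ am1 ∧
    s2 = (s ^ 2) ∧
    x2 = ((2 : ℝ) - s2) ∧
    0 < (x2 * (√x2)) ∧
    f2 = ((x2 * (√x2))⁻¹) ∧
    ry = (rho * ((1 : ℝ) - s2)) ∧
    xp = (ry + (1 : ℝ)) ∧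
    0 < (xp * (√xp)) ∧
    xm = ((1 : ℝ) - ry) ∧
    0 < (xm * (√xm)) ∧
    fr = ((rho ^ 2) * (((xp * (√xp))⁻¹) + ((xm * (√xm))⁻¹))) ∧
    0 ≤ (((am0 * f2) - fr) - ku) ∧
    s3 = (s2 * s) ∧
    0 ≤ (am0 + (s3 * (((am1 * f2) - fr) - ku))) ∧
    0 ≤ (bm0 + (s3 * (((bm1 * f2) - fr) - kw))) ∧
    0 ≤ (bm1 + (s3 * (((bm0 * f2) - fr) - kw)))

theorem b_E {gs ps : ℕ} {s u1 u2 u3 : ℝ} (h : b_R gs ps s u1 u2 u3) : b_Spec (parV gs 0) (parV gs 1) (parV gs 2) (parV gs 3) (parV gs 4) (parV gs 5) (parV gs 6) (parV gs 7) (parV gs 8) (parV gs 9) (parV gs 10) (parV gs 11) (parV gs 12) (parV gs 13) (parV gs 14) (parV gs 15) (parV gs 16) (parV gs 17) (parV gs 18) (parV gs 19) (parV gs 20) (parV gs 21) (parV gs 22) s := by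
  delta b_R at h
  exact letR_in h fun h =>
  posR_ex h fun q1 h =>
  letR_in h fun h =>
  letR_ex h fun s2 q2 h =>
  letR_ex h fun x2 q3 h =>
  letR_in h fun h =>
  letR_in h fun h =>
  invR_ex h fun q4 h =>
  letR_ex h fun f2 q5 h =>
  letR_in h fun h =>
  letR_in h fun h =>
  letR_in h fun h =>
  letR_in h fun h =>
  letR_ex h fun ry q6 h =>
  letR_ex h fun xp q7 h =>
  letR_in h fun h =>
  letR_in h fun h =>
  invR_ex h fun q8 h =>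
  letR_in h fun h =>
  letR_ex h fun xm q9 h =>
  letR_in h fun h =>
  letR_in h fun h =>
  invR_ex h fun q10 h =>
  letR_in h fun h =>
  letR_in h fun h =>
  letR_in h fun h =>
  letR_ex h fun fr q11 h =>
  letR_in h fun h =>
  letR_in h fun h =>
  letR_in h fun h =>
  posR_ex h fun q12 h =>
  letR_ex h fun s3 q13 h =>
  letR_in h fun h =>
  letR_in h fun h =>
  letR_in h fun h =>
  letR_in h fun h =>
  letR_in h fun h =>
  letR_in h fun h =>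
  posR_ex h fun q14 h =>
  (by delta b_R1 at h; exact
  letR_in h fun h =>
  letR_in h fun h =>
  letR_in h fun h =>
  letR_in h fun h =>
  letR_in h fun h =>
  letR_in h fun h =>
  letR_in h fun h =>
  letR_in h fun h =>
  letR_in h fun h =>
  posR_ex h fun q15 h =>
  letR_in h fun h =>
  letR_in h fun h =>
  letR_in h fun h =>
  letR_in h fun h =>
  letR_in h fun h =>
  letR_in h fun h =>
  posR_ex h fun q16 h =>
  ⟨s2, x2, f2, ry, xp, xm, fr, s3, q1, q2, q3, q4, q5, q6, q7, q8, q9, q10, q11, q12, q13, q14, q15, q16⟩)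

def PB (gs : ℕ) : Prog := fun j ps x0 x1 x2 x3 =>
  Nat.rec (motive := fun _ => Bool) (a_B gs ps x0 x1 x2 x3) (fun j _ => b_B gs ps x0 x1 x2 x3) j

def PR (gs : ℕ) : ℕ → ℕ → ℝ → ℝ → ℝ → ℝ → Prop := fun j ps s u1 u2 u3 =>
  Nat.rec (motive := fun _ => Prop) (a_R gs ps s u1 u2 u3) (fun j _ => b_R gs ps s u1 u2 u3) j

theorem PS (gs : ℕ) : Sound (PB gs) (PR gs) := fun _ hε j => match j with
  | 0 => a_S gs hε
  | _ + 1 => b_S gs hε

theorem PE {j gs ps : ℕ} {s u1 u2 u3 : ℝ} : PR gs j ps s u1 u2 u3 → a_Spec (parV gs 0) (parV gs 1) (parV gs 2) (parV gs 3) (parV gs 4) (parV gs 5) (parV gs 6) (parV gs 7) (parV gs 8) (parV gs 9) (parV gs 10) (parV gs 11) (parV gs 12) (parV gs 13) (parV gs 14) (parV gs 15) (parV gs 16) (parV gs 17) (parV gs 18) (parV gs 19) (parV gs 20) (parV gs 21) (parV gs 22) s ∨ b_Spec (parV gs 0) (parV gs 1) (parV gs 2) (parV gs 3) (parV gs 4) (parV gs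 5) (parV gs 6) (parV gs 7) (parV gs 8) (parV gs 9) (parV gs 10) (parV gs 11) (parV gs 12) (parV gs 13) (parV gs 14) (parV gs 15) (parV gs 16) (parV gs 17) (parV gs 18) (parV gs 19) (parV gs 20) (parV gs 21) (parV gs 22) s := match j with
  | 0 => fun h => Or.inl (@a_E gs ps s u1 u2 u3 h)
  | _ + 1 => fun h => Or.inr (@b_E gs ps s u1 u2 u3 h)

theorem of_good {gs l0 h0 l1 h1 l2 h2 l3 h3 : ℕ} (h : Good (PR gs) l0 h0 l1 h1 l2 h2 l3 h3) {s u1 u2 u3 : ℝ}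
    (hb : InBox l0 h0 l1 h1 l2 h2 l3 h3 s u1 u2 u3) : a_Spec (parV gs 0) (parV gs 1) (parV gs 2) (parV gs 3) (parV gs 4) (parV gs 5) (parV gs 6) (parV gs 7) (parV gs 8) (parV gs 9) (parV gs 10) (parV gs 11) (parV gs 12) (parV gs 13) (parV gs 14) (parV gs 15) (parV gs 16) (parV gs 17) (parV gs 18) (parV gs 19) (parV gs 20) (parV gs 21) (parV gs 22) s ∨ b_Spec (parV gs 0) (parV gs 1) (parV gs 2) (parV gs 3) (parV gs 4) (parV gs 5) (parV gs 6) (parV gs 7) (parV gs 8) (parV gs 9) (parV gs 10) (parV gs 11) (parV gs 12) (parV gs 13) (parV gs 14) (parV gs 15) (parV gs 16) (parV gs 17) (parV gs 18) (parV gs 19) (parV gs 20) (parV gs 21) (parV gs 22) s := by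
  obtain ⟨j, ps, h⟩ := h s u1 u2 u3 hb
  exact PE h

def l0 : Tree := Tree.leaf 0
def l1 : Tree := Tree.leaf 1

end

end Crest.Agent.R307.BK
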