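import Crest.Agent.R307.B.BDefs
import Crest.Agent.R307.B.BKP
import Crest.Agent.R307.B.BDP

/-! Row 307, regime `δ ≥ 5/8 α`: side conditions of a vertex. -/

set_option autoImplicit false
set_option linter.unusedVariables false

namespace Crest.Agent.R307

theorem BKm_KS {ρ A A' k s : ℝ}
    (h : 0 ≤ A + s ^ 2 * s * (A' * ((2 - s ^ 2) * √(2 - s ^ 2))⁻¹ -
      ρ ^ 2 * (((ρ * (1 - s ^ 2) + 1) * √(ρ * (1 - s ^ 2) + 1))⁻¹ +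
        ((1 - ρ * (1 - s ^ 2)) * √(1 - ρ * (1 - s ^ 2)))⁻¹) - k)) :
    0 ≤ A + s ^ 3 * (A' / ((2 - s ^ 2) * √(2 - s ^ 2))
      - ρ ^ 2 * (1 / ((1 + ρ * (1 - s ^ 2)) * √(1 + ρ * (1 - s ^ 2)))
        + 1 / ((1 - ρ * (1 - s ^ 2)) * √(1 - ρ * (1 - s ^ 2)))) - k) := by
  rw [one_div, one_div, div_eq_mul_inv, add_comm 1 (ρ * (1 - s ^ 2)), pow_succ s 2]
  exact h

theorem BKm_core {ρ l4 ku kw m0 m1 b γ ex σ v am0 am1 bm0 bm1 : ℝ} (hp : PtB σ v)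
    (Ku : Kap ρ am0 am1 ku) (Kw : Kap ρ bm1 bm0 kw) (r0 : 0 ≤ ρ) (r1 : 0 ≤ 7 / 8 - ρ)
    (k0 : 0 ≤ ku + -1 / 1024) (k1 : 0 ≤ kw + -1 / 1024) (h0 : 0 ≤ m0) (h1 : 0 ≤ m1) (h2 : 0 ≤ ex)
    (h3 : 0 ≤ b + -3 / 32) (g0 : 0 ≤ γ) (g1 : 0 ≤ 1 - γ) (c1 : 0 ≤ 63 / 64 - b ^ 2 * (2 - γ ^ 2))
    (gl : 0 < γ + l4) (mode : l4 = 0 ∨ γ = v) (L0 : 0 ≤ LBv m1 ex γ l4 σ v)
    (a0 : 0 ≤ m0 * (2 - v ^ 2) * ((19 / 10 - 9 / 10 * (2 * σ ^ 2 - σ ^ 2 * v ^ 2)) *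
      (19 / 10 - 9 / 10 * σ ^ 2)⁻¹) - am0)
    (a1 : am1 ≤ 2 * (γ * LBv m1 ex γ l4 σ v))
    (w0 : 0 ≤ m0 * (1 - (2 * σ ^ 2 - σ ^ 2 * v ^ 2) * (9 / 10 * (2 * σ ^ 2 - σ ^ 2 * v ^ 2) + 1 / 10)) -
      bm0 * (1 - σ ^ 2 * (9 / 10 * σ ^ 2 + 1 / 10)))
    (w1 : 0 ≤ m1 * (1 - σ ^ 2 * v ^ 2 * (9 / 10 * (σ ^ 2 * v ^ 2) + 1 / 10)) -
      bm1 * (1 - σ ^ 2 * (9 / 10 * σ ^ 2 + 1 / 10))) :
    SideB ρ l4 ku kw m0 m1 b γ ex σ v := by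
  have s0 : 0 < σ := by linarith [hp.s0]
  have s1 := hp.s1
  have s2 : 0 < σ ^ 2 := by positivity
  have b0 : 0 < b := by linarith
  have u0 : 0 < uf (σ ^ 2) := B_uf_pos s2 (by linarith)
  have u1 : 0 < uf (1 - σ ^ 2) := B_uf_pos (by linarith) (by linarith)
  have uh : 0 < 19 / 10 - 9 / 10 * σ ^ 2 := by linarith
  refine ⟨r0, by linarith, by linarith, by linarith, h0, h1, h2, by linarith, g0, by linarith,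
    by linarith, gl, mode, L0, Kap_mono Ku ?_ ?_ le_rfl, Kap_mono Kw ?_ ?_ le_rfl⟩
  · refine (sub_nonneg.1 a0).trans (le_of_eq ?_)
    have e : uf (σ ^ 2) = σ ^ 2 * (19 / 10 - 9 / 10 * σ ^ 2) := by unfold uf; ring
    have e2 : uf (σ ^ 2 + dB σ v) =
        σ ^ 2 * ((2 - v ^ 2) * (19 / 10 - 9 / 10 * (2 * σ ^ 2 - σ ^ 2 * v ^ 2))) := by
      unfold uf dB; ring
    rw [e, e2]
    generalize 19 / 10 - 9 / 10 * σ ^ 2 = y at uh ⊢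
    field_simp
  · refine a1.trans (le_of_eq ?_)
    field_simp
  · rw [le_div_iff₀ u1]
    unfold uf dB
    linarith
  · rw [le_div_iff₀ u1]
    unfold uf dB
    linarith

/-- `BK`: four `KS` (program `b`: `am1 ≥ 0` and the bracket itself is `≥ 0`), `Kap_of_KS` gives `Kap rho am0 am1 ku` and
`Kap rho bm1 bm0 kw`; `Kap_mono` with the facts of `BD` (`uf (σ² + δ) / uf σ² * mu0 = A0`, `2 (bγ) (LB u / b) / u = 2 γ LB`,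
`uf (1 - a) = 1 - a (9/10 a + 1/10)`; in program `b`: `am1 = 0 ≤ 2 γ LB`, `γ = v`; in program `a`: `l4 = 0`). -/
theorem BKD_main {rho l4 ku kw ma0 ma1 ma2 mb0 mb1 mb2 bq0 bq1 bq2 gq0 gq1 gq2 xq0 xq1 xq2 am0 am1 bm0 bm1 σ v : ℝ} (hp : PtB σ v)
    (hK : ∀ s : ℝ, 0 ≤ s → s ≤ 1 → BK.a_Spec rho l4 ku kw ma0 ma1 ma2 mb0 mb1 mb2 bq0 bq1 bq2 gq0 gq1 gq2 xq0 xq1 xq2 am0 am1 bm0 bm1 s ∨
      BK.b_Spec rho l4 ku kw ma0 ma1 ma2 mb0 mb1 mb2 bq0 bq1 bq2 gq0 gq1 gq2 xq0 xq1 xq2 am0 am1 bm0 bm1 s)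
    (hD : BD.a_Spec rho l4 ku kw ma0 ma1 ma2 mb0 mb1 mb2 bq0 bq1 bq2 gq0 gq1 gq2 xq0 xq1 xq2 am0 am1 bm0 bm1 σ v ∨
      BD.b_Spec rho l4 ku kw ma0 ma1 ma2 mb0 mb1 mb2 bq0 bq1 bq2 gq0 gq1 gq2 xq0 xq1 xq2 am0 am1 bm0 bm1 σ v) :
    SideB rho l4 ku kw (af3 ma0 ma1 ma2 σ v) (af3 mb0 mb1 mb2 σ v) (af3 bq0 bq1 bq2 σ v) (af3 gq0 gq1 gq2 σ v) (af3 xq0 xq1 xq2 σ v) σ v := by
  have hKS : KS rho am1 am0 ku ∧ KS rho am0 am1 ku ∧ KS rho bm0 bm1 kw ∧ KS rho bm1 bm0 kw := by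
    have key : ∀ s : ℝ, 0 ≤ s → s ≤ 1 → _ ∧ _ ∧ _ ∧ _ := fun s h0 h1 => by
      rcases hK s h0 h1 with h | h
      · obtain ⟨s2, s3, x2, f2, ry, xp, xm, fr, rfl, rfl, rfl, -, rfl, rfl, rfl, -, rfl, -, rfl,
          c0, c1, c2, c3⟩ := h
        exact ⟨BKm_KS c0, BKm_KS c1, BKm_KS c2, BKm_KS c3⟩
      · obtain ⟨s2, x2, f2, ry, xp, xm, fr, s3, c0, rfl, rfl, -, rfl, rfl, rfl, -, rfl, -, rfl, c1,
          rfl, c2, c3, c4⟩ := h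
        exact ⟨BKm_KS (add_nonneg c0 (mul_nonneg (by positivity) c1)), BKm_KS c2, BKm_KS c3,
          BKm_KS c4⟩
    exact ⟨fun s h0 h1 => (key s h0 h1).1, fun s h0 h1 => (key s h0 h1).2.1,
      fun s h0 h1 => (key s h0 h1).2.2.1, fun s h0 h1 => (key s h0 h1).2.2.2⟩
  have Ku := Kap_of_KS hKS.1 hKS.2.1
  have Kw := Kap_of_KS hKS.2.2.1 hKS.2.2.2
  rcases hD with h | h
  · obtain ⟨mu0, mu1, ex, b, ga, cb, g2, v2, al, a1, a0, w61, w51, uh, iu, A0, LB, W0, w, W1, c0, c1,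
      c2, c3, c4, c5, rfl, c6, rfl, c7, rfl, c8, rfl, c9, rfl, c10, rfl, rfl, c11, rfl, rfl, rfl, rfl,
      rfl, rfl, rfl, p_iu, rfl, rfl, c12, p_30, rfl, c13, rfl, rfl, c14, rfl, c15⟩ := h
    have hl : l4 = 0 := by linarith
    refine BKm_core hp Ku Kw c2 c3 c4 c5 c6 c7 c8 c9 (by unfold af3; linarith) c10 c11 p_30
      (Or.inl hl) ?_ c12 (sub_nonneg.1 c13) c14 c15
    have v0 := hp.v0
    have v2 : v ^ 2 ≤ 1 := pow_le_one₀ hp.v0 hp.v1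
    have a2 : 0 ≤ 19 / 20 - 9 / 20 * (σ ^ 2 * v ^ 2) := by
      nlinarith [hp.s1, sq_nonneg σ, sq_nonneg v]
    exact mul_nonneg (add_nonneg (mul_nonneg (mul_nonneg c7 (mul_nonneg v0 (by linarith)))
      (mul_nonneg a2 (inv_nonneg.2 p_iu.le))) c8) (inv_nonneg.2 p_30.le)
  · obtain ⟨mu0, mu1, ex, b, ga, cb, g2, v2, al, a1, a0, w61, w51, uh, iu, A0, LB, W0, w, W1, c0, c1,
      c2, c3, c4, c5, c6, c7, c8, c9, c10, c11, c12, c13, rfl, c14, rfl, c15, rfl, c16, rfl, c17, rfl,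
      c18, rfl, rfl, c19, rfl, rfl, rfl, rfl, rfl, rfl, rfl, p_iu, rfl, rfl, c20, p_38, rfl, c21, rfl,
      rfl, c22, rfl, c23⟩ := h
    have hg : af3 gq0 gq1 gq2 σ v = v := by
      have e0 : gq0 = 0 := by linarith
      have e1 : gq1 = 0 := by linarith
      have e2 : gq2 = 1 := by linarith
      unfold af3
      rw [e0, e1, e2]
      ring
    have g0 : 0 ≤ af3 gq0 gq1 gq2 σ v := by rw [hg]; exact hp.v0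
    exact BKm_core hp Ku Kw c10 c11 c12 c13 c14 c15 c16 c17 g0 c18 c19 p_38 (Or.inr hg) c21 c20
      (le_trans (by linarith) (mul_nonneg zero_le_two (mul_nonneg g0 c21))) c22 c23

end Crest.Agent.R307
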