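import Crest.Agent.R307.AA

set_option autoImplicit false
set_option maxRecDepth 100000
set_option linter.unusedVariables false

namespace Crest.Agent.R307.BN
open Crest.Agent.R307.AA

noncomputable section

theorem k0 : |2 ^ 48 * (9 / 10 : ℝ) - (((4722366736197124253286 : ℕ) : ℝ) - 2 ^ 72)| ≤ ((1 : ℕ) : ℝ) := by norm_num [abs_le]
theorem k1 : |2 ^ 48 * (1 / 10 : ℝ) - (((4722366511017142884761 : ℕ) : ℝ) - 2 ^ 72)| ≤ ((1 : ℕ) : ℝ) := by norm_num [abs_le]
theorem k2 : |2 ^ 48 * (1 : ℝ) - (((4722366764344621924352 : ℕ) : ℝ) - 2 ^ 72)| ≤ ((0 : ℕ) : ℝ) := by norm_num [abs_le]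
theorem k3 : |2 ^ 48 * (19 / 10 : ℝ) - (((4722367017672100963942 : ℕ) : ℝ) - 2 ^ 72)| ≤ ((1 : ℕ) : ℝ) := by norm_num [abs_le]
theorem k4 : |2 ^ 48 * (2 : ℝ) - (((4722367045819598635008 : ℕ) : ℝ) - 2 ^ 72)| ≤ ((0 : ℕ) : ℝ) := by norm_num [abs_le]
theorem k5 : (2 : ℝ) = val 4722367045819598635008 := by norm_num [val]
theorem k6 : (1 / 2 : ℝ) = val 4722366623607133569024 := by norm_num [val]
theorem k7 : |2 ^ 48 * (9 / 20 : ℝ) - (((4722366609533384733491 : ℕ) : ℝ) - 2 ^ 72)| ≤ ((1 : ℕ) : ℝ) := by norm_num [abs_le]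
theorem k8 : |2 ^ 48 * (19 / 20 : ℝ) - (((4722366750270873088819 : ℕ) : ℝ) - 2 ^ 72)| ≤ ((1 : ℕ) : ℝ) := by norm_num [abs_le]
def a_B10 (gs ps : ℕ) (z92 z110 z7 z154 z199 z248 z330 z322 z324 z302 z306 : AF) : Bool :=
  invK z199 fun z307 =>
  mulK z248 z307 fun z308 =>
  normK z308 fun z309 =>
  mulK z154 z309 fun z310 =>
  subK z306 z310 fun z311 =>
  normK z311 fun z312 =>
  mulK z7 z312 fun z313 =>
  mulK z92 z313 fun z314 =>
  subK z302 z314 fun z315 =>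
  normK z315 fun z325 =>
  mulK z324 z325 fun z326 =>
  addK z322 z326 fun z327 =>
  normK z327 fun z331 =>
  sqrK z331 fun z332 =>
  mulK z110 z332 fun z333 =>
  smulK z333 4722367045819598635008 fun z334 =>
  subK z330 z334 fun z335 =>
  posK z335 <|
  true

def a_R10 (gs ps : ℕ) (z92 z110 z7 z154 z199 z248 z330 z322 z324 z302 z306 : ℝ) : Prop :=
  invR z199 fun z307 =>
  letR (z248 * z307) fun z308 =>
  letR z308 fun z309 =>
  letR (z154 * z309) fun z310 =>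
  letR (z306 - z310) fun z311 =>
  letR z311 fun z312 =>
  letR (z7 * z312) fun z313 =>
  letR (z92 * z313) fun z314 =>
  letR (z302 - z314) fun z315 =>
  letR z315 fun z325 =>
  letR (z324 * z325) fun z326 =>
  letR (z322 + z326) fun z327 =>
  letR z327 fun z331 =>
  letR (z331 ^ 2) fun z332 =>
  letR (z110 * z332) fun z333 =>
  letR ((2 : ℝ) * z333) fun z334 =>
  letR (z330 - z334) fun z335 =>
  posR z335 <|
  True

theorem a_S10 {ε : Fin 4 → ℝ} (gs : ℕ) (hε : ∀ i, |ε i| ≤ 1) (ps : ℕ) (z92 z110 z7 z154 z199 z248 z330 z322 z324 z302 z306 : AF) (t92 t110 t7 t154 t199 t248 t330 t322 t324 t302 t306 : ℝ)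
    (g92 : Rel ε z92 t92) (g110 : Rel ε z110 t110) (g7 : Rel ε z7 t7) (g154 : Rel ε z154 t154) (g199 : Rel ε z199 t199) (g248 : Rel ε z248 t248) (g330 : Rel ε z330 t330) (g322 : Rel ε z322 t322) (g324 : Rel ε z324 t324) (g302 : Rel ε z302 t302) (g306 : Rel ε z306 t306) :
    a_B10 gs ps z92 z110 z7 z154 z199 z248 z330 z322 z324 z302 z306 = true → a_R10 gs ps t92 t110 t7 t154 t199 t248 t330 t322 t324 t302 t306 := by
  delta a_B10 a_R10
  exact invS hε g199 fun z307 t307 g307 =>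
  mulS hε g248 g307 fun z308 t308 g308 =>
  normS g308 fun z309 t309 g309 =>
  mulS hε g154 g309 fun z310 t310 g310 =>
  subS g306 g310 fun z311 t311 g311 =>
  normS g311 fun z312 t312 g312 =>
  mulS hε g7 g312 fun z313 t313 g313 =>
  mulS hε g92 g313 fun z314 t314 g314 =>
  subS g302 g314 fun z315 t315 g315 =>
  normS g315 fun z325 t325 g325 =>
  mulS hε g324 g325 fun z326 t326 g326 =>
  addS g322 g326 fun z327 t327 g327 =>
  normS g327 fun z331 t331 g331 =>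
  sqrS hε g331 fun z332 t332 g332 =>
  mulS hε g110 g332 fun z333 t333 g333 =>
  smulS hε g333 k5 fun z334 t334 g334 =>
  subS g330 g334 fun z335 t335 g335 =>
  posS hε g335 <|
  fun _ => trivial

def a_B9 (gs ps : ℕ) (z92 z134 z110 z60 z328 z138 z163 z180 z249 z89 z166 z7 z140 z182 z255 z142 z184 z258 z146 z192 z232 z150 z194 z236 z152 z197 z242 z154 z199 z248 z320 : AF) : Bool :=
  normK z320 fun z329 =>
  mulK z328 z329 fun z330 =>
  invK z180 fun z276 =>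
  mulK z249 z276 fun z277 =>
  normK z277 fun z278 =>
  mulK z138 z278 fun z279 =>
  invK z163 fun z165 =>
  mulK z166 z165 fun z167 =>
  normK z167 fun z168 =>
  mulK z89 z168 fun z280 =>
  subK z279 z280 fun z281 =>
  invK z182 fun z282 =>
  mulK z255 z282 fun z283 =>
  normK z283 fun z284 =>
  mulK z140 z284 fun z285 =>
  invK z184 fun z286 =>
  mulK z258 z286 fun z287 =>
  normK z287 fun z288 =>
  mulK z142 z288 fun z289 =>
  subK z285 z289 fun z290 =>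
  normK z290 fun z291 =>
  mulK z7 z291 fun z292 =>
  subK z281 z292 fun z293 =>
  normK z293 fun z321 =>
  mulK z60 z321 fun z322 =>
  mulK z110 z134 fun z323 =>
  normK z323 fun z324 =>
  invK z192 fun z294 =>
  mulK z232 z294 fun z295 =>
  normK z295 fun z296 =>
  mulK z146 z296 fun z297 =>
  invK z194 fun z298 =>
  mulK z236 z298 fun z299 =>
  normK z299 fun z300 =>
  mulK z150 z300 fun z301 =>
  subK z297 z301 fun z302 =>
  invK z197 fun z303 =>
  mulK z242 z303 fun z304 =>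
  normK z304 fun z305 =>
  mulK z152 z305 fun z306 =>
  a_B10 gs ps z92 z110 z7 z154 z199 z248 z330 z322 z324 z302 z306

def a_R9 (gs ps : ℕ) (z92 z134 z110 z60 z328 z138 z163 z180 z249 z89 z166 z7 z140 z182 z255 z142 z184 z258 z146 z192 z232 z150 z194 z236 z152 z197 z242 z154 z199 z248 z320 : ℝ) : Prop :=
  letR z320 fun z329 =>
  letR (z328 * z329) fun z330 =>
  invR z180 fun z276 =>
  letR (z249 * z276) fun z277 =>
  letR z277 fun z278 =>
  letR (z138 * z278) fun z279 =>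
  invR z163 fun z165 =>
  letR (z166 * z165) fun z167 =>
  letR z167 fun z168 =>
  letR (z89 * z168) fun z280 =>
  letR (z279 - z280) fun z281 =>
  invR z182 fun z282 =>
  letR (z255 * z282) fun z283 =>
  letR z283 fun z284 =>
  letR (z140 * z284) fun z285 =>
  invR z184 fun z286 =>
  letR (z258 * z286) fun z287 =>
  letR z287 fun z288 =>
  letR (z142 * z288) fun z289 =>
  letR (z285 - z289) fun z290 =>
  letR z290 fun z291 =>
  letR (z7 * z291) fun z292 =>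
  letR (z281 - z292) fun z293 =>
  letR z293 fun z321 =>
  letR (z60 * z321) fun z322 =>
  letR (z110 * z134) fun z323 =>
  letR z323 fun z324 =>
  invR z192 fun z294 =>
  letR (z232 * z294) fun z295 =>
  letR z295 fun z296 =>
  letR (z146 * z296) fun z297 =>
  invR z194 fun z298 =>
  letR (z236 * z298) fun z299 =>
  letR z299 fun z300 =>
  letR (z150 * z300) fun z301 =>
  letR (z297 - z301) fun z302 =>
  invR z197 fun z303 =>
  letR (z242 * z303) fun z304 =>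
  letR z304 fun z305 =>
  letR (z152 * z305) fun z306 =>
  a_R10 gs ps z92 z110 z7 z154 z199 z248 z330 z322 z324 z302 z306

theorem a_S9 {ε : Fin 4 → ℝ} (gs : ℕ) (hε : ∀ i, |ε i| ≤ 1) (ps : ℕ) (z92 z134 z110 z60 z328 z138 z163 z180 z249 z89 z166 z7 z140 z182 z255 z142 z184 z258 z146 z192 z232 z150 z194 z236 z152 z197 z242 z154 z199 z248 z320 : AF) (t92 t134 t110 t60 t328 t138 t163 t180 t249 t89 t166 t7 t140 t182 t255 t142 t184 t258 t146 t192 t232 t150 t194 t236 t152 t197 t242 t154 t199 t248 t320 : ℝ)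
    (g92 : Rel ε z92 t92) (g134 : Rel ε z134 t134) (g110 : Rel ε z110 t110) (g60 : Rel ε z60 t60) (g328 : Rel ε z328 t328) (g138 : Rel ε z138 t138) (g163 : Rel ε z163 t163) (g180 : Rel ε z180 t180) (g249 : Rel ε z249 t249) (g89 : Rel ε z89 t89) (g166 : Rel ε z166 t166) (g7 : Rel ε z7 t7) (g140 : Rel ε z140 t140) (g182 : Rel ε z182 t182) (g255 : Rel ε z255 t255) (g142 : Rel ε z142 t142) (g184 : Rel ε z184 t184) (g258 : Rel ε z258 t258) (g146 : Rel ε z146 t146) (g192 : Rel ε z192 t192) (g232 : Rel ε z232 t232) (g150 : Rel ε z150 t150) (g194 : Rel ε z194 t194) (g236 : Rel ε z236 t236) (g152 : Rel ε z152 t152) (g197 : Rel ε z197 t197) (g242 : Rel ε z242 t242) (g154 : Rel ε z154 t154) (g199 : Rel ε z199 t199) (g248 : Rel ε z248 t248) (g320 : Rel ε z320 t320) :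
    a_B9 gs ps z92 z134 z110 z60 z328 z138 z163 z180 z249 z89 z166 z7 z140 z182 z255 z142 z184 z258 z146 z192 z232 z150 z194 z236 z152 z197 z242 z154 z199 z248 z320 = true → a_R9 gs ps t92 t134 t110 t60 t328 t138 t163 t180 t249 t89 t166 t7 t140 t182 t255 t142 t184 t258 t146 t192 t232 t150 t194 t236 t152 t197 t242 t154 t199 t248 t320 := by
  delta a_B9 a_R9
  exact normS g320 fun z329 t329 g329 =>
  mulS hε g328 g329 fun z330 t330 g330 =>
  invS hε g180 fun z276 t276 g276 =>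
  mulS hε g249 g276 fun z277 t277 g277 =>
  normS g277 fun z278 t278 g278 =>
  mulS hε g138 g278 fun z279 t279 g279 =>
  invS hε g163 fun z165 t165 g165 =>
  mulS hε g166 g165 fun z167 t167 g167 =>
  normS g167 fun z168 t168 g168 =>
  mulS hε g89 g168 fun z280 t280 g280 =>
  subS g279 g280 fun z281 t281 g281 =>
  invS hε g182 fun z282 t282 g282 =>
  mulS hε g255 g282 fun z283 t283 g283 =>
  normS g283 fun z284 t284 g284 =>
  mulS hε g140 g284 fun z285 t285 g285 =>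
  invS hε g184 fun z286 t286 g286 =>
  mulS hε g258 g286 fun z287 t287 g287 =>
  normS g287 fun z288 t288 g288 =>
  mulS hε g142 g288 fun z289 t289 g289 =>
  subS g285 g289 fun z290 t290 g290 =>
  normS g290 fun z291 t291 g291 =>
  mulS hε g7 g291 fun z292 t292 g292 =>
  subS g281 g292 fun z293 t293 g293 =>
  normS g293 fun z321 t321 g321 =>
  mulS hε g60 g321 fun z322 t322 g322 =>
  mulS hε g110 g134 fun z323 t323 g323 =>
  normS g323 fun z324 t324 g324 =>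
  invS hε g192 fun z294 t294 g294 =>
  mulS hε g232 g294 fun z295 t295 g295 =>
  normS g295 fun z296 t296 g296 =>
  mulS hε g146 g296 fun z297 t297 g297 =>
  invS hε g194 fun z298 t298 g298 =>
  mulS hε g236 g298 fun z299 t299 g299 =>
  normS g299 fun z300 t300 g300 =>
  mulS hε g150 g300 fun z301 t301 g301 =>
  subS g297 g301 fun z302 t302 g302 =>
  invS hε g197 fun z303 t303 g303 =>
  mulS hε g242 g303 fun z304 t304 g304 =>
  normS g304 fun z305 t305 g305 =>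
  mulS hε g152 g305 fun z306 t306 g306 =>
  a_S10 gs hε ps z92 z110 z7 z154 z199 z248 z330 z322 z324 z302 z306 t92 t110 t7 t154 t199 t248 t330 t322 t324 t302 t306 g92 g110 g7 g154 g199 g248 g330 g322 g324 g302 g306

def a_B8 (gs ps : ℕ) (z92 z134 z110 z60 z328 z138 z163 z180 z249 z89 z166 z7 z140 z178 z182 z255 z142 z184 z258 z317 z146 z222 z221 z112 z192 z232 z150 z194 z236 z267 z129 z122 : AF) : Bool :=
  subK z129 z122 fun z130 =>
  sqrtK z130 fun z131 =>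
  invK z131 fun z151 =>
  smulK z151 4722366623607133569024 fun z152 =>
  subK z222 z221 fun z223 =>
  normK z223 fun z224 =>
  mulK z7 z224 fun z225 =>
  addK z222 z225 fun z237 =>
  normK z237 fun z240 =>
  rsubK z112 4722366764344621924352 0 fun z195 =>
  mulK z112 z178 fun z187 =>
  normK z187 fun z188 =>
  subK z195 z188 fun z196 =>
  sqrtK z196 fun z197 =>
  addK z197 z131 fun z238 =>
  invK z238 fun z239 =>
  mulK z240 z239 fun z241 =>
  normK z241 fun z242 =>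
  sqrK z242 fun z268 =>
  mulK z152 z268 fun z269 =>
  addK z129 z122 fun z132 =>
  sqrtK z132 fun z133 =>
  invK z133 fun z153 =>
  smulK z153 4722366623607133569024 fun z154 =>
  subK z222 z225 fun z243 =>
  normK z243 fun z246 =>
  addK z195 z188 fun z198 =>
  sqrtK z198 fun z199 =>
  addK z199 z133 fun z244 =>
  invK z244 fun z245 =>
  mulK z246 z245 fun z247 =>
  normK z247 fun z248 =>
  sqrK z248 fun z270 =>
  mulK z154 z270 fun z271 =>
  addK z269 z271 fun z272 =>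
  normK z272 fun z273 =>
  mulK z92 z273 fun z274 =>
  subK z267 z274 fun z275 =>
  normK z275 fun z318 =>
  mulK z134 z318 fun z319 =>
  addK z317 z319 fun z320 =>
  a_B9 gs ps z92 z134 z110 z60 z328 z138 z163 z180 z249 z89 z166 z7 z140 z182 z255 z142 z184 z258 z146 z192 z232 z150 z194 z236 z152 z197 z242 z154 z199 z248 z320

def a_R8 (gs ps : ℕ) (z92 z134 z110 z60 z328 z138 z163 z180 z249 z89 z166 z7 z140 z178 z182 z255 z142 z184 z258 z317 z146 z222 z221 z112 z192 z232 z150 z194 z236 z267 z129 z122 : ℝ) : Prop :=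
  letR (z129 - z122) fun z130 =>
  letR (√z130) fun z131 =>
  invR z131 fun z151 =>
  letR ((1 / 2 : ℝ) * z151) fun z152 =>
  letR (z222 - z221) fun z223 =>
  letR z223 fun z224 =>
  letR (z7 * z224) fun z225 =>
  letR (z222 + z225) fun z237 =>
  letR z237 fun z240 =>
  letR ((1 : ℝ) - z112) fun z195 =>
  letR (z112 * z178) fun z187 =>
  letR z187 fun z188 =>
  letR (z195 - z188) fun z196 =>
  letR (√z196) fun z197 =>
  letR (z197 + z131) fun z238 =>
  invR z238 fun z239 =>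
  letR (z240 * z239) fun z241 =>
  letR z241 fun z242 =>
  letR (z242 ^ 2) fun z268 =>
  letR (z152 * z268) fun z269 =>
  letR (z129 + z122) fun z132 =>
  letR (√z132) fun z133 =>
  invR z133 fun z153 =>
  letR ((1 / 2 : ℝ) * z153) fun z154 =>
  letR (z222 - z225) fun z243 =>
  letR z243 fun z246 =>
  letR (z195 + z188) fun z198 =>
  letR (√z198) fun z199 =>
  letR (z199 + z133) fun z244 =>
  invR z244 fun z245 =>
  letR (z246 * z245) fun z247 =>
  letR z247 fun z248 =>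
  letR (z248 ^ 2) fun z270 =>
  letR (z154 * z270) fun z271 =>
  letR (z269 + z271) fun z272 =>
  letR z272 fun z273 =>
  letR (z92 * z273) fun z274 =>
  letR (z267 - z274) fun z275 =>
  letR z275 fun z318 =>
  letR (z134 * z318) fun z319 =>
  letR (z317 + z319) fun z320 =>
  a_R9 gs ps z92 z134 z110 z60 z328 z138 z163 z180 z249 z89 z166 z7 z140 z182 z255 z142 z184 z258 z146 z192 z232 z150 z194 z236 z152 z197 z242 z154 z199 z248 z320

theorem a_S8 {ε : Fin 4 → ℝ} (gs : ℕ) (hε : ∀ i, |ε i| ≤ 1) (ps : ℕ) (z92 z134 z110 z60 z328 z138 z163 z180 z249 z89 z166 z7 z140 z178 z182 z255 z142 z184 z258 z317 z146 z222 z221 z112 z192 z232 z150 z194 z236 z267 z129 z122 : AF) (t92 t134 t110 t60 t328 t138 t163 t180 t249 t89 t166 t7 t140 t178 t182 t255 t142 t184 t258 t317 t146 t222 t221 t112 t192 t232 t150 t194 t236 t267 t129 t122 : ℝ)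
    (g92 : Rel ε z92 t92) (g134 : Rel ε z134 t134) (g110 : Rel ε z110 t110) (g60 : Rel ε z60 t60) (g328 : Rel ε z328 t328) (g138 : Rel ε z138 t138) (g163 : Rel ε z163 t163) (g180 : Rel ε z180 t180) (g249 : Rel ε z249 t249) (g89 : Rel ε z89 t89) (g166 : Rel ε z166 t166) (g7 : Rel ε z7 t7) (g140 : Rel ε z140 t140) (g178 : Rel ε z178 t178) (g182 : Rel ε z182 t182) (g255 : Rel ε z255 t255) (g142 : Rel ε z142 t142) (g184 : Rel ε z184 t184) (g258 : Rel ε z258 t258) (g317 : Rel ε z317 t317) (g146 : Rel ε z146 t146) (g222 : Rel ε z222 t222) (g221 : Rel ε z221 t221) (g112 : Rel ε z112 t112) (g192 : Rel ε z192 t192) (g232 : Rel ε z232 t232) (g150 : Rel ε z150 t150) (g194 : Rel ε z194 t194) (g236 : Rel ε z236 t236) (g267 : Rel ε z267 t267) (g129 : Rel ε z129 t129) (g122 : Rel ε z122 t122) :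
    a_B8 gs ps z92 z134 z110 z60 z328 z138 z163 z180 z249 z89 z166 z7 z140 z178 z182 z255 z142 z184 z258 z317 z146 z222 z221 z112 z192 z232 z150 z194 z236 z267 z129 z122 = true → a_R8 gs ps t92 t134 t110 t60 t328 t138 t163 t180 t249 t89 t166 t7 t140 t178 t182 t255 t142 t184 t258 t317 t146 t222 t221 t112 t192 t232 t150 t194 t236 t267 t129 t122 := by
  delta a_B8 a_R8
  exact subS g129 g122 fun z130 t130 g130 =>
  sqrtS hε g130 fun z131 t131 g131 =>
  invS hε g131 fun z151 t151 g151 =>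
  smulS hε g151 k6 fun z152 t152 g152 =>
  subS g222 g221 fun z223 t223 g223 =>
  normS g223 fun z224 t224 g224 =>
  mulS hε g7 g224 fun z225 t225 g225 =>
  addS g222 g225 fun z237 t237 g237 =>
  normS g237 fun z240 t240 g240 =>
  rsubS g112 k2 fun z195 t195 g195 =>
  mulS hε g112 g178 fun z187 t187 g187 =>
  normS g187 fun z188 t188 g188 =>
  subS g195 g188 fun z196 t196 g196 =>
  sqrtS hε g196 fun z197 t197 g197 =>
  addS g197 g131 fun z238 t238 g238 =>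
  invS hε g238 fun z239 t239 g239 =>
  mulS hε g240 g239 fun z241 t241 g241 =>
  normS g241 fun z242 t242 g242 =>
  sqrS hε g242 fun z268 t268 g268 =>
  mulS hε g152 g268 fun z269 t269 g269 =>
  addS g129 g122 fun z132 t132 g132 =>
  sqrtS hε g132 fun z133 t133 g133 =>
  invS hε g133 fun z153 t153 g153 =>
  smulS hε g153 k6 fun z154 t154 g154 =>
  subS g222 g225 fun z243 t243 g243 =>
  normS g243 fun z246 t246 g246 =>
  addS g195 g188 fun z198 t198 g198 =>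
  sqrtS hε g198 fun z199 t199 g199 =>
  addS g199 g133 fun z244 t244 g244 =>
  invS hε g244 fun z245 t245 g245 =>
  mulS hε g246 g245 fun z247 t247 g247 =>
  normS g247 fun z248 t248 g248 =>
  sqrS hε g248 fun z270 t270 g270 =>
  mulS hε g154 g270 fun z271 t271 g271 =>
  addS g269 g271 fun z272 t272 g272 =>
  normS g272 fun z273 t273 g273 =>
  mulS hε g92 g273 fun z274 t274 g274 =>
  subS g267 g274 fun z275 t275 g275 =>
  normS g275 fun z318 t318 g318 =>
  mulS hε g134 g318 fun z319 t319 g319 =>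
  addS g317 g319 fun z320 t320 g320 =>
  a_S9 gs hε ps z92 z134 z110 z60 z328 z138 z163 z180 z249 z89 z166 z7 z140 z182 z255 z142 z184 z258 z146 z192 z232 z150 z194 z236 z152 z197 z242 z154 z199 z248 z320 t92 t134 t110 t60 t328 t138 t163 t180 t249 t89 t166 t7 t140 t182 t255 t142 t184 t258 t146 t192 t232 t150 t194 t236 t152 t197 t242 t154 t199 t248 t320 g92 g134 g110 g60 g328 g138 g163 g180 g249 g89 g166 g7 g140 g182 g255 g142 g184 g258 g146 g192 g232 g150 g194 g236 g152 g197 g242 g154 g199 g248 g320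

def a_B7 (gs ps : ℕ) (z92 z105 z134 z110 z60 z328 z52 z138 z163 z180 z249 z75 z89 z166 z7 z109 z140 z178 z182 z255 z142 z184 z258 z317 z120 z146 z222 z221 z112 z186 z192 z232 : AF) : Bool :=
  sqrK z232 fun z263 =>
  mulK z146 z263 fun z264 =>
  mulK (cst 4722366736197124253286 1) z52 fun z98 =>
  addcK z98 4722366511017142884761 1 fun z99 =>
  mulK z52 z99 fun z100 =>
  rsubK z100 4722366764344621924352 0 fun z101 =>
  mulK z75 z101 fun z102 =>
  normK z102 fun z103 =>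
  rsubK z120 4722366764344621924352 0 fun z127 =>
  sqrtK z127 fun z128 =>
  invK z128 fun z147 =>
  smulK z147 4722366623607133569024 fun z148 =>
  mulK z103 z148 fun z149 =>
  normK z149 fun z150 =>
  rsubK z186 4722366764344621924352 0 fun z193 =>
  sqrtK z193 fun z194 =>
  addK z194 z128 fun z233 =>
  invK z233 fun z234 =>
  mulK z221 z234 fun z235 =>
  normK z235 fun z236 =>
  sqrK z236 fun z265 =>
  mulK z150 z265 fun z266 =>
  addK z264 z266 fun z267 =>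
  rsubK z105 4722366764344621924352 0 fun z129 =>
  mulK z105 z109 fun z121 =>
  normK z121 fun z122 =>
  a_B8 gs ps z92 z134 z110 z60 z328 z138 z163 z180 z249 z89 z166 z7 z140 z178 z182 z255 z142 z184 z258 z317 z146 z222 z221 z112 z192 z232 z150 z194 z236 z267 z129 z122

def a_R7 (gs ps : ℕ) (z92 z105 z134 z110 z60 z328 z52 z138 z163 z180 z249 z75 z89 z166 z7 z109 z140 z178 z182 z255 z142 z184 z258 z317 z120 z146 z222 z221 z112 z186 z192 z232 : ℝ) : Prop :=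
  letR (z232 ^ 2) fun z263 =>
  letR (z146 * z263) fun z264 =>
  letR ((9 / 10 : ℝ) * z52) fun z98 =>
  letR (z98 + (1 / 10 : ℝ)) fun z99 =>
  letR (z52 * z99) fun z100 =>
  letR ((1 : ℝ) - z100) fun z101 =>
  letR (z75 * z101) fun z102 =>
  letR z102 fun z103 =>
  letR ((1 : ℝ) - z120) fun z127 =>
  letR (√z127) fun z128 =>
  invR z128 fun z147 =>
  letR ((1 / 2 : ℝ) * z147) fun z148 =>
  letR (z103 * z148) fun z149 =>
  letR z149 fun z150 =>
  letR ((1 : ℝ) - z186) fun z193 =>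
  letR (√z193) fun z194 =>
  letR (z194 + z128) fun z233 =>
  invR z233 fun z234 =>
  letR (z221 * z234) fun z235 =>
  letR z235 fun z236 =>
  letR (z236 ^ 2) fun z265 =>
  letR (z150 * z265) fun z266 =>
  letR (z264 + z266) fun z267 =>
  letR ((1 : ℝ) - z105) fun z129 =>
  letR (z105 * z109) fun z121 =>
  letR z121 fun z122 =>
  a_R8 gs ps z92 z134 z110 z60 z328 z138 z163 z180 z249 z89 z166 z7 z140 z178 z182 z255 z142 z184 z258 z317 z146 z222 z221 z112 z192 z232 z150 z194 z236 z267 z129 z122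

theorem a_S7 {ε : Fin 4 → ℝ} (gs : ℕ) (hε : ∀ i, |ε i| ≤ 1) (ps : ℕ) (z92 z105 z134 z110 z60 z328 z52 z138 z163 z180 z249 z75 z89 z166 z7 z109 z140 z178 z182 z255 z142 z184 z258 z317 z120 z146 z222 z221 z112 z186 z192 z232 : AF) (t92 t105 t134 t110 t60 t328 t52 t138 t163 t180 t249 t75 t89 t166 t7 t109 t140 t178 t182 t255 t142 t184 t258 t317 t120 t146 t222 t221 t112 t186 t192 t232 : ℝ)
    (g92 : Rel ε z92 t92) (g105 : Rel ε z105 t105) (g134 : Rel ε z134 t134) (g110 : Rel ε z110 t110) (g60 : Rel ε z60 t60) (g328 : Rel ε z328 t328) (g52 : Rel ε z52 t52) (g138 : Rel ε z138 t138) (g163 : Rel ε z163 t163) (g180 : Rel ε z180 t180) (g249 : Rel ε z249 t249) (g75 : Rel ε z75 t75) (g89 : Rel ε z89 t89) (g166 : Rel ε z166 t166) (g7 : Rel ε z7 t7) (g109 : Rel ε z109 t109) (g140 : Rel ε z140 t140) (g178 : Rel ε z178 t178) (g182 : Rel ε z182 t182) (g255 : Rel ε z255 t255) (g142 : Rel ε z142 t142) (g184 : Rel ε z184 t184)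 (g258 : Rel ε z258 t258) (g317 : Rel ε z317 t317) (g120 : Rel ε z120 t120) (g146 : Rel ε z146 t146) (g222 : Rel ε z222 t222) (g221 : Rel ε z221 t221) (g112 : Rel ε z112 t112) (g186 : Rel ε z186 t186) (g192 : Rel ε z192 t192) (g232 : Rel ε z232 t232) :
    a_B7 gs ps z92 z105 z134 z110 z60 z328 z52 z138 z163 z180 z249 z75 z89 z166 z7 z109 z140 z178 z182 z255 z142 z184 z258 z317 z120 z146 z222 z221 z112 z186 z192 z232 = true → a_R7 gs ps t92 t105 t134 t110 t60 t328 t52 t138 t163 t180 t249 t75 t89 t166 t7 t109 t140 t178 t182 t255 t142 t184 t258 t317 t120 t146 t222 t221 t112 t186 t192 t232 := by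
  delta a_B7 a_R7
  exact sqrS hε g232 fun z263 t263 g263 =>
  mulS hε g146 g263 fun z264 t264 g264 =>
  mulS hε (cst_rel k0) g52 fun z98 t98 g98 =>
  addcS g98 k1 fun z99 t99 g99 =>
  mulS hε g52 g99 fun z100 t100 g100 =>
  rsubS g100 k2 fun z101 t101 g101 =>
  mulS hε g75 g101 fun z102 t102 g102 =>
  normS g102 fun z103 t103 g103 =>
  rsubS g120 k2 fun z127 t127 g127 =>
  sqrtS hε g127 fun z128 t128 g128 =>
  invS hε g128 fun z147 t147 g147 =>
  smulS hε g147 k6 fun z148 t148 g148 =>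
  mulS hε g103 g148 fun z149 t149 g149 =>
  normS g149 fun z150 t150 g150 =>
  rsubS g186 k2 fun z193 t193 g193 =>
  sqrtS hε g193 fun z194 t194 g194 =>
  addS g194 g128 fun z233 t233 g233 =>
  invS hε g233 fun z234 t234 g234 =>
  mulS hε g221 g234 fun z235 t235 g235 =>
  normS g235 fun z236 t236 g236 =>
  sqrS hε g236 fun z265 t265 g265 =>
  mulS hε g150 g265 fun z266 t266 g266 =>
  addS g264 g266 fun z267 t267 g267 =>
  rsubS g105 k2 fun z129 t129 g129 =>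
  mulS hε g105 g109 fun z121 t121 g121 =>
  normS g121 fun z122 t122 g122 =>
  a_S8 gs hε ps z92 z134 z110 z60 z328 z138 z163 z180 z249 z89 z166 z7 z140 z178 z182 z255 z142 z184 z258 z317 z146 z222 z221 z112 z192 z232 z150 z194 z236 z267 z129 z122 t92 t134 t110 t60 t328 t138 t163 t180 t249 t89 t166 t7 t140 t178 t182 t255 t142 t184 t258 t317 t146 t222 t221 t112 t192 t232 t150 t194 t236 t267 t129 t122 g92 g134 g110 g60 g328 g138 g163 g180 g249 g89 g166 g7 g140 g178 g182 g255 g142 g184 g258 g317 g146 g222 g221 g112 g192 g232 g150 g194 g236 g267 g129 g122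

def a_B6 (gs ps : ℕ) (z92 z105 z134 z110 z111 z60 z328 z52 z45 z107 z138 z163 z175 z176 z180 z249 z75 z89 z166 z7 z109 z140 z178 z182 z255 z142 z184 z258 z317 z96 : AF) : Bool :=
  normK z96 fun z97 =>
  mulK z105 z107 fun z119 =>
  normK z119 fun z120 =>
  smulK z105 4722367045819598635008 fun z123 =>
  subK z120 z123 fun z124 =>
  addcK z124 4722366764344621924352 0 fun z125 =>
  sqrtK z125 fun z126 =>
  invK z126 fun z143 =>
  smulK z143 4722366623607133569024 fun z144 =>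
  mulK z97 z144 fun z145 =>
  normK z145 fun z146 =>
  addcK z110 4722366764344621924352 0 fun z222 =>
  smulK z222 4722367045819598635008 fun z226 =>
  mulK z110 z175 fun z217 =>
  addK z217 z45 fun z218 =>
  normK z218 fun z219 =>
  mulK z166 z219 fun z220 =>
  normK z220 fun z221 =>
  subK z226 z221 fun z227 =>
  normK z227 fun z230 =>
  mulK z105 z111 fun z112 =>
  mulK z112 z176 fun z185 =>
  normK z185 fun z186 =>
  smulK z112 4722367045819598635008 fun z189 =>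
  subK z186 z189 fun z190 =>
  addcK z190 4722366764344621924352 0 fun z191 =>
  sqrtK z191 fun z192 =>
  addK z192 z126 fun z228 =>
  invK z228 fun z229 =>
  mulK z230 z229 fun z231 =>
  normK z231 fun z232 =>
  a_B7 gs ps z92 z105 z134 z110 z60 z328 z52 z138 z163 z180 z249 z75 z89 z166 z7 z109 z140 z178 z182 z255 z142 z184 z258 z317 z120 z146 z222 z221 z112 z186 z192 z232

def a_R6 (gs ps : ℕ) (z92 z105 z134 z110 z111 z60 z328 z52 z45 z107 z138 z163 z175 z176 z180 z249 z75 z89 z166 z7 z109 z140 z178 z182 z255 z142 z184 z258 z317 z96 : ℝ) : Prop :=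
  letR z96 fun z97 =>
  letR (z105 * z107) fun z119 =>
  letR z119 fun z120 =>
  letR ((2 : ℝ) * z105) fun z123 =>
  letR (z120 - z123) fun z124 =>
  letR (z124 + (1 : ℝ)) fun z125 =>
  letR (√z125) fun z126 =>
  invR z126 fun z143 =>
  letR ((1 / 2 : ℝ) * z143) fun z144 =>
  letR (z97 * z144) fun z145 =>
  letR z145 fun z146 =>
  letR (z110 + (1 : ℝ)) fun z222 =>
  letR ((2 : ℝ) * z222) fun z226 =>
  letR (z110 * z175) fun z217 =>
  letR (z217 + z45) fun z218 =>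
  letR z218 fun z219 =>
  letR (z166 * z219) fun z220 =>
  letR z220 fun z221 =>
  letR (z226 - z221) fun z227 =>
  letR z227 fun z230 =>
  letR (z105 * z111) fun z112 =>
  letR (z112 * z176) fun z185 =>
  letR z185 fun z186 =>
  letR ((2 : ℝ) * z112) fun z189 =>
  letR (z186 - z189) fun z190 =>
  letR (z190 + (1 : ℝ)) fun z191 =>
  letR (√z191) fun z192 =>
  letR (z192 + z126) fun z228 =>
  invR z228 fun z229 =>
  letR (z230 * z229) fun z231 =>
  letR z231 fun z232 =>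
  a_R7 gs ps z92 z105 z134 z110 z60 z328 z52 z138 z163 z180 z249 z75 z89 z166 z7 z109 z140 z178 z182 z255 z142 z184 z258 z317 z120 z146 z222 z221 z112 z186 z192 z232

theorem a_S6 {ε : Fin 4 → ℝ} (gs : ℕ) (hε : ∀ i, |ε i| ≤ 1) (ps : ℕ) (z92 z105 z134 z110 z111 z60 z328 z52 z45 z107 z138 z163 z175 z176 z180 z249 z75 z89 z166 z7 z109 z140 z178 z182 z255 z142 z184 z258 z317 z96 : AF) (t92 t105 t134 t110 t111 t60 t328 t52 t45 t107 t138 t163 t175 t176 t180 t249 t75 t89 t166 t7 t109 t140 t178 t182 t255 t142 t184 t258 t317 t96 : ℝ)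
    (g92 : Rel ε z92 t92) (g105 : Rel ε z105 t105) (g134 : Rel ε z134 t134) (g110 : Rel ε z110 t110) (g111 : Rel ε z111 t111) (g60 : Rel ε z60 t60) (g328 : Rel ε z328 t328) (g52 : Rel ε z52 t52) (g45 : Rel ε z45 t45) (g107 : Rel ε z107 t107) (g138 : Rel ε z138 t138) (g163 : Rel ε z163 t163) (g175 : Rel ε z175 t175) (g176 : Rel ε z176 t176) (g180 : Rel ε z180 t180) (g249 : Rel ε z249 t249) (g75 : Rel ε z75 t75) (g89 : Rel ε z89 t89) (g166 : Rel ε z166 t166) (g7 : Rel ε z7 t7) (g109 : Rel ε z109 t109) (g140 : Rel ε z140 t140) (g178 : Rel ε z178 t178) (g182 : Rel ε z182 t182) (g255 : Rel ε z255 t255) (g142 : Rel ε z142 t142) (g184 : Rel ε z184 t184) (g258 : Rel ε z258 t258) (g317 : Rel ε z317 t317) (g96 : Rel ε z96 t96) :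
    a_B6 gs ps z92 z105 z134 z110 z111 z60 z328 z52 z45 z107 z138 z163 z175 z176 z180 z249 z75 z89 z166 z7 z109 z140 z178 z182 z255 z142 z184 z258 z317 z96 = true → a_R6 gs ps t92 t105 t134 t110 t111 t60 t328 t52 t45 t107 t138 t163 t175 t176 t180 t249 t75 t89 t166 t7 t109 t140 t178 t182 t255 t142 t184 t258 t317 t96 := by
  delta a_B6 a_R6
  exact normS g96 fun z97 t97 g97 =>
  mulS hε g105 g107 fun z119 t119 g119 =>
  normS g119 fun z120 t120 g120 =>
  smulS hε g105 k5 fun z123 t123 g123 =>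
  subS g120 g123 fun z124 t124 g124 =>
  addcS g124 k2 fun z125 t125 g125 =>
  sqrtS hε g125 fun z126 t126 g126 =>
  invS hε g126 fun z143 t143 g143 =>
  smulS hε g143 k6 fun z144 t144 g144 =>
  mulS hε g97 g144 fun z145 t145 g145 =>
  normS g145 fun z146 t146 g146 =>
  addcS g110 k2 fun z222 t222 g222 =>
  smulS hε g222 k5 fun z226 t226 g226 =>
  mulS hε g110 g175 fun z217 t217 g217 =>
  addS g217 g45 fun z218 t218 g218 =>
  normS g218 fun z219 t219 g219 =>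
  mulS hε g166 g219 fun z220 t220 g220 =>
  normS g220 fun z221 t221 g221 =>
  subS g226 g221 fun z227 t227 g227 =>
  normS g227 fun z230 t230 g230 =>
  mulS hε g105 g111 fun z112 t112 g112 =>
  mulS hε g112 g176 fun z185 t185 g185 =>
  normS g185 fun z186 t186 g186 =>
  smulS hε g112 k5 fun z189 t189 g189 =>
  subS g186 g189 fun z190 t190 g190 =>
  addcS g190 k2 fun z191 t191 g191 =>
  sqrtS hε g191 fun z192 t192 g192 =>
  addS g192 g126 fun z228 t228 g228 =>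
  invS hε g228 fun z229 t229 g229 =>
  mulS hε g230 g229 fun z231 t231 g231 =>
  normS g231 fun z232 t232 g232 =>
  a_S7 gs hε ps z92 z105 z134 z110 z60 z328 z52 z138 z163 z180 z249 z75 z89 z166 z7 z109 z140 z178 z182 z255 z142 z184 z258 z317 z120 z146 z222 z221 z112 z186 z192 z232 t92 t105 t134 t110 t60 t328 t52 t138 t163 t180 t249 t75 t89 t166 t7 t109 t140 t178 t182 t255 t142 t184 t258 t317 t120 t146 t222 t221 t112 t186 t192 t232 g92 g105 g134 g110 g60 g328 g52 g138 g163 g180 g249 g75 g89 g166 g7 g109 g140 g178 g182 g255 g142 g184 g258 g317 g120 g146 g222 g221 g112 g186 g192 g232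

def a_B5 (gs ps : ℕ) (z92 z105 z134 z110 z111 z60 z328 z62 z52 z65 z66 z45 z107 z138 z163 z175 z176 z180 z203 z249 z75 z89 z166 z254 : AF) : Bool :=
  parK gs 0 fun z7 =>
  rsubK z107 4722366764344621924352 0 fun z108 =>
  mulK z7 z108 fun z109 =>
  addcK z109 4722366764344621924352 0 fun z115 =>
  sqrtK z115 fun z116 =>
  invK z116 fun z139 =>
  smulK z139 4722366623607133569024 fun z140 =>
  rsubK z176 4722366764344621924352 0 fun z177 =>
  mulK z7 z177 fun z178 =>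
  addcK z178 4722366764344621924352 0 fun z181 =>
  sqrtK z181 fun z182 =>
  mulK z7 z203 fun z204 =>
  addK z182 z116 fun z209 =>
  invK z209 fun z210 =>
  mulK z204 z210 fun z211 =>
  subK z182 z211 fun z212 =>
  normK z212 fun z255 =>
  sqrK z255 fun z256 =>
  mulK z140 z256 fun z257 =>
  rsubK z109 4722366764344621924352 0 fun z117 =>
  sqrtK z117 fun z118 =>
  invK z118 fun z141 =>
  smulK z141 4722366623607133569024 fun z142 =>
  rsubK z178 4722366764344621924352 0 fun z183 =>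
  sqrtK z183 fun z184 =>
  addK z184 z118 fun z213 =>
  invK z213 fun z214 =>
  mulK z204 z214 fun z215 =>
  addK z184 z215 fun z216 =>
  normK z216 fun z258 =>
  sqrK z258 fun z259 =>
  mulK z142 z259 fun z260 =>
  addK z257 z260 fun z261 =>
  subK z254 z261 fun z262 =>
  normK z262 fun z316 =>
  mulK z60 z316 fun z317 =>
  addcK z66 4722366511017142884761 1 fun z93 =>
  mulK z65 z93 fun z94 =>
  rsubK z94 4722366764344621924352 0 fun z95 =>
  mulK z62 z95 fun z96 =>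
  a_B6 gs ps z92 z105 z134 z110 z111 z60 z328 z52 z45 z107 z138 z163 z175 z176 z180 z249 z75 z89 z166 z7 z109 z140 z178 z182 z255 z142 z184 z258 z317 z96

def a_R5 (gs ps : ℕ) (z92 z105 z134 z110 z111 z60 z328 z62 z52 z65 z66 z45 z107 z138 z163 z175 z176 z180 z203 z249 z75 z89 z166 z254 : ℝ) : Prop :=
  letR (parV gs 0) fun z7 =>
  letR ((1 : ℝ) - z107) fun z108 =>
  letR (z7 * z108) fun z109 =>
  letR (z109 + (1 : ℝ)) fun z115 =>
  letR (√z115) fun z116 =>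
  invR z116 fun z139 =>
  letR ((1 / 2 : ℝ) * z139) fun z140 =>
  letR ((1 : ℝ) - z176) fun z177 =>
  letR (z7 * z177) fun z178 =>
  letR (z178 + (1 : ℝ)) fun z181 =>
  letR (√z181) fun z182 =>
  letR (z7 * z203) fun z204 =>
  letR (z182 + z116) fun z209 =>
  invR z209 fun z210 =>
  letR (z204 * z210) fun z211 =>
  letR (z182 - z211) fun z212 =>
  letR z212 fun z255 =>
  letR (z255 ^ 2) fun z256 =>
  letR (z140 * z256) fun z257 =>
  letR ((1 : ℝ) - z109) fun z117 =>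
  letR (√z117) fun z118 =>
  invR z118 fun z141 =>
  letR ((1 / 2 : ℝ) * z141) fun z142 =>
  letR ((1 : ℝ) - z178) fun z183 =>
  letR (√z183) fun z184 =>
  letR (z184 + z118) fun z213 =>
  invR z213 fun z214 =>
  letR (z204 * z214) fun z215 =>
  letR (z184 + z215) fun z216 =>
  letR z216 fun z258 =>
  letR (z258 ^ 2) fun z259 =>
  letR (z142 * z259) fun z260 =>
  letR (z257 + z260) fun z261 =>
  letR (z254 - z261) fun z262 =>
  letR z262 fun z316 =>
  letR (z60 * z316) fun z317 =>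
  letR (z66 + (1 / 10 : ℝ)) fun z93 =>
  letR (z65 * z93) fun z94 =>
  letR ((1 : ℝ) - z94) fun z95 =>
  letR (z62 * z95) fun z96 =>
  a_R6 gs ps z92 z105 z134 z110 z111 z60 z328 z52 z45 z107 z138 z163 z175 z176 z180 z249 z75 z89 z166 z7 z109 z140 z178 z182 z255 z142 z184 z258 z317 z96

theorem a_S5 {ε : Fin 4 → ℝ} (gs : ℕ) (hε : ∀ i, |ε i| ≤ 1) (ps : ℕ) (z92 z105 z134 z110 z111 z60 z328 z62 z52 z65 z66 z45 z107 z138 z163 z175 z176 z180 z203 z249 z75 z89 z166 z254 : AF) (t92 t105 t134 t110 t111 t60 t328 t62 t52 t65 t66 t45 t107 t138 t163 t175 t176 t180 t203 t249 t75 t89 t166 t254 : ℝ)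
    (g92 : Rel ε z92 t92) (g105 : Rel ε z105 t105) (g134 : Rel ε z134 t134) (g110 : Rel ε z110 t110) (g111 : Rel ε z111 t111) (g60 : Rel ε z60 t60) (g328 : Rel ε z328 t328) (g62 : Rel ε z62 t62) (g52 : Rel ε z52 t52) (g65 : Rel ε z65 t65) (g66 : Rel ε z66 t66) (g45 : Rel ε z45 t45) (g107 : Rel ε z107 t107) (g138 : Rel ε z138 t138) (g163 : Rel ε z163 t163) (g175 : Rel ε z175 t175) (g176 : Rel ε z176 t176) (g180 : Rel ε z180 t180) (g203 : Rel ε z203 t203) (g249 : Rel ε z249 t249) (g75 : Rel ε z75 t75) (g89 : Rel ε z89 t89) (g166 : Rel ε z166 t166) (g254 : Rel ε z254 t254) :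
    a_B5 gs ps z92 z105 z134 z110 z111 z60 z328 z62 z52 z65 z66 z45 z107 z138 z163 z175 z176 z180 z203 z249 z75 z89 z166 z254 = true → a_R5 gs ps t92 t105 t134 t110 t111 t60 t328 t62 t52 t65 t66 t45 t107 t138 t163 t175 t176 t180 t203 t249 t75 t89 t166 t254 := by
  delta a_B5 a_R5
  exact parS fun z7 t7 g7 =>
  rsubS g107 k2 fun z108 t108 g108 =>
  mulS hε g7 g108 fun z109 t109 g109 =>
  addcS g109 k2 fun z115 t115 g115 =>
  sqrtS hε g115 fun z116 t116 g116 =>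
  invS hε g116 fun z139 t139 g139 =>
  smulS hε g139 k6 fun z140 t140 g140 =>
  rsubS g176 k2 fun z177 t177 g177 =>
  mulS hε g7 g177 fun z178 t178 g178 =>
  addcS g178 k2 fun z181 t181 g181 =>
  sqrtS hε g181 fun z182 t182 g182 =>
  mulS hε g7 g203 fun z204 t204 g204 =>
  addS g182 g116 fun z209 t209 g209 =>
  invS hε g209 fun z210 t210 g210 =>
  mulS hε g204 g210 fun z211 t211 g211 =>
  subS g182 g211 fun z212 t212 g212 =>
  normS g212 fun z255 t255 g255 =>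
  sqrS hε g255 fun z256 t256 g256 =>
  mulS hε g140 g256 fun z257 t257 g257 =>
  rsubS g109 k2 fun z117 t117 g117 =>
  sqrtS hε g117 fun z118 t118 g118 =>
  invS hε g118 fun z141 t141 g141 =>
  smulS hε g141 k6 fun z142 t142 g142 =>
  rsubS g178 k2 fun z183 t183 g183 =>
  sqrtS hε g183 fun z184 t184 g184 =>
  addS g184 g118 fun z213 t213 g213 =>
  invS hε g213 fun z214 t214 g214 =>
  mulS hε g204 g214 fun z215 t215 g215 =>
  addS g184 g215 fun z216 t216 g216 =>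
  normS g216 fun z258 t258 g258 =>
  sqrS hε g258 fun z259 t259 g259 =>
  mulS hε g142 g259 fun z260 t260 g260 =>
  addS g257 g260 fun z261 t261 g261 =>
  subS g254 g261 fun z262 t262 g262 =>
  normS g262 fun z316 t316 g316 =>
  mulS hε g60 g316 fun z317 t317 g317 =>
  addcS g66 k1 fun z93 t93 g93 =>
  mulS hε g65 g93 fun z94 t94 g94 =>
  rsubS g94 k2 fun z95 t95 g95 =>
  mulS hε g62 g95 fun z96 t96 g96 =>
  a_S6 gs hε ps z92 z105 z134 z110 z111 z60 z328 z52 z45 z107 z138 z163 z175 z176 z180 z249 z75 z89 z166 z7 z109 z140 z178 z182 z255 z142 z184 z258 z317 z96 t92 t105 t134 t110 t111 t60 t328 t52 t45 t107 t138 t163 t175 t176 t180 t249 t75 t89 t166 t7 t109 t140 t178 t182 t255 t142 t184 t258 t317 t96 g92 g105 g134 g110 g111 g60 g328 g52 g45 g107 g138 g163 g175 g176 g180 g249 g75 g89 g166 g7 g109 g140 g178 g182 g255 g142 g184 g258 g317 g96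

def a_B4 (gs ps : ℕ) (x0 x1 z92 z105 z134 z110 z111 z60 z328 z62 z52 z65 z66 z58 z45 z107 z138 z160 z163 z175 z176 z180 z203 z249 z251 z75 : AF) : Bool :=
  parK gs 1 fun z8 =>
  addK x1 z8 fun z72 =>
  normK z72 fun z73 =>
  mulK x1 z73 fun z74 =>
  mulK z75 z74 fun z76 =>
  normK z76 fun z77 =>
  mulK (cst 4722366609533384733491 1) z52 fun z79 =>
  rsubK z79 4722366750270873088819 1 fun z80 =>
  mulK z80 z58 fun z81 =>
  normK z81 fun z82 =>
  mulK z77 z82 fun z83 =>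
  parK gs 16 fun z23 =>
  parK gs 17 fun z24 =>
  mulK z24 x0 fun z46 =>
  addK z23 z46 fun z47 =>
  parK gs 18 fun z25 =>
  mulK z25 x1 fun z48 =>
  addK z47 z48 fun z49 =>
  addK z83 z49 fun z84 =>
  normK z84 fun z87 =>
  addK z45 z8 fun z85 =>
  invK z85 fun z86 =>
  mulK z87 z86 fun z88 =>
  normK z88 fun z89 =>
  addK z163 z160 fun z164 =>
  normK z164 fun z166 =>
  sqrK z166 fun z252 =>
  mulK z89 z252 fun z253 =>
  addK z251 z253 fun z254 =>
  a_B5 gs ps z92 z105 z134 z110 z111 z60 z328 z62 z52 z65 z66 z45 z107 z138 z163 z175 z176 z180 z203 z249 z75 z89 z166 z254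

def a_R4 (gs ps : ℕ) (sg v z92 z105 z134 z110 z111 z60 z328 z62 z52 z65 z66 z58 z45 z107 z138 z160 z163 z175 z176 z180 z203 z249 z251 z75 : ℝ) : Prop :=
  letR (parV gs 1) fun z8 =>
  letR (v + z8) fun z72 =>
  letR z72 fun z73 =>
  letR (v * z73) fun z74 =>
  letR (z75 * z74) fun z76 =>
  letR z76 fun z77 =>
  letR ((9 / 20 : ℝ) * z52) fun z79 =>
  letR ((19 / 20 : ℝ) - z79) fun z80 =>
  letR (z80 * z58) fun z81 =>
  letR z81 fun z82 =>
  letR (z77 * z82) fun z83 =>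
  letR (parV gs 16) fun z23 =>
  letR (parV gs 17) fun z24 =>
  letR (z24 * sg) fun z46 =>
  letR (z23 + z46) fun z47 =>
  letR (parV gs 18) fun z25 =>
  letR (z25 * v) fun z48 =>
  letR (z47 + z48) fun z49 =>
  letR (z83 + z49) fun z84 =>
  letR z84 fun z87 =>
  letR (z45 + z8) fun z85 =>
  invR z85 fun z86 =>
  letR (z87 * z86) fun z88 =>
  letR z88 fun z89 =>
  letR (z163 + z160) fun z164 =>
  letR z164 fun z166 =>
  letR (z166 ^ 2) fun z252 =>
  letR (z89 * z252) fun z253 =>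
  letR (z251 + z253) fun z254 =>
  a_R5 gs ps z92 z105 z134 z110 z111 z60 z328 z62 z52 z65 z66 z45 z107 z138 z163 z175 z176 z180 z203 z249 z75 z89 z166 z254

theorem a_S4 {ε : Fin 4 → ℝ} (gs : ℕ) (hε : ∀ i, |ε i| ≤ 1) (ps : ℕ) (x0 x1 z92 z105 z134 z110 z111 z60 z328 z62 z52 z65 z66 z58 z45 z107 z138 z160 z163 z175 z176 z180 z203 z249 z251 z75 : AF) (sg v t92 t105 t134 t110 t111 t60 t328 t62 t52 t65 t66 t58 t45 t107 t138 t160 t163 t175 t176 t180 t203 t249 t251 t75 : ℝ)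
    (h0 : Rel ε x0 sg) (h1 : Rel ε x1 v) (g92 : Rel ε z92 t92) (g105 : Rel ε z105 t105) (g134 : Rel ε z134 t134) (g110 : Rel ε z110 t110) (g111 : Rel ε z111 t111) (g60 : Rel ε z60 t60) (g328 : Rel ε z328 t328) (g62 : Rel ε z62 t62) (g52 : Rel ε z52 t52) (g65 : Rel ε z65 t65) (g66 : Rel ε z66 t66) (g58 : Rel ε z58 t58) (g45 : Rel ε z45 t45) (g107 : Rel ε z107 t107) (g138 : Rel ε z138 t138) (g160 : Rel ε z160 t160) (g163 : Rel ε z163 t163) (g175 : Rel ε z175 t175) (g176 : Rel ε z176 t176) (g180 : Rel ε z180 t180) (g203 : Rel ε z203 t203) (g249 : Rel ε z249 t249) (g251 : Rel ε z251 t251) (g75 : Rel ε z75 t75) :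
    a_B4 gs ps x0 x1 z92 z105 z134 z110 z111 z60 z328 z62 z52 z65 z66 z58 z45 z107 z138 z160 z163 z175 z176 z180 z203 z249 z251 z75 = true → a_R4 gs ps sg v t92 t105 t134 t110 t111 t60 t328 t62 t52 t65 t66 t58 t45 t107 t138 t160 t163 t175 t176 t180 t203 t249 t251 t75 := by
  delta a_B4 a_R4
  exact parS fun z8 t8 g8 =>
  addS h1 g8 fun z72 t72 g72 =>
  normS g72 fun z73 t73 g73 =>
  mulS hε h1 g73 fun z74 t74 g74 =>
  mulS hε g75 g74 fun z76 t76 g76 =>
  normS g76 fun z77 t77 g77 =>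
  mulS hε (cst_rel k7) g52 fun z79 t79 g79 =>
  rsubS g79 k8 fun z80 t80 g80 =>
  mulS hε g80 g58 fun z81 t81 g81 =>
  normS g81 fun z82 t82 g82 =>
  mulS hε g77 g82 fun z83 t83 g83 =>
  parS fun z23 t23 g23 =>
  parS fun z24 t24 g24 =>
  mulS hε g24 h0 fun z46 t46 g46 =>
  addS g23 g46 fun z47 t47 g47 =>
  parS fun z25 t25 g25 =>
  mulS hε g25 h1 fun z48 t48 g48 =>
  addS g47 g48 fun z49 t49 g49 =>
  addS g83 g49 fun z84 t84 g84 =>
  normS g84 fun z87 t87 g87 =>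
  addS g45 g8 fun z85 t85 g85 =>
  invS hε g85 fun z86 t86 g86 =>
  mulS hε g87 g86 fun z88 t88 g88 =>
  normS g88 fun z89 t89 g89 =>
  addS g163 g160 fun z164 t164 g164 =>
  normS g164 fun z166 t166 g166 =>
  sqrS hε g166 fun z252 t252 g252 =>
  mulS hε g89 g252 fun z253 t253 g253 =>
  addS g251 g253 fun z254 t254 g254 =>
  a_S5 gs hε ps z92 z105 z134 z110 z111 z60 z328 z62 z52 z65 z66 z45 z107 z138 z163 z175 z176 z180 z203 z249 z75 z89 z166 z254 t92 t105 t134 t110 t111 t60 t328 t62 t52 t65 t66 t45 t107 t138 t163 t175 t176 t180 t203 t249 t75 t89 t166 t254 g92 g105 g134 g110 g111 g60 g328 g62 g52 g65 g66 g45 g107 g138 g163 g175 g176 g180 g203 g249 g75 g89 g166 g254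

def a_B3 (gs ps : ℕ) (x0 x1 x2 z92 z105 z134 z110 z111 z60 z328 z62 z52 z65 z66 z58 z45 z107 z114 z138 z160 : AF) : Bool :=
  normK z160 fun z161 =>
  mulK x2 z161 fun z162 =>
  addK z162 z45 fun z163 =>
  normK z163 fun z175 =>
  sqrK z175 fun z176 =>
  rsubK z176 4722367045819598635008 0 fun z179 =>
  sqrtK z179 fun z180 =>
  addK z163 z45 fun z200 =>
  normK z200 fun z201 =>
  mulK z161 z201 fun z202 =>
  normK z202 fun z203 =>
  addK z180 z114 fun z205 =>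
  invK z205 fun z206 =>
  mulK z203 z206 fun z207 =>
  subK z180 z207 fun z208 =>
  normK z208 fun z249 =>
  sqrK z249 fun z250 =>
  mulK z138 z250 fun z251 =>
  parK gs 7 fun z14 =>
  parK gs 8 fun z15 =>
  mulK z15 x0 fun z34 =>
  addK z14 z34 fun z35 =>
  parK gs 9 fun z16 =>
  mulK z16 x1 fun z36 =>
  addK z35 z36 fun z37 =>
  normK z37 fun z75 =>
  a_B4 gs ps x0 x1 z92 z105 z134 z110 z111 z60 z328 z62 z52 z65 z66 z58 z45 z107 z138 z160 z163 z175 z176 z180 z203 z249 z251 z75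

def a_R3 (gs ps : ℕ) (sg v e z92 z105 z134 z110 z111 z60 z328 z62 z52 z65 z66 z58 z45 z107 z114 z138 z160 : ℝ) : Prop :=
  letR z160 fun z161 =>
  letR (e * z161) fun z162 =>
  letR (z162 + z45) fun z163 =>
  letR z163 fun z175 =>
  letR (z175 ^ 2) fun z176 =>
  letR ((2 : ℝ) - z176) fun z179 =>
  letR (√z179) fun z180 =>
  letR (z163 + z45) fun z200 =>
  letR z200 fun z201 =>
  letR (z161 * z201) fun z202 =>
  letR z202 fun z203 =>
  letR (z180 + z114) fun z205 =>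
  invR z205 fun z206 =>
  letR (z203 * z206) fun z207 =>
  letR (z180 - z207) fun z208 =>
  letR z208 fun z249 =>
  letR (z249 ^ 2) fun z250 =>
  letR (z138 * z250) fun z251 =>
  letR (parV gs 7) fun z14 =>
  letR (parV gs 8) fun z15 =>
  letR (z15 * sg) fun z34 =>
  letR (z14 + z34) fun z35 =>
  letR (parV gs 9) fun z16 =>
  letR (z16 * v) fun z36 =>
  letR (z35 + z36) fun z37 =>
  letR z37 fun z75 =>
  a_R4 gs ps sg v z92 z105 z134 z110 z111 z60 z328 z62 z52 z65 z66 z58 z45 z107 z138 z160 z163 z175 z176 z180 z203 z249 z251 z75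

theorem a_S3 {ε : Fin 4 → ℝ} (gs : ℕ) (hε : ∀ i, |ε i| ≤ 1) (ps : ℕ) (x0 x1 x2 z92 z105 z134 z110 z111 z60 z328 z62 z52 z65 z66 z58 z45 z107 z114 z138 z160 : AF) (sg v e t92 t105 t134 t110 t111 t60 t328 t62 t52 t65 t66 t58 t45 t107 t114 t138 t160 : ℝ)
    (h0 : Rel ε x0 sg) (h1 : Rel ε x1 v) (h2 : Rel ε x2 e) (g92 : Rel ε z92 t92) (g105 : Rel ε z105 t105) (g134 : Rel ε z134 t134) (g110 : Rel ε z110 t110) (g111 : Rel ε z111 t111) (g60 : Rel ε z60 t60) (g328 : Rel ε z328 t328) (g62 : Rel ε z62 t62) (g52 : Rel ε z52 t52) (g65 : Rel ε z65 t65) (g66 : Rel ε z66 t66) (g58 : Rel ε z58 t58) (g45 : Rel ε z45 t45) (g107 : Rel ε z107 t107) (g114 : Rel ε z114 t114) (g138 : Rel ε z138 t138) (g160 : Rel ε z160 t160) :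
    a_B3 gs ps x0 x1 x2 z92 z105 z134 z110 z111 z60 z328 z62 z52 z65 z66 z58 z45 z107 z114 z138 z160 = true → a_R3 gs ps sg v e t92 t105 t134 t110 t111 t60 t328 t62 t52 t65 t66 t58 t45 t107 t114 t138 t160 := by
  delta a_B3 a_R3
  exact normS g160 fun z161 t161 g161 =>
  mulS hε h2 g161 fun z162 t162 g162 =>
  addS g162 g45 fun z163 t163 g163 =>
  normS g163 fun z175 t175 g175 =>
  sqrS hε g175 fun z176 t176 g176 =>
  rsubS g176 k4 fun z179 t179 g179 =>
  sqrtS hε g179 fun z180 t180 g180 =>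
  addS g163 g45 fun z200 t200 g200 =>
  normS g200 fun z201 t201 g201 =>
  mulS hε g161 g201 fun z202 t202 g202 =>
  normS g202 fun z203 t203 g203 =>
  addS g180 g114 fun z205 t205 g205 =>
  invS hε g205 fun z206 t206 g206 =>
  mulS hε g203 g206 fun z207 t207 g207 =>
  subS g180 g207 fun z208 t208 g208 =>
  normS g208 fun z249 t249 g249 =>
  sqrS hε g249 fun z250 t250 g250 =>
  mulS hε g138 g250 fun z251 t251 g251 =>
  parS fun z14 t14 g14 =>
  parS fun z15 t15 g15 =>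
  mulS hε g15 h0 fun z34 t34 g34 =>
  addS g14 g34 fun z35 t35 g35 =>
  parS fun z16 t16 g16 =>
  mulS hε g16 h1 fun z36 t36 g36 =>
  addS g35 g36 fun z37 t37 g37 =>
  normS g37 fun z75 t75 g75 =>
  a_S4 gs hε ps x0 x1 z92 z105 z134 z110 z111 z60 z328 z62 z52 z65 z66 z58 z45 z107 z138 z160 z163 z175 z176 z180 z203 z249 z251 z75 sg v t92 t105 t134 t110 t111 t60 t328 t62 t52 t65 t66 t58 t45 t107 t138 t160 t163 t175 t176 t180 t203 t249 t251 t75 h0 h1 g92 g105 g134 g110 g111 g60 g328 g62 g52 g65 g66 g58 g45 g107 g138 g160 g163 g175 g176 g180 g203 g249 g251 g75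

def a_B2 (gs ps : ℕ) (x0 x1 x2 z3 z4 z5 z6 z92 z105 z134 z110 z111 z57 z60 z328 z62 z64 z52 z65 : AF) : Bool :=
  mulK (cst 4722366736197124253286 1) z65 fun z66 =>
  rsubK z66 4722367017672100963942 1 fun z67 =>
  invK z57 fun z58 =>
  mulK z67 z58 fun z68 =>
  normK z68 fun z69 =>
  mulK z64 z69 fun z70 =>
  normK z70 fun z71 =>
  parK gs 13 fun z20 =>
  parK gs 14 fun z21 =>
  mulK z21 x0 fun z42 =>
  addK z20 z42 fun z43 =>
  parK gs 15 fun z22 =>
  mulK z22 x1 fun z44 =>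
  addK z43 z44 fun z45 =>
  normK z45 fun z106 =>
  sqrK z106 fun z107 =>
  rsubK z107 4722367045819598635008 0 fun z113 =>
  sqrtK z113 fun z114 =>
  invK z114 fun z135 =>
  smulK z135 4722366623607133569024 fun z136 =>
  mulK z71 z136 fun z137 =>
  normK z137 fun z138 =>
  mulK z4 x0 fun z155 =>
  addK z3 z155 fun z156 =>
  mulK z5 x1 fun z157 =>
  addK z156 z157 fun z158 =>
  mulK z6 x2 fun z159 =>
  addK z158 z159 fun z160 =>
  a_B3 gs ps x0 x1 x2 z92 z105 z134 z110 z111 z60 z328 z62 z52 z65 z66 z58 z45 z107 z114 z138 z160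

def a_R2 (gs ps : ℕ) (sg v e z3 z4 z5 z6 z92 z105 z134 z110 z111 z57 z60 z328 z62 z64 z52 z65 : ℝ) : Prop :=
  letR ((9 / 10 : ℝ) * z65) fun z66 =>
  letR ((19 / 10 : ℝ) - z66) fun z67 =>
  invR z57 fun z58 =>
  letR (z67 * z58) fun z68 =>
  letR z68 fun z69 =>
  letR (z64 * z69) fun z70 =>
  letR z70 fun z71 =>
  letR (parV gs 13) fun z20 =>
  letR (parV gs 14) fun z21 =>
  letR (z21 * sg) fun z42 =>
  letR (z20 + z42) fun z43 =>
  letR (parV gs 15) fun z22 =>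
  letR (z22 * v) fun z44 =>
  letR (z43 + z44) fun z45 =>
  letR z45 fun z106 =>
  letR (z106 ^ 2) fun z107 =>
  letR ((2 : ℝ) - z107) fun z113 =>
  letR (√z113) fun z114 =>
  invR z114 fun z135 =>
  letR ((1 / 2 : ℝ) * z135) fun z136 =>
  letR (z71 * z136) fun z137 =>
  letR z137 fun z138 =>
  letR (z4 * sg) fun z155 =>
  letR (z3 + z155) fun z156 =>
  letR (z5 * v) fun z157 =>
  letR (z156 + z157) fun z158 =>
  letR (z6 * e) fun z159 =>
  letR (z158 + z159) fun z160 =>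
  a_R3 gs ps sg v e z92 z105 z134 z110 z111 z60 z328 z62 z52 z65 z66 z58 z45 z107 z114 z138 z160

theorem a_S2 {ε : Fin 4 → ℝ} (gs : ℕ) (hε : ∀ i, |ε i| ≤ 1) (ps : ℕ) (x0 x1 x2 z3 z4 z5 z6 z92 z105 z134 z110 z111 z57 z60 z328 z62 z64 z52 z65 : AF) (sg v e t3 t4 t5 t6 t92 t105 t134 t110 t111 t57 t60 t328 t62 t64 t52 t65 : ℝ)
    (h0 : Rel ε x0 sg) (h1 : Rel ε x1 v) (h2 : Rel ε x2 e) (g3 : Rel ε z3 t3) (g4 : Rel ε z4 t4) (g5 : Rel ε z5 t5) (g6 : Rel ε z6 t6) (g92 : Rel ε z92 t92) (g105 : Rel ε z105 t105) (g134 : Rel ε z134 t134) (g110 : Rel ε z110 t110) (g111 : Rel ε z111 t111) (g57 : Rel ε z57 t57) (g60 : Rel ε z60 t60) (g328 : Rel ε z328 t328) (g62 : Rel ε z62 t62) (g64 : Rel ε z64 t64) (g52 : Rel ε z52 t52) (g65 : Rel ε z65 t65) :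
    a_B2 gs ps x0 x1 x2 z3 z4 z5 z6 z92 z105 z134 z110 z111 z57 z60 z328 z62 z64 z52 z65 = true → a_R2 gs ps sg v e t3 t4 t5 t6 t92 t105 t134 t110 t111 t57 t60 t328 t62 t64 t52 t65 := by
  delta a_B2 a_R2
  exact mulS hε (cst_rel k0) g65 fun z66 t66 g66 =>
  rsubS g66 k3 fun z67 t67 g67 =>
  invS hε g57 fun z58 t58 g58 =>
  mulS hε g67 g58 fun z68 t68 g68 =>
  normS g68 fun z69 t69 g69 =>
  mulS hε g64 g69 fun z70 t70 g70 =>
  normS g70 fun z71 t71 g71 =>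
  parS fun z20 t20 g20 =>
  parS fun z21 t21 g21 =>
  mulS hε g21 h0 fun z42 t42 g42 =>
  addS g20 g42 fun z43 t43 g43 =>
  parS fun z22 t22 g22 =>
  mulS hε g22 h1 fun z44 t44 g44 =>
  addS g43 g44 fun z45 t45 g45 =>
  normS g45 fun z106 t106 g106 =>
  sqrS hε g106 fun z107 t107 g107 =>
  rsubS g107 k4 fun z113 t113 g113 =>
  sqrtS hε g113 fun z114 t114 g114 =>
  invS hε g114 fun z135 t135 g135 =>
  smulS hε g135 k6 fun z136 t136 g136 =>
  mulS hε g71 g136 fun z137 t137 g137 =>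
  normS g137 fun z138 t138 g138 =>
  mulS hε g4 h0 fun z155 t155 g155 =>
  addS g3 g155 fun z156 t156 g156 =>
  mulS hε g5 h1 fun z157 t157 g157 =>
  addS g156 g157 fun z158 t158 g158 =>
  mulS hε g6 h2 fun z159 t159 g159 =>
  addS g158 g159 fun z160 t160 g160 =>
  a_S3 gs hε ps x0 x1 x2 z92 z105 z134 z110 z111 z60 z328 z62 z52 z65 z66 z58 z45 z107 z114 z138 z160 sg v e t92 t105 t134 t110 t111 t60 t328 t62 t52 t65 t66 t58 t45 t107 t114 t138 t160 h0 h1 h2 g92 g105 g134 g110 g111 g60 g328 g62 g52 g65 g66 g58 g45 g107 g114 g138 g160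

def a_B1 (gs ps : ℕ) (x0 x1 x2 z3 z4 z5 z6 z50 z56 z92 z105 z134 z170 : AF) : Bool :=
  addcK x2 4722366764344621924352 0 fun z110 =>
  sqrK z110 fun z111 =>
  mulK z111 z110 fun z171 =>
  mulK z170 z171 fun z172 =>
  parK gs 2 fun z9 =>
  rsubK z56 4722367017672100963942 1 fun z57 =>
  mulK z50 z57 fun z59 =>
  normK z59 fun z60 =>
  mulK z9 z60 fun z173 =>
  addK z172 z173 fun z174 =>
  normK z174 fun z328 =>
  parK gs 4 fun z11 =>
  parK gs 5 fun z12 =>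
  mulK z12 x0 fun z30 =>
  addK z11 z30 fun z31 =>
  parK gs 6 fun z13 =>
  mulK z13 x1 fun z32 =>
  addK z31 z32 fun z33 =>
  normK z33 fun z62 =>
  sqrK x1 fun z51 =>
  rsubK z51 4722367045819598635008 0 fun z61 =>
  mulK z62 z61 fun z63 =>
  normK z63 fun z64 =>
  smulK z50 4722367045819598635008 fun z53 =>
  mulK z50 z51 fun z52 =>
  subK z53 z52 fun z54 =>
  normK z54 fun z65 =>
  a_B2 gs ps x0 x1 x2 z3 z4 z5 z6 z92 z105 z134 z110 z111 z57 z60 z328 z62 z64 z52 z65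

def a_R1 (gs ps : ℕ) (sg v e z3 z4 z5 z6 z50 z56 z92 z105 z134 z170 : ℝ) : Prop :=
  letR (e + (1 : ℝ)) fun z110 =>
  letR (z110 ^ 2) fun z111 =>
  letR (z111 * z110) fun z171 =>
  letR (z170 * z171) fun z172 =>
  letR (parV gs 2) fun z9 =>
  letR ((19 / 10 : ℝ) - z56) fun z57 =>
  letR (z50 * z57) fun z59 =>
  letR z59 fun z60 =>
  letR (z9 * z60) fun z173 =>
  letR (z172 + z173) fun z174 =>
  letR z174 fun z328 =>
  letR (parV gs 4) fun z11 =>
  letR (parV gs 5) fun z12 =>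
  letR (z12 * sg) fun z30 =>
  letR (z11 + z30) fun z31 =>
  letR (parV gs 6) fun z13 =>
  letR (z13 * v) fun z32 =>
  letR (z31 + z32) fun z33 =>
  letR z33 fun z62 =>
  letR (v ^ 2) fun z51 =>
  letR ((2 : ℝ) - z51) fun z61 =>
  letR (z62 * z61) fun z63 =>
  letR z63 fun z64 =>
  letR ((2 : ℝ) * z50) fun z53 =>
  letR (z50 * z51) fun z52 =>
  letR (z53 - z52) fun z54 =>
  letR z54 fun z65 =>
  a_R2 gs ps sg v e z3 z4 z5 z6 z92 z105 z134 z110 z111 z57 z60 z328 z62 z64 z52 z65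

theorem a_S1 {ε : Fin 4 → ℝ} (gs : ℕ) (hε : ∀ i, |ε i| ≤ 1) (ps : ℕ) (x0 x1 x2 z3 z4 z5 z6 z50 z56 z92 z105 z134 z170 : AF) (sg v e t3 t4 t5 t6 t50 t56 t92 t105 t134 t170 : ℝ)
    (h0 : Rel ε x0 sg) (h1 : Rel ε x1 v) (h2 : Rel ε x2 e) (g3 : Rel ε z3 t3) (g4 : Rel ε z4 t4) (g5 : Rel ε z5 t5) (g6 : Rel ε z6 t6) (g50 : Rel ε z50 t50) (g56 : Rel ε z56 t56) (g92 : Rel ε z92 t92) (g105 : Rel ε z105 t105) (g134 : Rel ε z134 t134) (g170 : Rel ε z170 t170) :
    a_B1 gs ps x0 x1 x2 z3 z4 z5 z6 z50 z56 z92 z105 z134 z170 = true → a_R1 gs ps sg v e t3 t4 t5 t6 t50 t56 t92 t105 t134 t170 := by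
  delta a_B1 a_R1
  exact addcS h2 k2 fun z110 t110 g110 =>
  sqrS hε g110 fun z111 t111 g111 =>
  mulS hε g111 g110 fun z171 t171 g171 =>
  mulS hε g170 g171 fun z172 t172 g172 =>
  parS fun z9 t9 g9 =>
  rsubS g56 k3 fun z57 t57 g57 =>
  mulS hε g50 g57 fun z59 t59 g59 =>
  normS g59 fun z60 t60 g60 =>
  mulS hε g9 g60 fun z173 t173 g173 =>
  addS g172 g173 fun z174 t174 g174 =>
  normS g174 fun z328 t328 g328 =>
  parS fun z11 t11 g11 =>
  parS fun z12 t12 g12 =>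
  mulS hε g12 h0 fun z30 t30 g30 =>
  addS g11 g30 fun z31 t31 g31 =>
  parS fun z13 t13 g13 =>
  mulS hε g13 h1 fun z32 t32 g32 =>
  addS g31 g32 fun z33 t33 g33 =>
  normS g33 fun z62 t62 g62 =>
  sqrS hε h1 fun z51 t51 g51 =>
  rsubS g51 k4 fun z61 t61 g61 =>
  mulS hε g62 g61 fun z63 t63 g63 =>
  normS g63 fun z64 t64 g64 =>
  smulS hε g50 k5 fun z53 t53 g53 =>
  mulS hε g50 g51 fun z52 t52 g52 =>
  subS g53 g52 fun z54 t54 g54 =>
  normS g54 fun z65 t65 g65 =>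
  a_S2 gs hε ps x0 x1 x2 z3 z4 z5 z6 z92 z105 z134 z110 z111 z57 z60 z328 z62 z64 z52 z65 sg v e t3 t4 t5 t6 t92 t105 t134 t110 t111 t57 t60 t328 t62 t64 t52 t65 h0 h1 h2 g3 g4 g5 g6 g92 g105 g134 g110 g111 g57 g60 g328 g62 g64 g52 g65

def a_B (gs ps : ℕ) (x0 x1 x2 x3 : AF) : Bool :=
  parK ps 0 fun z3 =>
  parK ps 1 fun z4 =>
  parK ps 2 fun z5 =>
  parK ps 3 fun z6 =>
  parK gs 3 fun z10 =>
  sqrK x0 fun z50 =>
  mulK (cst 4722366736197124253286 1) z50 fun z56 =>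
  addcK z56 4722366511017142884761 1 fun z90 =>
  mulK z50 z90 fun z91 =>
  rsubK z91 4722366764344621924352 0 fun z92 =>
  parK gs 10 fun z17 =>
  parK gs 11 fun z18 =>
  mulK z18 x0 fun z38 =>
  addK z17 z38 fun z39 =>
  parK gs 12 fun z19 =>
  mulK z19 x1 fun z40 =>
  addK z39 z40 fun z41 =>
  normK z41 fun z104 =>
  sqrK z104 fun z105 =>
  mulK z104 z105 fun z134 =>
  mulK z92 z134 fun z169 =>
  mulK z10 z169 fun z170 =>
  a_B1 gs ps x0 x1 x2 z3 z4 z5 z6 z50 z56 z92 z105 z134 z170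

def a_R (gs ps : ℕ) (sg v e u3 : ℝ) : Prop :=
  letR (parV ps 0) fun z3 =>
  letR (parV ps 1) fun z4 =>
  letR (parV ps 2) fun z5 =>
  letR (parV ps 3) fun z6 =>
  letR (parV gs 3) fun z10 =>
  letR (sg ^ 2) fun z50 =>
  letR ((9 / 10 : ℝ) * z50) fun z56 =>
  letR (z56 + (1 / 10 : ℝ)) fun z90 =>
  letR (z50 * z90) fun z91 =>
  letR ((1 : ℝ) - z91) fun z92 =>
  letR (parV gs 10) fun z17 =>
  letR (parV gs 11) fun z18 =>
  letR (z18 * sg) fun z38 =>
  letR (z17 + z38) fun z39 =>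
  letR (parV gs 12) fun z19 =>
  letR (z19 * v) fun z40 =>
  letR (z39 + z40) fun z41 =>
  letR z41 fun z104 =>
  letR (z104 ^ 2) fun z105 =>
  letR (z104 * z105) fun z134 =>
  letR (z92 * z134) fun z169 =>
  letR (z10 * z169) fun z170 =>
  a_R1 gs ps sg v e z3 z4 z5 z6 z50 z56 z92 z105 z134 z170

theorem a_S {ε : Fin 4 → ℝ} (gs : ℕ) (hε : ∀ i, |ε i| ≤ 1) (ps : ℕ) (x0 x1 x2 x3 : AF) (sg v e u3 : ℝ)
    (h0 : Rel ε x0 sg) (h1 : Rel ε x1 v) (h2 : Rel ε x2 e) (h3 : Rel ε x3 u3) :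
    a_B gs ps x0 x1 x2 x3 = true → a_R gs ps sg v e u3 := by
  delta a_B a_R
  exact parS fun z3 t3 g3 =>
  parS fun z4 t4 g4 =>
  parS fun z5 t5 g5 =>
  parS fun z6 t6 g6 =>
  parS fun z10 t10 g10 =>
  sqrS hε h0 fun z50 t50 g50 =>
  mulS hε (cst_rel k0) g50 fun z56 t56 g56 =>
  addcS g56 k1 fun z90 t90 g90 =>
  mulS hε g50 g90 fun z91 t91 g91 =>
  rsubS g91 k2 fun z92 t92 g92 =>
  parS fun z17 t17 g17 =>
  parS fun z18 t18 g18 =>
  mulS hε g18 h0 fun z38 t38 g38 =>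
  addS g17 g38 fun z39 t39 g39 =>
  parS fun z19 t19 g19 =>
  mulS hε g19 h1 fun z40 t40 g40 =>
  addS g39 g40 fun z41 t41 g41 =>
  normS g41 fun z104 t104 g104 =>
  sqrS hε g104 fun z105 t105 g105 =>
  mulS hε g104 g105 fun z134 t134 g134 =>
  mulS hε g92 g134 fun z169 t169 g169 =>
  mulS hε g10 g169 fun z170 t170 g170 =>
  a_S1 gs hε ps x0 x1 x2 z3 z4 z5 z6 z50 z56 z92 z105 z134 z170 sg v e t3 t4 t5 t6 t50 t56 t92 t105 t134 t170 h0 h1 h2 g3 g4 g5 g6 g50 g56 g92 g105 g134 g170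

/- obtain ⟨pa, pb, pc, pd, al, w56, w, b, cb, cf, n, n2, uh, u, K, mu0, v2, a1, a0, w66, iu, A0, ga, g2, Ac, cA, T, tau, t2, A, jj, d0, mu1, ex, LB, d1, rg, M0c, cM0, rt, M0, rj, e0, M1c, cM1, M1, e1, PhN, W0, cg, s0c, cW0, E, G, x, xt, s0, z0, W1, s1c, cW1, s1, z1, w129, cr, p0c, cP0, rG, w195, xr, p0, y0, p1c, cP1, p1, y1, PhF, Phi, Q, PsN, PsF, Psi, h_al, h_w56, h_w, h_b, h_cb, h_cf, h_n, h_n2, h_uh, h_u, h_K, h_mu0, h_v2, h_a1, h_a0, h_w66, p_iu, h_iu, h_A0, h_ga, h_g2, h_Ac, p_Ac, h_cA, h_T, h_tau, h_t2, h_A, h_jj, p_29, h_d0, h_mu1, h_ex, p_33, h_LB, h_d1, h_rg, h_M0c, p_M0c, h_cM0, h_rt, h_M0, h_rj, p_43, h_e0, h_M1c, p_M1c, h_cM1, h_M1, p_49, h_e1, h_PhN, h_W0, h_cg, h_s0c, p_s0c, h_cW0, h_E, h_G, h_x, h_xt, h_s0, p_62, h_z0, h_W1, h_s1c, p_s1c, h_cW1, h_s1, p_69, h_z1, h_w129, h_cr, h_p0c, p_p0c, h_cP0, h_rG, h_w195, h_xr, h_p0, p_80, h_y0, h_p1c, p_p1c, h_cP1, h_p1, p_86, h_y1, h_PhF, h_Phi, p_A,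 p_tau, h_Q, p_M0, p_M1, h_PsN, p_s0, p_s1, p_p0, p_p1, h_PsF, h_Psi, c0⟩ := h -/
def a_Spec (rho l4 ku kw ma0 ma1 ma2 mb0 mb1 mb2 bq0 bq1 bq2 gq0 gq1 gq2 xq0 xq1 xq2 am0 am1 bm0 bm1 sg v e : ℝ) : Prop :=
  ∃ pa pb pc pd al w56 w b cb cf n n2 uh u K mu0 v2 a1 a0 w66 iu A0 ga g2 Ac cA T tau t2 A jj d0 mu1 ex LB d1 rg M0c cM0 rt M0 rj e0 M1c cM1 M1 e1 PhN W0 cg s0c cW0 E G x xt s0 z0 W1 s1c cW1 s1 z1 w129 cr p0c cP0 rG w195 xr p0 y0 p1c cP1 p1 y1 PhF Phi Q PsN PsF Psi : ℝ,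
    al = (sg ^ 2) ∧
    w56 = ((9 / 10 : ℝ) * al) ∧
    w = ((1 : ℝ) - (al * (w56 + (1 / 10 : ℝ)))) ∧
    b = ((bq0 + (bq1 * sg)) + (bq2 * v)) ∧
    cb = (b ^ 2) ∧
    cf = (b * cb) ∧
    n = (e + (1 : ℝ)) ∧
    n2 = (n ^ 2) ∧
    uh = ((19 / 10 : ℝ) - w56) ∧
    u = (al * uh) ∧
    K = (((kw * (w * cf)) * (n2 * n)) + (ku * u)) ∧
    mu0 = ((ma0 + (ma1 * sg)) + (ma2 * v)) ∧
    v2 = (v ^ 2) ∧
    a1 = (al * v2) ∧
    a0 = (((2 : ℝ) * al) - a1) ∧
    w66 = ((9 / 10 : ℝ) * a0) ∧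
    0 < uh ∧
    iu = (uh⁻¹) ∧
    A0 = ((mu0 * ((2 : ℝ) - v2)) * (((19 / 10 : ℝ) - w66) * iu)) ∧
    ga = ((gq0 + (gq1 * sg)) + (gq2 * v)) ∧
    g2 = (ga ^ 2) ∧
    Ac = (√((2 : ℝ) - g2)) ∧
    0 < Ac ∧
    cA = (A0 * ((1 / 2 : ℝ) * (Ac⁻¹))) ∧
    T = (((pa + (pb * sg)) + (pc * v)) + (pd * e)) ∧
    tau = ((e * T) + ga) ∧
    t2 = (tau ^ 2) ∧
    A = (√((2 : ℝ) - t2)) ∧
    jj = (T * (tau + ga)) ∧
    0 < (A + Ac) ∧
    d0 = (A - (jj * ((A + Ac)⁻¹))) ∧
    mu1 = ((mb0 + (mb1 * sg)) + (mb2 * v)) ∧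
    ex = ((xq0 + (xq1 * sg)) + (xq2 * v)) ∧
    0 < (ga + l4) ∧
    LB = ((((mu1 * (v * (v + l4))) * (((19 / 20 : ℝ) - ((9 / 20 : ℝ) * a1)) * iu)) + ex) * ((ga + l4)⁻¹)) ∧
    d1 = (tau + T) ∧
    rg = (rho * ((1 : ℝ) - g2)) ∧
    M0c = (√(rg + (1 : ℝ))) ∧
    0 < M0c ∧
    cM0 = ((1 / 2 : ℝ) * (M0c⁻¹)) ∧
    rt = (rho * ((1 : ℝ) - t2)) ∧
    M0 = (√(rt + (1 : ℝ))) ∧
    rj = (rho * jj) ∧
    0 < (M0 + M0c) ∧
    e0 = (M0 - (rj * ((M0 + M0c)⁻¹))) ∧
    M1c = (√((1 : ℝ) - rg)) ∧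
    0 < M1c ∧
    cM1 = ((1 / 2 : ℝ) * (M1c⁻¹)) ∧
    M1 = (√((1 : ℝ) - rt)) ∧
    0 < (M1 + M1c) ∧
    e1 = (M1 + (rj * ((M1 + M1c)⁻¹))) ∧
    PhN = (((cA * (d0 ^ 2)) + (LB * (d1 ^ 2))) - ((cM0 * (e0 ^ 2)) + (cM1 * (e1 ^ 2)))) ∧
    W0 = (mu0 * ((1 : ℝ) - (a0 * (w66 + (1 / 10 : ℝ))))) ∧
    cg = (cb * g2) ∧
    s0c = (√((cg - ((2 : ℝ) * cb)) + (1 : ℝ))) ∧
    0 < s0c ∧
    cW0 = (W0 * ((1 / 2 : ℝ) * (s0c⁻¹))) ∧
    E = (n + (1 : ℝ)) ∧
    G = (d1 * ((n * tau) + ga)) ∧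
    x = (cb * n2) ∧
    xt = (x * t2) ∧
    s0 = (√((xt - ((2 : ℝ) * x)) + (1 : ℝ))) ∧
    0 < (s0 + s0c) ∧
    z0 = ((((2 : ℝ) * E) - G) * ((s0 + s0c)⁻¹)) ∧
    W1 = (mu1 * ((1 : ℝ) - (a1 * (((9 / 10 : ℝ) * a1) + (1 / 10 : ℝ))))) ∧
    s1c = (√((1 : ℝ) - cg)) ∧
    0 < s1c ∧
    cW1 = (W1 * ((1 / 2 : ℝ) * (s1c⁻¹))) ∧
    s1 = (√((1 : ℝ) - xt)) ∧
    0 < (s1 + s1c) ∧
    z1 = (G * ((s1 + s1c)⁻¹)) ∧
    w129 = ((1 : ℝ) - cb) ∧
    cr = (cb * rg) ∧
    p0c = (√(w129 - cr)) ∧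
    0 < p0c ∧
    cP0 = ((1 / 2 : ℝ) * (p0c⁻¹)) ∧
    rG = (rho * (E - G)) ∧
    w195 = ((1 : ℝ) - x) ∧
    xr = (x * rt) ∧
    p0 = (√(w195 - xr)) ∧
    0 < (p0 + p0c) ∧
    y0 = ((E + rG) * ((p0 + p0c)⁻¹)) ∧
    p1c = (√(w129 + cr)) ∧
    0 < p1c ∧
    cP1 = ((1 / 2 : ℝ) * (p1c⁻¹)) ∧
    p1 = (√(w195 + xr)) ∧
    0 < (p1 + p1c) ∧
    y1 = ((E - rG) * ((p1 + p1c)⁻¹)) ∧
    PhF = (((cW0 * (z0 ^ 2)) + (cW1 * (z1 ^ 2))) - (w * ((cP0 * (y0 ^ 2)) + (cP1 * (y1 ^ 2))))) ∧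
    Phi = ((u * PhN) + (cf * PhF)) ∧
    0 < A ∧
    0 < tau ∧
    Q = (d1 * (tau⁻¹)) ∧
    0 < M0 ∧
    0 < M1 ∧
    PsN = (((cA * (d0 * (A⁻¹))) - (LB * Q)) - (rho * ((cM0 * (e0 * (M0⁻¹))) - (cM1 * (e1 * (M1⁻¹)))))) ∧
    0 < s0 ∧
    0 < s1 ∧
    0 < p0 ∧
    0 < p1 ∧
    PsF = (((cW0 * (z0 * (s0⁻¹))) - (cW1 * (z1 * (s1⁻¹)))) - (w * (rho * ((cP0 * (y0 * (p0⁻¹))) - (cP1 * (y1 * (p1⁻¹))))))) ∧
    Psi = ((u * PsN) + ((n * cf) * PsF)) ∧
    0 ≤ ((K * Phi) - ((2 : ℝ) * (n * (Psi ^ 2))))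

theorem a_E {gs ps : ℕ} {sg v e u3 : ℝ} (h : a_R gs ps sg v e u3) : a_Spec (parV gs 0) (parV gs 1) (parV gs 2) (parV gs 3) (parV gs 4) (parV gs 5) (parV gs 6) (parV gs 7) (parV gs 8) (parV gs 9) (parV gs 10) (parV gs 11) (parV gs 12) (parV gs 13) (parV gs 14) (parV gs 15) (parV gs 16) (parV gs 17) (parV gs 18) (parV gs 19) (parV gs 20) (parV gs 21) (parV gs 22) sg v e := by
  delta a_R at h
  exact letR_ex h fun pa _ h =>
  letR_ex h fun pb _ h =>
  letR_ex h fun pc _ h =>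
  letR_ex h fun pd _ h =>
  letR_in h fun h =>
  letR_ex h fun al q1 h =>
  letR_ex h fun w56 q2 h =>
  letR_in h fun h =>
  letR_in h fun h =>
  letR_ex h fun w q3 h =>
  letR_in h fun h =>
  letR_in h fun h =>
  letR_in h fun h =>
  letR_in h fun h =>
  letR_in h fun h =>
  letR_in h fun h =>
  letR_ex h fun b q4 h =>
  letR_in h fun h =>
  letR_ex h fun cb q5 h =>
  letR_ex h fun cf q6 h =>
  letR_in h fun h =>
  letR_in h fun h =>
  (by delta a_R1 at h; exact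
  letR_ex h fun n q7 h =>
  letR_ex h fun n2 q8 h =>
  letR_in h fun h =>
  letR_in h fun h =>
  letR_in h fun h =>
  letR_ex h fun uh q9 h =>
  letR_in h fun h =>
  letR_ex h fun u q10 h =>
  letR_in h fun h =>
  letR_ex h fun K q11 h =>
  letR_in h fun h =>
  letR_in h fun h =>
  letR_in h fun h =>
  letR_in h fun h =>
  letR_in h fun h =>
  letR_in h fun h =>
  letR_in h fun h =>
  letR_ex h fun mu0 q12 h =>
  letR_in h fun h =>
  letR_ex h fun v2 q13 h =>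
  letR_in h fun h =>
  letR_in h fun h =>
  letR_in h fun h =>
  letR_in h fun h =>
  letR_ex h fun a1 q14 h =>
  letR_ex h fun a0 q15 h =>
  letR_in h fun h =>
  (by delta a_R2 at h; exact
  letR_ex h fun w66 q16 h =>
  letR_in h fun h =>
  invR_ex h fun q17 h =>
  letR_ex h fun iu q18 h =>
  letR_in h fun h =>
  letR_in h fun h =>
  letR_in h fun h =>
  letR_ex h fun A0 q19 h =>
  letR_in h fun h =>
  letR_in h fun h =>
  letR_in h fun h =>
  letR_in h fun h =>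
  letR_in h fun h =>
  letR_in h fun h =>
  letR_ex h fun ga q20 h =>
  letR_in h fun h =>
  letR_ex h fun g2 q21 h =>
  letR_in h fun h =>
  letR_ex h fun Ac q22 h =>
  invR_ex h fun q23 h =>
  letR_in h fun h =>
  letR_in h fun h =>
  letR_in h fun h =>
  letR_ex h fun cA q24 h =>
  letR_in h fun h =>
  letR_in h fun h =>
  letR_in h fun h =>
  letR_in h fun h =>
  letR_in h fun h =>
  letR_ex h fun T q25 h =>
  (by delta a_R3 at h; exact
  letR_in h fun h =>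
  letR_in h fun h =>
  letR_ex h fun tau q26 h =>
  letR_in h fun h =>
  letR_ex h fun t2 q27 h =>
  letR_in h fun h =>
  letR_ex h fun A q28 h =>
  letR_in h fun h =>
  letR_in h fun h =>
  letR_in h fun h =>
  letR_ex h fun jj q29 h =>
  letR_in h fun h =>
  invR_ex h fun q30 h =>
  letR_in h fun h =>
  letR_in h fun h =>
  letR_ex h fun d0 q31 h =>
  letR_in h fun h =>
  letR_in h fun h =>
  letR_in h fun h =>
  letR_in h fun h =>
  letR_in h fun h =>
  letR_in h fun h =>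
  letR_in h fun h =>
  letR_in h fun h =>
  letR_in h fun h =>
  letR_ex h fun mu1 q32 h =>
  letR_in h fun h =>
  (by delta a_R4 at h; exact
  letR_in h fun h =>
  letR_in h fun h =>
  letR_in h fun h =>
  letR_in h fun h =>
  letR_in h fun h =>
  letR_in h fun h =>
  letR_in h fun h =>
  letR_in h fun h =>
  letR_in h fun h =>
  letR_in h fun h =>
  letR_in h fun h =>
  letR_in h fun h =>
  letR_in h fun h =>
  letR_in h fun h =>
  letR_in h fun h =>
  letR_in h fun h =>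
  letR_in h fun h =>
  letR_ex h fun ex q33 h =>
  letR_in h fun h =>
  letR_in h fun h =>
  letR_in h fun h =>
  invR_ex h fun q34 h =>
  letR_in h fun h =>
  letR_in h fun h =>
  letR_ex h fun LB q35 h =>
  letR_ex h fun d1 q36 h =>
  letR_in h fun h =>
  letR_in h fun h =>
  letR_in h fun h =>
  letR_in h fun h =>
  (by delta a_R5 at h; exact
  letR_in h fun h =>
  letR_in h fun h =>
  letR_ex h fun rg q37 h =>
  letR_in h fun h =>
  letR_ex h fun M0c q38 h =>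
  invR_ex h fun q39 h =>
  letR_in h fun h =>
  letR_ex h fun cM0 q40 h =>
  letR_in h fun h =>
  letR_ex h fun rt q41 h =>
  letR_in h fun h =>
  letR_ex h fun M0 q42 h =>
  letR_ex h fun rj q43 h =>
  letR_in h fun h =>
  invR_ex h fun q44 h =>
  letR_in h fun h =>
  letR_in h fun h =>
  letR_ex h fun e0 q45 h =>
  letR_in h fun h =>
  letR_in h fun h =>
  letR_in h fun h =>
  letR_in h fun h =>
  letR_ex h fun M1c q46 h =>
  invR_ex h fun q47 h =>
  letR_in h fun h =>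
  letR_ex h fun cM1 q48 h =>
  letR_in h fun h =>
  letR_ex h fun M1 q49 h =>
  letR_in h fun h =>
  invR_ex h fun q50 h =>
  letR_in h fun h =>
  letR_in h fun h =>
  letR_ex h fun e1 q51 h =>
  letR_in h fun h =>
  letR_in h fun h =>
  letR_in h fun h =>
  letR_in h fun h =>
  letR_ex h fun PhN q52 h =>
  letR_in h fun h =>
  letR_in h fun h =>
  letR_in h fun h =>
  letR_in h fun h =>
  letR_in h fun h =>
  letR_in h fun h =>
  (by delta a_R6 at h; exact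
  letR_ex h fun W0 q53 h =>
  letR_in h fun h =>
  letR_ex h fun cg q54 h =>
  letR_in h fun h =>
  letR_in h fun h =>
  letR_in h fun h =>
  letR_ex h fun s0c q55 h =>
  invR_ex h fun q56 h =>
  letR_in h fun h =>
  letR_in h fun h =>
  letR_in h fun h =>
  letR_ex h fun cW0 q57 h =>
  letR_ex h fun E q58 h =>
  letR_in h fun h =>
  letR_in h fun h =>
  letR_in h fun h =>
  letR_in h fun h =>
  letR_in h fun h =>
  letR_ex h fun G q59 h =>
  letR_in h fun h =>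
  letR_in h fun h =>
  letR_ex h fun x q60 h =>
  letR_in h fun h =>
  letR_ex h fun xt q61 h =>
  letR_in h fun h =>
  letR_in h fun h =>
  letR_in h fun h =>
  letR_ex h fun s0 q62 h =>
  letR_in h fun h =>
  invR_ex h fun q63 h =>
  letR_in h fun h =>
  letR_in h fun h =>
  letR_ex h fun z0 q64 h =>
  (by delta a_R7 at h; exact
  letR_in h fun h =>
  letR_in h fun h =>
  letR_in h fun h =>
  letR_in h fun h =>
  letR_in h fun h =>
  letR_in h fun h =>
  letR_in h fun h =>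
  letR_ex h fun W1 q65 h =>
  letR_in h fun h =>
  letR_ex h fun s1c q66 h =>
  invR_ex h fun q67 h =>
  letR_in h fun h =>
  letR_in h fun h =>
  letR_in h fun h =>
  letR_ex h fun cW1 q68 h =>
  letR_in h fun h =>
  letR_ex h fun s1 q69 h =>
  letR_in h fun h =>
  invR_ex h fun q70 h =>
  letR_in h fun h =>
  letR_in h fun h =>
  letR_ex h fun z1 q71 h =>
  letR_in h fun h =>
  letR_in h fun h =>
  letR_in h fun h =>
  letR_ex h fun w129 q72 h =>
  letR_in h fun h =>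
  letR_ex h fun cr q73 h =>
  (by delta a_R8 at h; exact
  letR_in h fun h =>
  letR_ex h fun p0c q74 h =>
  invR_ex h fun q75 h =>
  letR_in h fun h =>
  letR_ex h fun cP0 q76 h =>
  letR_in h fun h =>
  letR_in h fun h =>
  letR_ex h fun rG q77 h =>
  letR_in h fun h =>
  letR_in h fun h =>
  letR_ex h fun w195 q78 h =>
  letR_in h fun h =>
  letR_ex h fun xr q79 h =>
  letR_in h fun h =>
  letR_ex h fun p0 q80 h =>
  letR_in h fun h =>
  invR_ex h fun q81 h =>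
  letR_in h fun h =>
  letR_in h fun h =>
  letR_ex h fun y0 q82 h =>
  letR_in h fun h =>
  letR_in h fun h =>
  letR_in h fun h =>
  letR_ex h fun p1c q83 h =>
  invR_ex h fun q84 h =>
  letR_in h fun h =>
  letR_ex h fun cP1 q85 h =>
  letR_in h fun h =>
  letR_in h fun h =>
  letR_in h fun h =>
  letR_ex h fun p1 q86 h =>
  letR_in h fun h =>
  invR_ex h fun q87 h =>
  letR_in h fun h =>
  letR_in h fun h =>
  letR_ex h fun y1 q88 h =>
  letR_in h fun h =>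
  letR_in h fun h =>
  letR_in h fun h =>
  letR_in h fun h =>
  letR_in h fun h =>
  letR_ex h fun PhF q89 h =>
  letR_in h fun h =>
  letR_in h fun h =>
  letR_ex h fun Phi q90 h =>
  (by delta a_R9 at h; exact
  letR_in h fun h =>
  letR_in h fun h =>
  invR_ex h fun q91 h =>
  letR_in h fun h =>
  letR_in h fun h =>
  letR_in h fun h =>
  letR_in h fun h =>
  invR_ex h fun q92 h =>
  letR_in h fun h =>
  letR_in h fun h =>
  letR_ex h fun Q q93 h =>
  letR_in h fun h =>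
  letR_in h fun h =>
  invR_ex h fun q94 h =>
  letR_in h fun h =>
  letR_in h fun h =>
  letR_in h fun h =>
  letR_in h fun h =>
  invR_ex h fun q95 h =>
  letR_in h fun h =>
  letR_in h fun h =>
  letR_in h fun h =>
  letR_in h fun h =>
  letR_in h fun h =>
  letR_in h fun h =>
  letR_in h fun h =>
  letR_ex h fun PsN q96 h =>
  letR_in h fun h =>
  letR_in h fun h =>
  letR_in h fun h =>
  letR_in h fun h =>
  invR_ex h fun q97 h =>
  letR_in h fun h =>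
  letR_in h fun h =>
  letR_in h fun h =>
  letR_in h fun h =>
  invR_ex h fun q98 h =>
  letR_in h fun h =>
  letR_in h fun h =>
  letR_in h fun h =>
  letR_in h fun h =>
  letR_in h fun h =>
  invR_ex h fun q99 h =>
  letR_in h fun h =>
  letR_in h fun h =>
  letR_in h fun h =>
  letR_in h fun h =>
  (by delta a_R10 at h; exact
  invR_ex h fun q100 h =>
  letR_in h fun h =>
  letR_in h fun h =>
  letR_in h fun h =>
  letR_in h fun h =>
  letR_in h fun h =>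
  letR_in h fun h =>
  letR_in h fun h =>
  letR_in h fun h =>
  letR_ex h fun PsF q101 h =>
  letR_in h fun h =>
  letR_in h fun h =>
  letR_ex h fun Psi q102 h =>
  letR_in h fun h =>
  letR_in h fun h =>
  letR_in h fun h =>
  letR_in h fun h =>
  letR_in h fun h =>
  posR_ex h fun q103 h =>
  ⟨pa, pb, pc, pd, al, w56, w, b, cb, cf, n, n2, uh, u, K, mu0, v2, a1, a0, w66, iu, A0, ga, g2, Ac, cA, T, tau, t2, A, jj, d0, mu1, ex, LB, d1, rg, M0c, cM0, rt, M0, rj, e0, M1c, cM1, M1, e1, PhN, W0, cg, s0c, cW0, E, G, x, xt, s0, z0, W1, s1c, cW1, s1, z1, w129, cr, p0c, cP0, rG, w195, xr, p0, y0, p1c, cP1, p1, y1, PhF, Phi, Q, PsN, PsF, Psi, q1, q2, q3, q4, q5, q6, q7, q8, q9, q10, q11, q12, q13, q14, q15, q16, q17, q18, q19, q20, q21, q22, q23, q24, q25, q26, q27, q28, q29, q30, q31, q32, q33, q34, q35, q36, q37, q38, q39, q40, q41, q42, q43, q44, q45, q46, q47, q48, q49, q50, q51, q52, q53, q54, q55, q56, q57, q58,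 q59, q60, q61, q62, q63, q64, q65, q66, q67, q68, q69, q70, q71, q72, q73, q74, q75, q76, q77, q78, q79, q80, q81, q82, q83, q84, q85, q86, q87, q88, q89, q90, q91, q92, q93, q94, q95, q96, q97, q98, q99, q100, q101, q102, q103⟩))))))))))

def b_B10 (gs ps : ℕ) (z92 z110 z7 z154 z204 z253 z335 z327 z329 z307 z311 : AF) : Bool :=
  invK z204 fun z312 =>
  mulK z253 z312 fun z313 =>
  normK z313 fun z314 =>
  mulK z154 z314 fun z315 =>
  subK z311 z315 fun z316 =>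
  normK z316 fun z317 =>
  mulK z7 z317 fun z318 =>
  mulK z92 z318 fun z319 =>
  subK z307 z319 fun z320 =>
  normK z320 fun z330 =>
  mulK z329 z330 fun z331 =>
  addK z327 z331 fun z332 =>
  normK z332 fun z336 =>
  sqrK z336 fun z337 =>
  mulK z110 z337 fun z338 =>
  smulK z338 4722367045819598635008 fun z339 =>
  subK z335 z339 fun z340 =>
  posK z340 <|
  true

def b_R10 (gs ps : ℕ) (z92 z110 z7 z154 z204 z253 z335 z327 z329 z307 z311 : ℝ) : Prop :=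
  invR z204 fun z312 =>
  letR (z253 * z312) fun z313 =>
  letR z313 fun z314 =>
  letR (z154 * z314) fun z315 =>
  letR (z311 - z315) fun z316 =>
  letR z316 fun z317 =>
  letR (z7 * z317) fun z318 =>
  letR (z92 * z318) fun z319 =>
  letR (z307 - z319) fun z320 =>
  letR z320 fun z330 =>
  letR (z329 * z330) fun z331 =>
  letR (z327 + z331) fun z332 =>
  letR z332 fun z336 =>
  letR (z336 ^ 2) fun z337 =>
  letR (z110 * z337) fun z338 =>
  letR ((2 : ℝ) * z338) fun z339 =>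
  letR (z335 - z339) fun z340 =>
  posR z340 <|
  True

theorem b_S10 {ε : Fin 4 → ℝ} (gs : ℕ) (hε : ∀ i, |ε i| ≤ 1) (ps : ℕ) (z92 z110 z7 z154 z204 z253 z335 z327 z329 z307 z311 : AF) (t92 t110 t7 t154 t204 t253 t335 t327 t329 t307 t311 : ℝ)
    (g92 : Rel ε z92 t92) (g110 : Rel ε z110 t110) (g7 : Rel ε z7 t7) (g154 : Rel ε z154 t154) (g204 : Rel ε z204 t204) (g253 : Rel ε z253 t253) (g335 : Rel ε z335 t335) (g327 : Rel ε z327 t327) (g329 : Rel ε z329 t329) (g307 : Rel ε z307 t307) (g311 : Rel ε z311 t311) :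
    b_B10 gs ps z92 z110 z7 z154 z204 z253 z335 z327 z329 z307 z311 = true → b_R10 gs ps t92 t110 t7 t154 t204 t253 t335 t327 t329 t307 t311 := by
  delta b_B10 b_R10
  exact invS hε g204 fun z312 t312 g312 =>
  mulS hε g253 g312 fun z313 t313 g313 =>
  normS g313 fun z314 t314 g314 =>
  mulS hε g154 g314 fun z315 t315 g315 =>
  subS g311 g315 fun z316 t316 g316 =>
  normS g316 fun z317 t317 g317 =>
  mulS hε g7 g317 fun z318 t318 g318 =>
  mulS hε g92 g318 fun z319 t319 g319 =>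
  subS g307 g319 fun z320 t320 g320 =>
  normS g320 fun z330 t330 g330 =>
  mulS hε g329 g330 fun z331 t331 g331 =>
  addS g327 g331 fun z332 t332 g332 =>
  normS g332 fun z336 t336 g336 =>
  sqrS hε g336 fun z337 t337 g337 =>
  mulS hε g110 g337 fun z338 t338 g338 =>
  smulS hε g338 k5 fun z339 t339 g339 =>
  subS g335 g339 fun z340 t340 g340 =>
  posS hε g340 <|
  fun _ => trivial

def b_B9 (gs ps : ℕ) (z92 z134 z110 z60 z333 z138 z165 z185 z254 z89 z169 z7 z140 z187 z260 z142 z189 z263 z146 z197 z237 z150 z199 z241 z152 z202 z247 z154 z204 z253 z325 : AF) : Bool :=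
  normK z325 fun z334 =>
  mulK z333 z334 fun z335 =>
  invK z185 fun z281 =>
  mulK z254 z281 fun z282 =>
  normK z282 fun z283 =>
  mulK z138 z283 fun z284 =>
  invK z165 fun z172 =>
  mulK z169 z172 fun z173 =>
  normK z173 fun z174 =>
  mulK z89 z174 fun z285 =>
  subK z284 z285 fun z286 =>
  invK z187 fun z287 =>
  mulK z260 z287 fun z288 =>
  normK z288 fun z289 =>
  mulK z140 z289 fun z290 =>
  invK z189 fun z291 =>
  mulK z263 z291 fun z292 =>
  normK z292 fun z293 =>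
  mulK z142 z293 fun z294 =>
  subK z290 z294 fun z295 =>
  normK z295 fun z296 =>
  mulK z7 z296 fun z297 =>
  subK z286 z297 fun z298 =>
  normK z298 fun z326 =>
  mulK z60 z326 fun z327 =>
  mulK z110 z134 fun z328 =>
  normK z328 fun z329 =>
  invK z197 fun z299 =>
  mulK z237 z299 fun z300 =>
  normK z300 fun z301 =>
  mulK z146 z301 fun z302 =>
  invK z199 fun z303 =>
  mulK z241 z303 fun z304 =>
  normK z304 fun z305 =>
  mulK z150 z305 fun z306 =>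
  subK z302 z306 fun z307 =>
  invK z202 fun z308 =>
  mulK z247 z308 fun z309 =>
  normK z309 fun z310 =>
  mulK z152 z310 fun z311 =>
  b_B10 gs ps z92 z110 z7 z154 z204 z253 z335 z327 z329 z307 z311

def b_R9 (gs ps : ℕ) (z92 z134 z110 z60 z333 z138 z165 z185 z254 z89 z169 z7 z140 z187 z260 z142 z189 z263 z146 z197 z237 z150 z199 z241 z152 z202 z247 z154 z204 z253 z325 : ℝ) : Prop :=
  letR z325 fun z334 =>
  letR (z333 * z334) fun z335 =>
  invR z185 fun z281 =>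
  letR (z254 * z281) fun z282 =>
  letR z282 fun z283 =>
  letR (z138 * z283) fun z284 =>
  invR z165 fun z172 =>
  letR (z169 * z172) fun z173 =>
  letR z173 fun z174 =>
  letR (z89 * z174) fun z285 =>
  letR (z284 - z285) fun z286 =>
  invR z187 fun z287 =>
  letR (z260 * z287) fun z288 =>
  letR z288 fun z289 =>
  letR (z140 * z289) fun z290 =>
  invR z189 fun z291 =>
  letR (z263 * z291) fun z292 =>
  letR z292 fun z293 =>
  letR (z142 * z293) fun z294 =>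
  letR (z290 - z294) fun z295 =>
  letR z295 fun z296 =>
  letR (z7 * z296) fun z297 =>
  letR (z286 - z297) fun z298 =>
  letR z298 fun z326 =>
  letR (z60 * z326) fun z327 =>
  letR (z110 * z134) fun z328 =>
  letR z328 fun z329 =>
  invR z197 fun z299 =>
  letR (z237 * z299) fun z300 =>
  letR z300 fun z301 =>
  letR (z146 * z301) fun z302 =>
  invR z199 fun z303 =>
  letR (z241 * z303) fun z304 =>
  letR z304 fun z305 =>
  letR (z150 * z305) fun z306 =>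
  letR (z302 - z306) fun z307 =>
  invR z202 fun z308 =>
  letR (z247 * z308) fun z309 =>
  letR z309 fun z310 =>
  letR (z152 * z310) fun z311 =>
  b_R10 gs ps z92 z110 z7 z154 z204 z253 z335 z327 z329 z307 z311

theorem b_S9 {ε : Fin 4 → ℝ} (gs : ℕ) (hε : ∀ i, |ε i| ≤ 1) (ps : ℕ) (z92 z134 z110 z60 z333 z138 z165 z185 z254 z89 z169 z7 z140 z187 z260 z142 z189 z263 z146 z197 z237 z150 z199 z241 z152 z202 z247 z154 z204 z253 z325 : AF) (t92 t134 t110 t60 t333 t138 t165 t185 t254 t89 t169 t7 t140 t187 t260 t142 t189 t263 t146 t197 t237 t150 t199 t241 t152 t202 t247 t154 t204 t253 t325 : ℝ)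
    (g92 : Rel ε z92 t92) (g134 : Rel ε z134 t134) (g110 : Rel ε z110 t110) (g60 : Rel ε z60 t60) (g333 : Rel ε z333 t333) (g138 : Rel ε z138 t138) (g165 : Rel ε z165 t165) (g185 : Rel ε z185 t185) (g254 : Rel ε z254 t254) (g89 : Rel ε z89 t89) (g169 : Rel ε z169 t169) (g7 : Rel ε z7 t7) (g140 : Rel ε z140 t140) (g187 : Rel ε z187 t187) (g260 : Rel ε z260 t260) (g142 : Rel ε z142 t142) (g189 : Rel ε z189 t189) (g263 : Rel ε z263 t263) (g146 : Rel ε z146 t146) (g197 : Rel ε z197 t197) (g237 : Rel ε z237 t237) (g150 : Rel ε z150 t150) (g199 : Rel ε z199 t199) (g241 : Rel ε z241 t241) (g152 : Rel ε z152 t152) (g202 : Rel ε z202 t202) (g247 : Rel ε z247 t247) (g154 : Rel ε z154 t154) (g204 : Rel ε z204 t204) (g253 : Rel ε z253 t253) (g325 : Rel ε z325 t325) :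
    b_B9 gs ps z92 z134 z110 z60 z333 z138 z165 z185 z254 z89 z169 z7 z140 z187 z260 z142 z189 z263 z146 z197 z237 z150 z199 z241 z152 z202 z247 z154 z204 z253 z325 = true → b_R9 gs ps t92 t134 t110 t60 t333 t138 t165 t185 t254 t89 t169 t7 t140 t187 t260 t142 t189 t263 t146 t197 t237 t150 t199 t241 t152 t202 t247 t154 t204 t253 t325 := by
  delta b_B9 b_R9
  exact normS g325 fun z334 t334 g334 =>
  mulS hε g333 g334 fun z335 t335 g335 =>
  invS hε g185 fun z281 t281 g281 =>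
  mulS hε g254 g281 fun z282 t282 g282 =>
  normS g282 fun z283 t283 g283 =>
  mulS hε g138 g283 fun z284 t284 g284 =>
  invS hε g165 fun z172 t172 g172 =>
  mulS hε g169 g172 fun z173 t173 g173 =>
  normS g173 fun z174 t174 g174 =>
  mulS hε g89 g174 fun z285 t285 g285 =>
  subS g284 g285 fun z286 t286 g286 =>
  invS hε g187 fun z287 t287 g287 =>
  mulS hε g260 g287 fun z288 t288 g288 =>
  normS g288 fun z289 t289 g289 =>
  mulS hε g140 g289 fun z290 t290 g290 =>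
  invS hε g189 fun z291 t291 g291 =>
  mulS hε g263 g291 fun z292 t292 g292 =>
  normS g292 fun z293 t293 g293 =>
  mulS hε g142 g293 fun z294 t294 g294 =>
  subS g290 g294 fun z295 t295 g295 =>
  normS g295 fun z296 t296 g296 =>
  mulS hε g7 g296 fun z297 t297 g297 =>
  subS g286 g297 fun z298 t298 g298 =>
  normS g298 fun z326 t326 g326 =>
  mulS hε g60 g326 fun z327 t327 g327 =>
  mulS hε g110 g134 fun z328 t328 g328 =>
  normS g328 fun z329 t329 g329 =>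
  invS hε g197 fun z299 t299 g299 =>
  mulS hε g237 g299 fun z300 t300 g300 =>
  normS g300 fun z301 t301 g301 =>
  mulS hε g146 g301 fun z302 t302 g302 =>
  invS hε g199 fun z303 t303 g303 =>
  mulS hε g241 g303 fun z304 t304 g304 =>
  normS g304 fun z305 t305 g305 =>
  mulS hε g150 g305 fun z306 t306 g306 =>
  subS g302 g306 fun z307 t307 g307 =>
  invS hε g202 fun z308 t308 g308 =>
  mulS hε g247 g308 fun z309 t309 g309 =>
  normS g309 fun z310 t310 g310 =>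
  mulS hε g152 g310 fun z311 t311 g311 =>
  b_S10 gs hε ps z92 z110 z7 z154 z204 z253 z335 z327 z329 z307 z311 t92 t110 t7 t154 t204 t253 t335 t327 t329 t307 t311 g92 g110 g7 g154 g204 g253 g335 g327 g329 g307 g311

def b_B8 (gs ps : ℕ) (z92 z134 z110 z60 z333 z138 z165 z185 z254 z89 z169 z7 z140 z183 z187 z260 z142 z189 z263 z322 z146 z227 z226 z112 z197 z237 z150 z199 z241 z272 z129 z122 : AF) : Bool :=
  subK z129 z122 fun z130 =>
  sqrtK z130 fun z131 =>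
  invK z131 fun z151 =>
  smulK z151 4722366623607133569024 fun z152 =>
  subK z227 z226 fun z228 =>
  normK z228 fun z229 =>
  mulK z7 z229 fun z230 =>
  addK z227 z230 fun z242 =>
  normK z242 fun z245 =>
  rsubK z112 4722366764344621924352 0 fun z200 =>
  mulK z112 z183 fun z192 =>
  normK z192 fun z193 =>
  subK z200 z193 fun z201 =>
  sqrtK z201 fun z202 =>
  addK z202 z131 fun z243 =>
  invK z243 fun z244 =>
  mulK z245 z244 fun z246 =>
  normK z246 fun z247 =>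
  sqrK z247 fun z273 =>
  mulK z152 z273 fun z274 =>
  addK z129 z122 fun z132 =>
  sqrtK z132 fun z133 =>
  invK z133 fun z153 =>
  smulK z153 4722366623607133569024 fun z154 =>
  subK z227 z230 fun z248 =>
  normK z248 fun z251 =>
  addK z200 z193 fun z203 =>
  sqrtK z203 fun z204 =>
  addK z204 z133 fun z249 =>
  invK z249 fun z250 =>
  mulK z251 z250 fun z252 =>
  normK z252 fun z253 =>
  sqrK z253 fun z275 =>
  mulK z154 z275 fun z276 =>
  addK z274 z276 fun z277 =>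
  normK z277 fun z278 =>
  mulK z92 z278 fun z279 =>
  subK z272 z279 fun z280 =>
  normK z280 fun z323 =>
  mulK z134 z323 fun z324 =>
  addK z322 z324 fun z325 =>
  b_B9 gs ps z92 z134 z110 z60 z333 z138 z165 z185 z254 z89 z169 z7 z140 z187 z260 z142 z189 z263 z146 z197 z237 z150 z199 z241 z152 z202 z247 z154 z204 z253 z325

def b_R8 (gs ps : ℕ) (z92 z134 z110 z60 z333 z138 z165 z185 z254 z89 z169 z7 z140 z183 z187 z260 z142 z189 z263 z322 z146 z227 z226 z112 z197 z237 z150 z199 z241 z272 z129 z122 : ℝ) : Prop :=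
  letR (z129 - z122) fun z130 =>
  letR (√z130) fun z131 =>
  invR z131 fun z151 =>
  letR ((1 / 2 : ℝ) * z151) fun z152 =>
  letR (z227 - z226) fun z228 =>
  letR z228 fun z229 =>
  letR (z7 * z229) fun z230 =>
  letR (z227 + z230) fun z242 =>
  letR z242 fun z245 =>
  letR ((1 : ℝ) - z112) fun z200 =>
  letR (z112 * z183) fun z192 =>
  letR z192 fun z193 =>
  letR (z200 - z193) fun z201 =>
  letR (√z201) fun z202 =>
  letR (z202 + z131) fun z243 =>
  invR z243 fun z244 =>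
  letR (z245 * z244) fun z246 =>
  letR z246 fun z247 =>
  letR (z247 ^ 2) fun z273 =>
  letR (z152 * z273) fun z274 =>
  letR (z129 + z122) fun z132 =>
  letR (√z132) fun z133 =>
  invR z133 fun z153 =>
  letR ((1 / 2 : ℝ) * z153) fun z154 =>
  letR (z227 - z230) fun z248 =>
  letR z248 fun z251 =>
  letR (z200 + z193) fun z203 =>
  letR (√z203) fun z204 =>
  letR (z204 + z133) fun z249 =>
  invR z249 fun z250 =>
  letR (z251 * z250) fun z252 =>
  letR z252 fun z253 =>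
  letR (z253 ^ 2) fun z275 =>
  letR (z154 * z275) fun z276 =>
  letR (z274 + z276) fun z277 =>
  letR z277 fun z278 =>
  letR (z92 * z278) fun z279 =>
  letR (z272 - z279) fun z280 =>
  letR z280 fun z323 =>
  letR (z134 * z323) fun z324 =>
  letR (z322 + z324) fun z325 =>
  b_R9 gs ps z92 z134 z110 z60 z333 z138 z165 z185 z254 z89 z169 z7 z140 z187 z260 z142 z189 z263 z146 z197 z237 z150 z199 z241 z152 z202 z247 z154 z204 z253 z325

theorem b_S8 {ε : Fin 4 → ℝ} (gs : ℕ) (hε : ∀ i, |ε i| ≤ 1) (ps : ℕ) (z92 z134 z110 z60 z333 z138 z165 z185 z254 z89 z169 z7 z140 z183 z187 z260 z142 z189 z263 z322 z146 z227 z226 z112 z197 z237 z150 z199 z241 z272 z129 z122 : AF) (t92 t134 t110 t60 t333 t138 t165 t185 t254 t89 t169 t7 t140 t183 t187 t260 t142 t189 t263 t322 t146 t227 t226 t112 t197 t237 t150 t199 t241 t272 t129 t122 : ℝ)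
    (g92 : Rel ε z92 t92) (g134 : Rel ε z134 t134) (g110 : Rel ε z110 t110) (g60 : Rel ε z60 t60) (g333 : Rel ε z333 t333) (g138 : Rel ε z138 t138) (g165 : Rel ε z165 t165) (g185 : Rel ε z185 t185) (g254 : Rel ε z254 t254) (g89 : Rel ε z89 t89) (g169 : Rel ε z169 t169) (g7 : Rel ε z7 t7) (g140 : Rel ε z140 t140) (g183 : Rel ε z183 t183) (g187 : Rel ε z187 t187) (g260 : Rel ε z260 t260) (g142 : Rel ε z142 t142) (g189 : Rel ε z189 t189) (g263 : Rel ε z263 t263) (g322 : Rel ε z322 t322) (g146 : Rel ε z146 t146) (g227 : Rel ε z227 t227) (g226 : Rel ε z226 t226) (g112 : Rel ε z112 t112) (g197 : Rel ε z197 t197) (g237 : Rel ε z237 t237) (g150 : Rel ε z150 t150) (g199 : Rel ε z199 t199) (g241 : Rel ε z241 t241) (g272 : Rel ε z272 t272) (g129 : Rel ε z129 t129) (g122 : Rel ε z122 t122) :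
    b_B8 gs ps z92 z134 z110 z60 z333 z138 z165 z185 z254 z89 z169 z7 z140 z183 z187 z260 z142 z189 z263 z322 z146 z227 z226 z112 z197 z237 z150 z199 z241 z272 z129 z122 = true → b_R8 gs ps t92 t134 t110 t60 t333 t138 t165 t185 t254 t89 t169 t7 t140 t183 t187 t260 t142 t189 t263 t322 t146 t227 t226 t112 t197 t237 t150 t199 t241 t272 t129 t122 := by
  delta b_B8 b_R8
  exact subS g129 g122 fun z130 t130 g130 =>
  sqrtS hε g130 fun z131 t131 g131 =>
  invS hε g131 fun z151 t151 g151 =>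
  smulS hε g151 k6 fun z152 t152 g152 =>
  subS g227 g226 fun z228 t228 g228 =>
  normS g228 fun z229 t229 g229 =>
  mulS hε g7 g229 fun z230 t230 g230 =>
  addS g227 g230 fun z242 t242 g242 =>
  normS g242 fun z245 t245 g245 =>
  rsubS g112 k2 fun z200 t200 g200 =>
  mulS hε g112 g183 fun z192 t192 g192 =>
  normS g192 fun z193 t193 g193 =>
  subS g200 g193 fun z201 t201 g201 =>
  sqrtS hε g201 fun z202 t202 g202 =>
  addS g202 g131 fun z243 t243 g243 =>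
  invS hε g243 fun z244 t244 g244 =>
  mulS hε g245 g244 fun z246 t246 g246 =>
  normS g246 fun z247 t247 g247 =>
  sqrS hε g247 fun z273 t273 g273 =>
  mulS hε g152 g273 fun z274 t274 g274 =>
  addS g129 g122 fun z132 t132 g132 =>
  sqrtS hε g132 fun z133 t133 g133 =>
  invS hε g133 fun z153 t153 g153 =>
  smulS hε g153 k6 fun z154 t154 g154 =>
  subS g227 g230 fun z248 t248 g248 =>
  normS g248 fun z251 t251 g251 =>
  addS g200 g193 fun z203 t203 g203 =>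
  sqrtS hε g203 fun z204 t204 g204 =>
  addS g204 g133 fun z249 t249 g249 =>
  invS hε g249 fun z250 t250 g250 =>
  mulS hε g251 g250 fun z252 t252 g252 =>
  normS g252 fun z253 t253 g253 =>
  sqrS hε g253 fun z275 t275 g275 =>
  mulS hε g154 g275 fun z276 t276 g276 =>
  addS g274 g276 fun z277 t277 g277 =>
  normS g277 fun z278 t278 g278 =>
  mulS hε g92 g278 fun z279 t279 g279 =>
  subS g272 g279 fun z280 t280 g280 =>
  normS g280 fun z323 t323 g323 =>
  mulS hε g134 g323 fun z324 t324 g324 =>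
  addS g322 g324 fun z325 t325 g325 =>
  b_S9 gs hε ps z92 z134 z110 z60 z333 z138 z165 z185 z254 z89 z169 z7 z140 z187 z260 z142 z189 z263 z146 z197 z237 z150 z199 z241 z152 z202 z247 z154 z204 z253 z325 t92 t134 t110 t60 t333 t138 t165 t185 t254 t89 t169 t7 t140 t187 t260 t142 t189 t263 t146 t197 t237 t150 t199 t241 t152 t202 t247 t154 t204 t253 t325 g92 g134 g110 g60 g333 g138 g165 g185 g254 g89 g169 g7 g140 g187 g260 g142 g189 g263 g146 g197 g237 g150 g199 g241 g152 g202 g247 g154 g204 g253 g325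

def b_B7 (gs ps : ℕ) (z92 z105 z134 z110 z60 z333 z52 z138 z165 z185 z254 z75 z89 z169 z7 z109 z140 z183 z187 z260 z142 z189 z263 z322 z120 z146 z227 z226 z112 z191 z197 z237 : AF) : Bool :=
  sqrK z237 fun z268 =>
  mulK z146 z268 fun z269 =>
  mulK (cst 4722366736197124253286 1) z52 fun z98 =>
  addcK z98 4722366511017142884761 1 fun z99 =>
  mulK z52 z99 fun z100 =>
  rsubK z100 4722366764344621924352 0 fun z101 =>
  mulK z75 z101 fun z102 =>
  normK z102 fun z103 =>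
  rsubK z120 4722366764344621924352 0 fun z127 =>
  sqrtK z127 fun z128 =>
  invK z128 fun z147 =>
  smulK z147 4722366623607133569024 fun z148 =>
  mulK z103 z148 fun z149 =>
  normK z149 fun z150 =>
  rsubK z191 4722366764344621924352 0 fun z198 =>
  sqrtK z198 fun z199 =>
  addK z199 z128 fun z238 =>
  invK z238 fun z239 =>
  mulK z226 z239 fun z240 =>
  normK z240 fun z241 =>
  sqrK z241 fun z270 =>
  mulK z150 z270 fun z271 =>
  addK z269 z271 fun z272 =>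
  rsubK z105 4722366764344621924352 0 fun z129 =>
  mulK z105 z109 fun z121 =>
  normK z121 fun z122 =>
  b_B8 gs ps z92 z134 z110 z60 z333 z138 z165 z185 z254 z89 z169 z7 z140 z183 z187 z260 z142 z189 z263 z322 z146 z227 z226 z112 z197 z237 z150 z199 z241 z272 z129 z122

def b_R7 (gs ps : ℕ) (z92 z105 z134 z110 z60 z333 z52 z138 z165 z185 z254 z75 z89 z169 z7 z109 z140 z183 z187 z260 z142 z189 z263 z322 z120 z146 z227 z226 z112 z191 z197 z237 : ℝ) : Prop :=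
  letR (z237 ^ 2) fun z268 =>
  letR (z146 * z268) fun z269 =>
  letR ((9 / 10 : ℝ) * z52) fun z98 =>
  letR (z98 + (1 / 10 : ℝ)) fun z99 =>
  letR (z52 * z99) fun z100 =>
  letR ((1 : ℝ) - z100) fun z101 =>
  letR (z75 * z101) fun z102 =>
  letR z102 fun z103 =>
  letR ((1 : ℝ) - z120) fun z127 =>
  letR (√z127) fun z128 =>
  invR z128 fun z147 =>
  letR ((1 / 2 : ℝ) * z147) fun z148 =>
  letR (z103 * z148) fun z149 =>
  letR z149 fun z150 =>
  letR ((1 : ℝ) - z191) fun z198 =>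
  letR (√z198) fun z199 =>
  letR (z199 + z128) fun z238 =>
  invR z238 fun z239 =>
  letR (z226 * z239) fun z240 =>
  letR z240 fun z241 =>
  letR (z241 ^ 2) fun z270 =>
  letR (z150 * z270) fun z271 =>
  letR (z269 + z271) fun z272 =>
  letR ((1 : ℝ) - z105) fun z129 =>
  letR (z105 * z109) fun z121 =>
  letR z121 fun z122 =>
  b_R8 gs ps z92 z134 z110 z60 z333 z138 z165 z185 z254 z89 z169 z7 z140 z183 z187 z260 z142 z189 z263 z322 z146 z227 z226 z112 z197 z237 z150 z199 z241 z272 z129 z122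

theorem b_S7 {ε : Fin 4 → ℝ} (gs : ℕ) (hε : ∀ i, |ε i| ≤ 1) (ps : ℕ) (z92 z105 z134 z110 z60 z333 z52 z138 z165 z185 z254 z75 z89 z169 z7 z109 z140 z183 z187 z260 z142 z189 z263 z322 z120 z146 z227 z226 z112 z191 z197 z237 : AF) (t92 t105 t134 t110 t60 t333 t52 t138 t165 t185 t254 t75 t89 t169 t7 t109 t140 t183 t187 t260 t142 t189 t263 t322 t120 t146 t227 t226 t112 t191 t197 t237 : ℝ)
    (g92 : Rel ε z92 t92) (g105 : Rel ε z105 t105) (g134 : Rel ε z134 t134) (g110 : Rel ε z110 t110) (g60 : Rel ε z60 t60) (g333 : Rel ε z333 t333) (g52 : Rel ε z52 t52) (g138 : Rel ε z138 t138) (g165 : Rel ε z165 t165) (g185 : Rel ε z185 t185) (g254 : Rel ε z254 t254) (g75 : Rel ε z75 t75) (g89 : Rel ε z89 t89) (g169 : Rel ε z169 t169) (g7 : Rel ε z7 t7) (g109 : Rel ε z109 t109) (g140 : Rel ε z140 t140) (g183 : Rel ε z183 t183) (g187 : Rel ε z187 t187) (g260 : Rel ε z260 t260) (g142 : Rel ε z142 t142) (g189 : Rel ε z189 t189)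 (g263 : Rel ε z263 t263) (g322 : Rel ε z322 t322) (g120 : Rel ε z120 t120) (g146 : Rel ε z146 t146) (g227 : Rel ε z227 t227) (g226 : Rel ε z226 t226) (g112 : Rel ε z112 t112) (g191 : Rel ε z191 t191) (g197 : Rel ε z197 t197) (g237 : Rel ε z237 t237) :
    b_B7 gs ps z92 z105 z134 z110 z60 z333 z52 z138 z165 z185 z254 z75 z89 z169 z7 z109 z140 z183 z187 z260 z142 z189 z263 z322 z120 z146 z227 z226 z112 z191 z197 z237 = true → b_R7 gs ps t92 t105 t134 t110 t60 t333 t52 t138 t165 t185 t254 t75 t89 t169 t7 t109 t140 t183 t187 t260 t142 t189 t263 t322 t120 t146 t227 t226 t112 t191 t197 t237 := by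
  delta b_B7 b_R7
  exact sqrS hε g237 fun z268 t268 g268 =>
  mulS hε g146 g268 fun z269 t269 g269 =>
  mulS hε (cst_rel k0) g52 fun z98 t98 g98 =>
  addcS g98 k1 fun z99 t99 g99 =>
  mulS hε g52 g99 fun z100 t100 g100 =>
  rsubS g100 k2 fun z101 t101 g101 =>
  mulS hε g75 g101 fun z102 t102 g102 =>
  normS g102 fun z103 t103 g103 =>
  rsubS g120 k2 fun z127 t127 g127 =>
  sqrtS hε g127 fun z128 t128 g128 =>
  invS hε g128 fun z147 t147 g147 =>
  smulS hε g147 k6 fun z148 t148 g148 =>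
  mulS hε g103 g148 fun z149 t149 g149 =>
  normS g149 fun z150 t150 g150 =>
  rsubS g191 k2 fun z198 t198 g198 =>
  sqrtS hε g198 fun z199 t199 g199 =>
  addS g199 g128 fun z238 t238 g238 =>
  invS hε g238 fun z239 t239 g239 =>
  mulS hε g226 g239 fun z240 t240 g240 =>
  normS g240 fun z241 t241 g241 =>
  sqrS hε g241 fun z270 t270 g270 =>
  mulS hε g150 g270 fun z271 t271 g271 =>
  addS g269 g271 fun z272 t272 g272 =>
  rsubS g105 k2 fun z129 t129 g129 =>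
  mulS hε g105 g109 fun z121 t121 g121 =>
  normS g121 fun z122 t122 g122 =>
  b_S8 gs hε ps z92 z134 z110 z60 z333 z138 z165 z185 z254 z89 z169 z7 z140 z183 z187 z260 z142 z189 z263 z322 z146 z227 z226 z112 z197 z237 z150 z199 z241 z272 z129 z122 t92 t134 t110 t60 t333 t138 t165 t185 t254 t89 t169 t7 t140 t183 t187 t260 t142 t189 t263 t322 t146 t227 t226 t112 t197 t237 t150 t199 t241 t272 t129 t122 g92 g134 g110 g60 g333 g138 g165 g185 g254 g89 g169 g7 g140 g183 g187 g260 g142 g189 g263 g322 g146 g227 g226 g112 g197 g237 g150 g199 g241 g272 g129 g122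

def b_B6 (gs ps : ℕ) (z92 z105 z134 z110 z111 z60 z333 z52 z45 z107 z138 z165 z168 z181 z185 z254 z75 z89 z169 z171 z7 z109 z140 z183 z187 z260 z142 z189 z263 z322 z96 : AF) : Bool :=
  normK z96 fun z97 =>
  mulK z105 z107 fun z119 =>
  normK z119 fun z120 =>
  smulK z105 4722367045819598635008 fun z123 =>
  subK z120 z123 fun z124 =>
  addcK z124 4722366764344621924352 0 fun z125 =>
  sqrtK z125 fun z126 =>
  invK z126 fun z143 =>
  smulK z143 4722366623607133569024 fun z144 =>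
  mulK z97 z144 fun z145 =>
  normK z145 fun z146 =>
  addcK z110 4722366764344621924352 0 fun z227 =>
  smulK z227 4722367045819598635008 fun z231 =>
  mulK z110 z168 fun z222 =>
  addK z222 z45 fun z223 =>
  normK z223 fun z224 =>
  mulK z171 z224 fun z225 =>
  normK z225 fun z226 =>
  subK z231 z226 fun z232 =>
  normK z232 fun z235 =>
  mulK z105 z111 fun z112 =>
  mulK z112 z181 fun z190 =>
  normK z190 fun z191 =>
  smulK z112 4722367045819598635008 fun z194 =>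
  subK z191 z194 fun z195 =>
  addcK z195 4722366764344621924352 0 fun z196 =>
  sqrtK z196 fun z197 =>
  addK z197 z126 fun z233 =>
  invK z233 fun z234 =>
  mulK z235 z234 fun z236 =>
  normK z236 fun z237 =>
  b_B7 gs ps z92 z105 z134 z110 z60 z333 z52 z138 z165 z185 z254 z75 z89 z169 z7 z109 z140 z183 z187 z260 z142 z189 z263 z322 z120 z146 z227 z226 z112 z191 z197 z237

def b_R6 (gs ps : ℕ) (z92 z105 z134 z110 z111 z60 z333 z52 z45 z107 z138 z165 z168 z181 z185 z254 z75 z89 z169 z171 z7 z109 z140 z183 z187 z260 z142 z189 z263 z322 z96 : ℝ) : Prop :=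
  letR z96 fun z97 =>
  letR (z105 * z107) fun z119 =>
  letR z119 fun z120 =>
  letR ((2 : ℝ) * z105) fun z123 =>
  letR (z120 - z123) fun z124 =>
  letR (z124 + (1 : ℝ)) fun z125 =>
  letR (√z125) fun z126 =>
  invR z126 fun z143 =>
  letR ((1 / 2 : ℝ) * z143) fun z144 =>
  letR (z97 * z144) fun z145 =>
  letR z145 fun z146 =>
  letR (z110 + (1 : ℝ)) fun z227 =>
  letR ((2 : ℝ) * z227) fun z231 =>
  letR (z110 * z168) fun z222 =>
  letR (z222 + z45) fun z223 =>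
  letR z223 fun z224 =>
  letR (z171 * z224) fun z225 =>
  letR z225 fun z226 =>
  letR (z231 - z226) fun z232 =>
  letR z232 fun z235 =>
  letR (z105 * z111) fun z112 =>
  letR (z112 * z181) fun z190 =>
  letR z190 fun z191 =>
  letR ((2 : ℝ) * z112) fun z194 =>
  letR (z191 - z194) fun z195 =>
  letR (z195 + (1 : ℝ)) fun z196 =>
  letR (√z196) fun z197 =>
  letR (z197 + z126) fun z233 =>
  invR z233 fun z234 =>
  letR (z235 * z234) fun z236 =>
  letR z236 fun z237 =>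
  b_R7 gs ps z92 z105 z134 z110 z60 z333 z52 z138 z165 z185 z254 z75 z89 z169 z7 z109 z140 z183 z187 z260 z142 z189 z263 z322 z120 z146 z227 z226 z112 z191 z197 z237

theorem b_S6 {ε : Fin 4 → ℝ} (gs : ℕ) (hε : ∀ i, |ε i| ≤ 1) (ps : ℕ) (z92 z105 z134 z110 z111 z60 z333 z52 z45 z107 z138 z165 z168 z181 z185 z254 z75 z89 z169 z171 z7 z109 z140 z183 z187 z260 z142 z189 z263 z322 z96 : AF) (t92 t105 t134 t110 t111 t60 t333 t52 t45 t107 t138 t165 t168 t181 t185 t254 t75 t89 t169 t171 t7 t109 t140 t183 t187 t260 t142 t189 t263 t322 t96 : ℝ)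
    (g92 : Rel ε z92 t92) (g105 : Rel ε z105 t105) (g134 : Rel ε z134 t134) (g110 : Rel ε z110 t110) (g111 : Rel ε z111 t111) (g60 : Rel ε z60 t60) (g333 : Rel ε z333 t333) (g52 : Rel ε z52 t52) (g45 : Rel ε z45 t45) (g107 : Rel ε z107 t107) (g138 : Rel ε z138 t138) (g165 : Rel ε z165 t165) (g168 : Rel ε z168 t168) (g181 : Rel ε z181 t181) (g185 : Rel ε z185 t185) (g254 : Rel ε z254 t254) (g75 : Rel ε z75 t75) (g89 : Rel ε z89 t89) (g169 : Rel ε z169 t169) (g171 : Rel ε z171 t171) (g7 : Rel ε z7 t7) (g109 : Rel ε z109 t109) (g140 : Rel ε z140 t140) (g183 : Rel ε z183 t183) (g187 : Rel ε z187 t187) (g260 : Rel ε z260 t260) (g142 : Rel ε z142 t142) (g189 : Rel ε z189 t189) (g263 : Rel ε z263 t263) (g322 : Rel ε z322 t322) (g96 : Rel ε z96 t96) :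
    b_B6 gs ps z92 z105 z134 z110 z111 z60 z333 z52 z45 z107 z138 z165 z168 z181 z185 z254 z75 z89 z169 z171 z7 z109 z140 z183 z187 z260 z142 z189 z263 z322 z96 = true → b_R6 gs ps t92 t105 t134 t110 t111 t60 t333 t52 t45 t107 t138 t165 t168 t181 t185 t254 t75 t89 t169 t171 t7 t109 t140 t183 t187 t260 t142 t189 t263 t322 t96 := by
  delta b_B6 b_R6
  exact normS g96 fun z97 t97 g97 =>
  mulS hε g105 g107 fun z119 t119 g119 =>
  normS g119 fun z120 t120 g120 =>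
  smulS hε g105 k5 fun z123 t123 g123 =>
  subS g120 g123 fun z124 t124 g124 =>
  addcS g124 k2 fun z125 t125 g125 =>
  sqrtS hε g125 fun z126 t126 g126 =>
  invS hε g126 fun z143 t143 g143 =>
  smulS hε g143 k6 fun z144 t144 g144 =>
  mulS hε g97 g144 fun z145 t145 g145 =>
  normS g145 fun z146 t146 g146 =>
  addcS g110 k2 fun z227 t227 g227 =>
  smulS hε g227 k5 fun z231 t231 g231 =>
  mulS hε g110 g168 fun z222 t222 g222 =>
  addS g222 g45 fun z223 t223 g223 =>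
  normS g223 fun z224 t224 g224 =>
  mulS hε g171 g224 fun z225 t225 g225 =>
  normS g225 fun z226 t226 g226 =>
  subS g231 g226 fun z232 t232 g232 =>
  normS g232 fun z235 t235 g235 =>
  mulS hε g105 g111 fun z112 t112 g112 =>
  mulS hε g112 g181 fun z190 t190 g190 =>
  normS g190 fun z191 t191 g191 =>
  smulS hε g112 k5 fun z194 t194 g194 =>
  subS g191 g194 fun z195 t195 g195 =>
  addcS g195 k2 fun z196 t196 g196 =>
  sqrtS hε g196 fun z197 t197 g197 =>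
  addS g197 g126 fun z233 t233 g233 =>
  invS hε g233 fun z234 t234 g234 =>
  mulS hε g235 g234 fun z236 t236 g236 =>
  normS g236 fun z237 t237 g237 =>
  b_S7 gs hε ps z92 z105 z134 z110 z60 z333 z52 z138 z165 z185 z254 z75 z89 z169 z7 z109 z140 z183 z187 z260 z142 z189 z263 z322 z120 z146 z227 z226 z112 z191 z197 z237 t92 t105 t134 t110 t60 t333 t52 t138 t165 t185 t254 t75 t89 t169 t7 t109 t140 t183 t187 t260 t142 t189 t263 t322 t120 t146 t227 t226 t112 t191 t197 t237 g92 g105 g134 g110 g60 g333 g52 g138 g165 g185 g254 g75 g89 g169 g7 g109 g140 g183 g187 g260 g142 g189 g263 g322 g120 g146 g227 g226 g112 g191 g197 g237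

def b_B5 (gs ps : ℕ) (z92 z105 z134 z110 z111 z60 z333 z62 z52 z65 z66 z45 z107 z138 z165 z168 z181 z185 z208 z254 z75 z89 z169 z171 z259 : AF) : Bool :=
  parK gs 0 fun z7 =>
  rsubK z107 4722366764344621924352 0 fun z108 =>
  mulK z7 z108 fun z109 =>
  addcK z109 4722366764344621924352 0 fun z115 =>
  sqrtK z115 fun z116 =>
  invK z116 fun z139 =>
  smulK z139 4722366623607133569024 fun z140 =>
  rsubK z181 4722366764344621924352 0 fun z182 =>
  mulK z7 z182 fun z183 =>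
  addcK z183 4722366764344621924352 0 fun z186 =>
  sqrtK z186 fun z187 =>
  mulK z7 z208 fun z209 =>
  addK z187 z116 fun z214 =>
  invK z214 fun z215 =>
  mulK z209 z215 fun z216 =>
  subK z187 z216 fun z217 =>
  normK z217 fun z260 =>
  sqrK z260 fun z261 =>
  mulK z140 z261 fun z262 =>
  rsubK z109 4722366764344621924352 0 fun z117 =>
  sqrtK z117 fun z118 =>
  invK z118 fun z141 =>
  smulK z141 4722366623607133569024 fun z142 =>
  rsubK z183 4722366764344621924352 0 fun z188 =>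
  sqrtK z188 fun z189 =>
  addK z189 z118 fun z218 =>
  invK z218 fun z219 =>
  mulK z209 z219 fun z220 =>
  addK z189 z220 fun z221 =>
  normK z221 fun z263 =>
  sqrK z263 fun z264 =>
  mulK z142 z264 fun z265 =>
  addK z262 z265 fun z266 =>
  subK z259 z266 fun z267 =>
  normK z267 fun z321 =>
  mulK z60 z321 fun z322 =>
  addcK z66 4722366511017142884761 1 fun z93 =>
  mulK z65 z93 fun z94 =>
  rsubK z94 4722366764344621924352 0 fun z95 =>
  mulK z62 z95 fun z96 =>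
  b_B6 gs ps z92 z105 z134 z110 z111 z60 z333 z52 z45 z107 z138 z165 z168 z181 z185 z254 z75 z89 z169 z171 z7 z109 z140 z183 z187 z260 z142 z189 z263 z322 z96

def b_R5 (gs ps : ℕ) (z92 z105 z134 z110 z111 z60 z333 z62 z52 z65 z66 z45 z107 z138 z165 z168 z181 z185 z208 z254 z75 z89 z169 z171 z259 : ℝ) : Prop :=
  letR (parV gs 0) fun z7 =>
  letR ((1 : ℝ) - z107) fun z108 =>
  letR (z7 * z108) fun z109 =>
  letR (z109 + (1 : ℝ)) fun z115 =>
  letR (√z115) fun z116 =>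
  invR z116 fun z139 =>
  letR ((1 / 2 : ℝ) * z139) fun z140 =>
  letR ((1 : ℝ) - z181) fun z182 =>
  letR (z7 * z182) fun z183 =>
  letR (z183 + (1 : ℝ)) fun z186 =>
  letR (√z186) fun z187 =>
  letR (z7 * z208) fun z209 =>
  letR (z187 + z116) fun z214 =>
  invR z214 fun z215 =>
  letR (z209 * z215) fun z216 =>
  letR (z187 - z216) fun z217 =>
  letR z217 fun z260 =>
  letR (z260 ^ 2) fun z261 =>
  letR (z140 * z261) fun z262 =>
  letR ((1 : ℝ) - z109) fun z117 =>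
  letR (√z117) fun z118 =>
  invR z118 fun z141 =>
  letR ((1 / 2 : ℝ) * z141) fun z142 =>
  letR ((1 : ℝ) - z183) fun z188 =>
  letR (√z188) fun z189 =>
  letR (z189 + z118) fun z218 =>
  invR z218 fun z219 =>
  letR (z209 * z219) fun z220 =>
  letR (z189 + z220) fun z221 =>
  letR z221 fun z263 =>
  letR (z263 ^ 2) fun z264 =>
  letR (z142 * z264) fun z265 =>
  letR (z262 + z265) fun z266 =>
  letR (z259 - z266) fun z267 =>
  letR z267 fun z321 =>
  letR (z60 * z321) fun z322 =>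
  letR (z66 + (1 / 10 : ℝ)) fun z93 =>
  letR (z65 * z93) fun z94 =>
  letR ((1 : ℝ) - z94) fun z95 =>
  letR (z62 * z95) fun z96 =>
  b_R6 gs ps z92 z105 z134 z110 z111 z60 z333 z52 z45 z107 z138 z165 z168 z181 z185 z254 z75 z89 z169 z171 z7 z109 z140 z183 z187 z260 z142 z189 z263 z322 z96

theorem b_S5 {ε : Fin 4 → ℝ} (gs : ℕ) (hε : ∀ i, |ε i| ≤ 1) (ps : ℕ) (z92 z105 z134 z110 z111 z60 z333 z62 z52 z65 z66 z45 z107 z138 z165 z168 z181 z185 z208 z254 z75 z89 z169 z171 z259 : AF) (t92 t105 t134 t110 t111 t60 t333 t62 t52 t65 t66 t45 t107 t138 t165 t168 t181 t185 t208 t254 t75 t89 t169 t171 t259 : ℝ)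
    (g92 : Rel ε z92 t92) (g105 : Rel ε z105 t105) (g134 : Rel ε z134 t134) (g110 : Rel ε z110 t110) (g111 : Rel ε z111 t111) (g60 : Rel ε z60 t60) (g333 : Rel ε z333 t333) (g62 : Rel ε z62 t62) (g52 : Rel ε z52 t52) (g65 : Rel ε z65 t65) (g66 : Rel ε z66 t66) (g45 : Rel ε z45 t45) (g107 : Rel ε z107 t107) (g138 : Rel ε z138 t138) (g165 : Rel ε z165 t165) (g168 : Rel ε z168 t168) (g181 : Rel ε z181 t181) (g185 : Rel ε z185 t185) (g208 : Rel ε z208 t208) (g254 : Rel ε z254 t254) (g75 : Rel ε z75 t75) (g89 : Rel ε z89 t89) (g169 : Rel ε z169 t169) (g171 : Rel ε z171 t171) (g259 : Rel ε z259 t259) :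
    b_B5 gs ps z92 z105 z134 z110 z111 z60 z333 z62 z52 z65 z66 z45 z107 z138 z165 z168 z181 z185 z208 z254 z75 z89 z169 z171 z259 = true → b_R5 gs ps t92 t105 t134 t110 t111 t60 t333 t62 t52 t65 t66 t45 t107 t138 t165 t168 t181 t185 t208 t254 t75 t89 t169 t171 t259 := by
  delta b_B5 b_R5
  exact parS fun z7 t7 g7 =>
  rsubS g107 k2 fun z108 t108 g108 =>
  mulS hε g7 g108 fun z109 t109 g109 =>
  addcS g109 k2 fun z115 t115 g115 =>
  sqrtS hε g115 fun z116 t116 g116 =>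
  invS hε g116 fun z139 t139 g139 =>
  smulS hε g139 k6 fun z140 t140 g140 =>
  rsubS g181 k2 fun z182 t182 g182 =>
  mulS hε g7 g182 fun z183 t183 g183 =>
  addcS g183 k2 fun z186 t186 g186 =>
  sqrtS hε g186 fun z187 t187 g187 =>
  mulS hε g7 g208 fun z209 t209 g209 =>
  addS g187 g116 fun z214 t214 g214 =>
  invS hε g214 fun z215 t215 g215 =>
  mulS hε g209 g215 fun z216 t216 g216 =>
  subS g187 g216 fun z217 t217 g217 =>
  normS g217 fun z260 t260 g260 =>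
  sqrS hε g260 fun z261 t261 g261 =>
  mulS hε g140 g261 fun z262 t262 g262 =>
  rsubS g109 k2 fun z117 t117 g117 =>
  sqrtS hε g117 fun z118 t118 g118 =>
  invS hε g118 fun z141 t141 g141 =>
  smulS hε g141 k6 fun z142 t142 g142 =>
  rsubS g183 k2 fun z188 t188 g188 =>
  sqrtS hε g188 fun z189 t189 g189 =>
  addS g189 g118 fun z218 t218 g218 =>
  invS hε g218 fun z219 t219 g219 =>
  mulS hε g209 g219 fun z220 t220 g220 =>
  addS g189 g220 fun z221 t221 g221 =>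
  normS g221 fun z263 t263 g263 =>
  sqrS hε g263 fun z264 t264 g264 =>
  mulS hε g142 g264 fun z265 t265 g265 =>
  addS g262 g265 fun z266 t266 g266 =>
  subS g259 g266 fun z267 t267 g267 =>
  normS g267 fun z321 t321 g321 =>
  mulS hε g60 g321 fun z322 t322 g322 =>
  addcS g66 k1 fun z93 t93 g93 =>
  mulS hε g65 g93 fun z94 t94 g94 =>
  rsubS g94 k2 fun z95 t95 g95 =>
  mulS hε g62 g95 fun z96 t96 g96 =>
  b_S6 gs hε ps z92 z105 z134 z110 z111 z60 z333 z52 z45 z107 z138 z165 z168 z181 z185 z254 z75 z89 z169 z171 z7 z109 z140 z183 z187 z260 z142 z189 z263 z322 z96 t92 t105 t134 t110 t111 t60 t333 t52 t45 t107 t138 t165 t168 t181 t185 t254 t75 t89 t169 t171 t7 t109 t140 t183 t187 t260 t142 t189 t263 t322 t96 g92 g105 g134 g110 g111 g60 g333 g52 g45 g107 g138 g165 g168 g181 g185 g254 g75 g89 g169 g171 g7 g109 g140 g183 g187 g260 g142 g189 g263 g322 g96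

def b_B4 (gs ps : ℕ) (x0 x1 z92 z105 z134 z110 z111 z60 z333 z62 z52 z65 z66 z58 z45 z106 z107 z138 z160 z165 z168 z181 z185 z208 z254 z256 z75 : AF) : Bool :=
  parK gs 1 fun z8 =>
  addK x1 z8 fun z72 =>
  normK z72 fun z73 =>
  mulK x1 z73 fun z74 =>
  mulK z75 z74 fun z76 =>
  normK z76 fun z77 =>
  mulK (cst 4722366609533384733491 1) z52 fun z79 =>
  rsubK z79 4722366750270873088819 1 fun z80 =>
  mulK z80 z58 fun z81 =>
  normK z81 fun z82 =>
  mulK z77 z82 fun z83 =>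
  parK gs 16 fun z23 =>
  parK gs 17 fun z24 =>
  mulK z24 x0 fun z46 =>
  addK z23 z46 fun z47 =>
  parK gs 18 fun z25 =>
  mulK z25 x1 fun z48 =>
  addK z47 z48 fun z49 =>
  addK z83 z49 fun z84 =>
  normK z84 fun z87 =>
  addK z45 z8 fun z85 =>
  invK z85 fun z86 =>
  mulK z87 z86 fun z88 =>
  normK z88 fun z89 =>
  addK z165 z160 fun z166 =>
  normK z166 fun z169 =>
  mulK z106 z169 fun z170 =>
  normK z170 fun z171 =>
  sqrK z171 fun z257 =>
  mulK z89 z257 fun z258 =>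
  addK z256 z258 fun z259 =>
  b_B5 gs ps z92 z105 z134 z110 z111 z60 z333 z62 z52 z65 z66 z45 z107 z138 z165 z168 z181 z185 z208 z254 z75 z89 z169 z171 z259

def b_R4 (gs ps : ℕ) (sg v z92 z105 z134 z110 z111 z60 z333 z62 z52 z65 z66 z58 z45 z106 z107 z138 z160 z165 z168 z181 z185 z208 z254 z256 z75 : ℝ) : Prop :=
  letR (parV gs 1) fun z8 =>
  letR (v + z8) fun z72 =>
  letR z72 fun z73 =>
  letR (v * z73) fun z74 =>
  letR (z75 * z74) fun z76 =>
  letR z76 fun z77 =>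
  letR ((9 / 20 : ℝ) * z52) fun z79 =>
  letR ((19 / 20 : ℝ) - z79) fun z80 =>
  letR (z80 * z58) fun z81 =>
  letR z81 fun z82 =>
  letR (z77 * z82) fun z83 =>
  letR (parV gs 16) fun z23 =>
  letR (parV gs 17) fun z24 =>
  letR (z24 * sg) fun z46 =>
  letR (z23 + z46) fun z47 =>
  letR (parV gs 18) fun z25 =>
  letR (z25 * v) fun z48 =>
  letR (z47 + z48) fun z49 =>
  letR (z83 + z49) fun z84 =>
  letR z84 fun z87 =>
  letR (z45 + z8) fun z85 =>
  invR z85 fun z86 =>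
  letR (z87 * z86) fun z88 =>
  letR z88 fun z89 =>
  letR (z165 + z160) fun z166 =>
  letR z166 fun z169 =>
  letR (z106 * z169) fun z170 =>
  letR z170 fun z171 =>
  letR (z171 ^ 2) fun z257 =>
  letR (z89 * z257) fun z258 =>
  letR (z256 + z258) fun z259 =>
  b_R5 gs ps z92 z105 z134 z110 z111 z60 z333 z62 z52 z65 z66 z45 z107 z138 z165 z168 z181 z185 z208 z254 z75 z89 z169 z171 z259

theorem b_S4 {ε : Fin 4 → ℝ} (gs : ℕ) (hε : ∀ i, |ε i| ≤ 1) (ps : ℕ) (x0 x1 z92 z105 z134 z110 z111 z60 z333 z62 z52 z65 z66 z58 z45 z106 z107 z138 z160 z165 z168 z181 z185 z208 z254 z256 z75 : AF) (sg v t92 t105 t134 t110 t111 t60 t333 t62 t52 t65 t66 t58 t45 t106 t107 t138 t160 t165 t168 t181 t185 t208 t254 t256 t75 : ℝ)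
    (h0 : Rel ε x0 sg) (h1 : Rel ε x1 v) (g92 : Rel ε z92 t92) (g105 : Rel ε z105 t105) (g134 : Rel ε z134 t134) (g110 : Rel ε z110 t110) (g111 : Rel ε z111 t111) (g60 : Rel ε z60 t60) (g333 : Rel ε z333 t333) (g62 : Rel ε z62 t62) (g52 : Rel ε z52 t52) (g65 : Rel ε z65 t65) (g66 : Rel ε z66 t66) (g58 : Rel ε z58 t58) (g45 : Rel ε z45 t45) (g106 : Rel ε z106 t106) (g107 : Rel ε z107 t107) (g138 : Rel ε z138 t138) (g160 : Rel ε z160 t160) (g165 : Rel ε z165 t165) (g168 : Rel ε z168 t168) (g181 : Rel ε z181 t181) (g185 : Rel ε z185 t185) (g208 : Rel ε z208 t208) (g254 : Rel ε z254 t254) (g256 : Rel ε z256 t256) (g75 : Rel ε z75 t75) :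
    b_B4 gs ps x0 x1 z92 z105 z134 z110 z111 z60 z333 z62 z52 z65 z66 z58 z45 z106 z107 z138 z160 z165 z168 z181 z185 z208 z254 z256 z75 = true → b_R4 gs ps sg v t92 t105 t134 t110 t111 t60 t333 t62 t52 t65 t66 t58 t45 t106 t107 t138 t160 t165 t168 t181 t185 t208 t254 t256 t75 := by
  delta b_B4 b_R4
  exact parS fun z8 t8 g8 =>
  addS h1 g8 fun z72 t72 g72 =>
  normS g72 fun z73 t73 g73 =>
  mulS hε h1 g73 fun z74 t74 g74 =>
  mulS hε g75 g74 fun z76 t76 g76 =>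
  normS g76 fun z77 t77 g77 =>
  mulS hε (cst_rel k7) g52 fun z79 t79 g79 =>
  rsubS g79 k8 fun z80 t80 g80 =>
  mulS hε g80 g58 fun z81 t81 g81 =>
  normS g81 fun z82 t82 g82 =>
  mulS hε g77 g82 fun z83 t83 g83 =>
  parS fun z23 t23 g23 =>
  parS fun z24 t24 g24 =>
  mulS hε g24 h0 fun z46 t46 g46 =>
  addS g23 g46 fun z47 t47 g47 =>
  parS fun z25 t25 g25 =>
  mulS hε g25 h1 fun z48 t48 g48 =>
  addS g47 g48 fun z49 t49 g49 =>
  addS g83 g49 fun z84 t84 g84 =>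
  normS g84 fun z87 t87 g87 =>
  addS g45 g8 fun z85 t85 g85 =>
  invS hε g85 fun z86 t86 g86 =>
  mulS hε g87 g86 fun z88 t88 g88 =>
  normS g88 fun z89 t89 g89 =>
  addS g165 g160 fun z166 t166 g166 =>
  normS g166 fun z169 t169 g169 =>
  mulS hε g106 g169 fun z170 t170 g170 =>
  normS g170 fun z171 t171 g171 =>
  sqrS hε g171 fun z257 t257 g257 =>
  mulS hε g89 g257 fun z258 t258 g258 =>
  addS g256 g258 fun z259 t259 g259 =>
  b_S5 gs hε ps z92 z105 z134 z110 z111 z60 z333 z62 z52 z65 z66 z45 z107 z138 z165 z168 z181 z185 z208 z254 z75 z89 z169 z171 z259 t92 t105 t134 t110 t111 t60 t333 t62 t52 t65 t66 t45 t107 t138 t165 t168 t181 t185 t208 t254 t75 t89 t169 t171 t259 g92 g105 g134 g110 g111 g60 g333 g62 g52 g65 g66 g45 g107 g138 g165 g168 g181 g185 g208 g254 g75 g89 g169 g171 g259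

def b_B3 (gs ps : ℕ) (x0 x1 x2 z92 z105 z134 z110 z111 z60 z333 z62 z52 z65 z66 z58 z45 z106 z107 z114 z138 z160 : AF) : Bool :=
  normK z160 fun z161 =>
  mulK x2 z161 fun z164 =>
  addcK z164 4722366764344621924352 0 fun z165 =>
  mulK z106 z165 fun z167 =>
  normK z167 fun z168 =>
  sqrK z168 fun z181 =>
  rsubK z181 4722367045819598635008 0 fun z184 =>
  sqrtK z184 fun z185 =>
  mulK z106 z161 fun z162 =>
  normK z162 fun z163 =>
  addK z168 z45 fun z205 =>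
  normK z205 fun z206 =>
  mulK z163 z206 fun z207 =>
  normK z207 fun z208 =>
  addK z185 z114 fun z210 =>
  invK z210 fun z211 =>
  mulK z208 z211 fun z212 =>
  subK z185 z212 fun z213 =>
  normK z213 fun z254 =>
  sqrK z254 fun z255 =>
  mulK z138 z255 fun z256 =>
  parK gs 7 fun z14 =>
  parK gs 8 fun z15 =>
  mulK z15 x0 fun z34 =>
  addK z14 z34 fun z35 =>
  parK gs 9 fun z16 =>
  mulK z16 x1 fun z36 =>
  addK z35 z36 fun z37 =>
  normK z37 fun z75 =>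
  b_B4 gs ps x0 x1 z92 z105 z134 z110 z111 z60 z333 z62 z52 z65 z66 z58 z45 z106 z107 z138 z160 z165 z168 z181 z185 z208 z254 z256 z75

def b_R3 (gs ps : ℕ) (sg v e z92 z105 z134 z110 z111 z60 z333 z62 z52 z65 z66 z58 z45 z106 z107 z114 z138 z160 : ℝ) : Prop :=
  letR z160 fun z161 =>
  letR (e * z161) fun z164 =>
  letR (z164 + (1 : ℝ)) fun z165 =>
  letR (z106 * z165) fun z167 =>
  letR z167 fun z168 =>
  letR (z168 ^ 2) fun z181 =>
  letR ((2 : ℝ) - z181) fun z184 =>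
  letR (√z184) fun z185 =>
  letR (z106 * z161) fun z162 =>
  letR z162 fun z163 =>
  letR (z168 + z45) fun z205 =>
  letR z205 fun z206 =>
  letR (z163 * z206) fun z207 =>
  letR z207 fun z208 =>
  letR (z185 + z114) fun z210 =>
  invR z210 fun z211 =>
  letR (z208 * z211) fun z212 =>
  letR (z185 - z212) fun z213 =>
  letR z213 fun z254 =>
  letR (z254 ^ 2) fun z255 =>
  letR (z138 * z255) fun z256 =>
  letR (parV gs 7) fun z14 =>
  letR (parV gs 8) fun z15 =>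
  letR (z15 * sg) fun z34 =>
  letR (z14 + z34) fun z35 =>
  letR (parV gs 9) fun z16 =>
  letR (z16 * v) fun z36 =>
  letR (z35 + z36) fun z37 =>
  letR z37 fun z75 =>
  b_R4 gs ps sg v z92 z105 z134 z110 z111 z60 z333 z62 z52 z65 z66 z58 z45 z106 z107 z138 z160 z165 z168 z181 z185 z208 z254 z256 z75

theorem b_S3 {ε : Fin 4 → ℝ} (gs : ℕ) (hε : ∀ i, |ε i| ≤ 1) (ps : ℕ) (x0 x1 x2 z92 z105 z134 z110 z111 z60 z333 z62 z52 z65 z66 z58 z45 z106 z107 z114 z138 z160 : AF) (sg v e t92 t105 t134 t110 t111 t60 t333 t62 t52 t65 t66 t58 t45 t106 t107 t114 t138 t160 : ℝ)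
    (h0 : Rel ε x0 sg) (h1 : Rel ε x1 v) (h2 : Rel ε x2 e) (g92 : Rel ε z92 t92) (g105 : Rel ε z105 t105) (g134 : Rel ε z134 t134) (g110 : Rel ε z110 t110) (g111 : Rel ε z111 t111) (g60 : Rel ε z60 t60) (g333 : Rel ε z333 t333) (g62 : Rel ε z62 t62) (g52 : Rel ε z52 t52) (g65 : Rel ε z65 t65) (g66 : Rel ε z66 t66) (g58 : Rel ε z58 t58) (g45 : Rel ε z45 t45) (g106 : Rel ε z106 t106) (g107 : Rel ε z107 t107) (g114 : Rel ε z114 t114) (g138 : Rel ε z138 t138) (g160 : Rel ε z160 t160) :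
    b_B3 gs ps x0 x1 x2 z92 z105 z134 z110 z111 z60 z333 z62 z52 z65 z66 z58 z45 z106 z107 z114 z138 z160 = true → b_R3 gs ps sg v e t92 t105 t134 t110 t111 t60 t333 t62 t52 t65 t66 t58 t45 t106 t107 t114 t138 t160 := by
  delta b_B3 b_R3
  exact normS g160 fun z161 t161 g161 =>
  mulS hε h2 g161 fun z164 t164 g164 =>
  addcS g164 k2 fun z165 t165 g165 =>
  mulS hε g106 g165 fun z167 t167 g167 =>
  normS g167 fun z168 t168 g168 =>
  sqrS hε g168 fun z181 t181 g181 =>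
  rsubS g181 k4 fun z184 t184 g184 =>
  sqrtS hε g184 fun z185 t185 g185 =>
  mulS hε g106 g161 fun z162 t162 g162 =>
  normS g162 fun z163 t163 g163 =>
  addS g168 g45 fun z205 t205 g205 =>
  normS g205 fun z206 t206 g206 =>
  mulS hε g163 g206 fun z207 t207 g207 =>
  normS g207 fun z208 t208 g208 =>
  addS g185 g114 fun z210 t210 g210 =>
  invS hε g210 fun z211 t211 g211 =>
  mulS hε g208 g211 fun z212 t212 g212 =>
  subS g185 g212 fun z213 t213 g213 =>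
  normS g213 fun z254 t254 g254 =>
  sqrS hε g254 fun z255 t255 g255 =>
  mulS hε g138 g255 fun z256 t256 g256 =>
  parS fun z14 t14 g14 =>
  parS fun z15 t15 g15 =>
  mulS hε g15 h0 fun z34 t34 g34 =>
  addS g14 g34 fun z35 t35 g35 =>
  parS fun z16 t16 g16 =>
  mulS hε g16 h1 fun z36 t36 g36 =>
  addS g35 g36 fun z37 t37 g37 =>
  normS g37 fun z75 t75 g75 =>
  b_S4 gs hε ps x0 x1 z92 z105 z134 z110 z111 z60 z333 z62 z52 z65 z66 z58 z45 z106 z107 z138 z160 z165 z168 z181 z185 z208 z254 z256 z75 sg v t92 t105 t134 t110 t111 t60 t333 t62 t52 t65 t66 t58 t45 t106 t107 t138 t160 t165 t168 t181 t185 t208 t254 t256 t75 h0 h1 g92 g105 g134 g110 g111 g60 g333 g62 g52 g65 g66 g58 g45 g106 g107 g138 g160 g165 g168 g181 g185 g208 g254 g256 g75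

def b_B2 (gs ps : ℕ) (x0 x1 x2 z3 z4 z5 z6 z92 z105 z134 z110 z111 z57 z60 z333 z62 z64 z52 z65 : AF) : Bool :=
  mulK (cst 4722366736197124253286 1) z65 fun z66 =>
  rsubK z66 4722367017672100963942 1 fun z67 =>
  invK z57 fun z58 =>
  mulK z67 z58 fun z68 =>
  normK z68 fun z69 =>
  mulK z64 z69 fun z70 =>
  normK z70 fun z71 =>
  parK gs 13 fun z20 =>
  parK gs 14 fun z21 =>
  mulK z21 x0 fun z42 =>
  addK z20 z42 fun z43 =>
  parK gs 15 fun z22 =>
  mulK z22 x1 fun z44 =>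
  addK z43 z44 fun z45 =>
  normK z45 fun z106 =>
  sqrK z106 fun z107 =>
  rsubK z107 4722367045819598635008 0 fun z113 =>
  sqrtK z113 fun z114 =>
  invK z114 fun z135 =>
  smulK z135 4722366623607133569024 fun z136 =>
  mulK z71 z136 fun z137 =>
  normK z137 fun z138 =>
  mulK z4 x0 fun z155 =>
  addK z3 z155 fun z156 =>
  mulK z5 x1 fun z157 =>
  addK z156 z157 fun z158 =>
  mulK z6 x2 fun z159 =>
  addK z158 z159 fun z160 =>
  b_B3 gs ps x0 x1 x2 z92 z105 z134 z110 z111 z60 z333 z62 z52 z65 z66 z58 z45 z106 z107 z114 z138 z160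

def b_R2 (gs ps : ℕ) (sg v e z3 z4 z5 z6 z92 z105 z134 z110 z111 z57 z60 z333 z62 z64 z52 z65 : ℝ) : Prop :=
  letR ((9 / 10 : ℝ) * z65) fun z66 =>
  letR ((19 / 10 : ℝ) - z66) fun z67 =>
  invR z57 fun z58 =>
  letR (z67 * z58) fun z68 =>
  letR z68 fun z69 =>
  letR (z64 * z69) fun z70 =>
  letR z70 fun z71 =>
  letR (parV gs 13) fun z20 =>
  letR (parV gs 14) fun z21 =>
  letR (z21 * sg) fun z42 =>
  letR (z20 + z42) fun z43 =>
  letR (parV gs 15) fun z22 =>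
  letR (z22 * v) fun z44 =>
  letR (z43 + z44) fun z45 =>
  letR z45 fun z106 =>
  letR (z106 ^ 2) fun z107 =>
  letR ((2 : ℝ) - z107) fun z113 =>
  letR (√z113) fun z114 =>
  invR z114 fun z135 =>
  letR ((1 / 2 : ℝ) * z135) fun z136 =>
  letR (z71 * z136) fun z137 =>
  letR z137 fun z138 =>
  letR (z4 * sg) fun z155 =>
  letR (z3 + z155) fun z156 =>
  letR (z5 * v) fun z157 =>
  letR (z156 + z157) fun z158 =>
  letR (z6 * e) fun z159 =>
  letR (z158 + z159) fun z160 =>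
  b_R3 gs ps sg v e z92 z105 z134 z110 z111 z60 z333 z62 z52 z65 z66 z58 z45 z106 z107 z114 z138 z160

theorem b_S2 {ε : Fin 4 → ℝ} (gs : ℕ) (hε : ∀ i, |ε i| ≤ 1) (ps : ℕ) (x0 x1 x2 z3 z4 z5 z6 z92 z105 z134 z110 z111 z57 z60 z333 z62 z64 z52 z65 : AF) (sg v e t3 t4 t5 t6 t92 t105 t134 t110 t111 t57 t60 t333 t62 t64 t52 t65 : ℝ)
    (h0 : Rel ε x0 sg) (h1 : Rel ε x1 v) (h2 : Rel ε x2 e) (g3 : Rel ε z3 t3) (g4 : Rel ε z4 t4) (g5 : Rel ε z5 t5) (g6 : Rel ε z6 t6) (g92 : Rel ε z92 t92) (g105 : Rel ε z105 t105) (g134 : Rel ε z134 t134) (g110 : Rel ε z110 t110) (g111 : Rel ε z111 t111) (g57 : Rel ε z57 t57) (g60 : Rel ε z60 t60) (g333 : Rel ε z333 t333) (g62 : Rel ε z62 t62) (g64 : Rel ε z64 t64) (g52 : Rel ε z52 t52) (g65 : Rel ε z65 t65) :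
    b_B2 gs ps x0 x1 x2 z3 z4 z5 z6 z92 z105 z134 z110 z111 z57 z60 z333 z62 z64 z52 z65 = true → b_R2 gs ps sg v e t3 t4 t5 t6 t92 t105 t134 t110 t111 t57 t60 t333 t62 t64 t52 t65 := by
  delta b_B2 b_R2
  exact mulS hε (cst_rel k0) g65 fun z66 t66 g66 =>
  rsubS g66 k3 fun z67 t67 g67 =>
  invS hε g57 fun z58 t58 g58 =>
  mulS hε g67 g58 fun z68 t68 g68 =>
  normS g68 fun z69 t69 g69 =>
  mulS hε g64 g69 fun z70 t70 g70 =>
  normS g70 fun z71 t71 g71 =>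
  parS fun z20 t20 g20 =>
  parS fun z21 t21 g21 =>
  mulS hε g21 h0 fun z42 t42 g42 =>
  addS g20 g42 fun z43 t43 g43 =>
  parS fun z22 t22 g22 =>
  mulS hε g22 h1 fun z44 t44 g44 =>
  addS g43 g44 fun z45 t45 g45 =>
  normS g45 fun z106 t106 g106 =>
  sqrS hε g106 fun z107 t107 g107 =>
  rsubS g107 k4 fun z113 t113 g113 =>
  sqrtS hε g113 fun z114 t114 g114 =>
  invS hε g114 fun z135 t135 g135 =>
  smulS hε g135 k6 fun z136 t136 g136 =>
  mulS hε g71 g136 fun z137 t137 g137 =>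
  normS g137 fun z138 t138 g138 =>
  mulS hε g4 h0 fun z155 t155 g155 =>
  addS g3 g155 fun z156 t156 g156 =>
  mulS hε g5 h1 fun z157 t157 g157 =>
  addS g156 g157 fun z158 t158 g158 =>
  mulS hε g6 h2 fun z159 t159 g159 =>
  addS g158 g159 fun z160 t160 g160 =>
  b_S3 gs hε ps x0 x1 x2 z92 z105 z134 z110 z111 z60 z333 z62 z52 z65 z66 z58 z45 z106 z107 z114 z138 z160 sg v e t92 t105 t134 t110 t111 t60 t333 t62 t52 t65 t66 t58 t45 t106 t107 t114 t138 t160 h0 h1 h2 g92 g105 g134 g110 g111 g60 g333 g62 g52 g65 g66 g58 g45 g106 g107 g114 g138 g160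

def b_B1 (gs ps : ℕ) (x0 x1 x2 z3 z4 z5 z6 z50 z56 z92 z105 z134 z176 : AF) : Bool :=
  addcK x2 4722366764344621924352 0 fun z110 =>
  sqrK z110 fun z111 =>
  mulK z111 z110 fun z177 =>
  mulK z176 z177 fun z178 =>
  parK gs 2 fun z9 =>
  rsubK z56 4722367017672100963942 1 fun z57 =>
  mulK z50 z57 fun z59 =>
  normK z59 fun z60 =>
  mulK z9 z60 fun z179 =>
  addK z178 z179 fun z180 =>
  normK z180 fun z333 =>
  parK gs 4 fun z11 =>
  parK gs 5 fun z12 =>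
  mulK z12 x0 fun z30 =>
  addK z11 z30 fun z31 =>
  parK gs 6 fun z13 =>
  mulK z13 x1 fun z32 =>
  addK z31 z32 fun z33 =>
  normK z33 fun z62 =>
  sqrK x1 fun z51 =>
  rsubK z51 4722367045819598635008 0 fun z61 =>
  mulK z62 z61 fun z63 =>
  normK z63 fun z64 =>
  smulK z50 4722367045819598635008 fun z53 =>
  mulK z50 z51 fun z52 =>
  subK z53 z52 fun z54 =>
  normK z54 fun z65 =>
  b_B2 gs ps x0 x1 x2 z3 z4 z5 z6 z92 z105 z134 z110 z111 z57 z60 z333 z62 z64 z52 z65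

def b_R1 (gs ps : ℕ) (sg v e z3 z4 z5 z6 z50 z56 z92 z105 z134 z176 : ℝ) : Prop :=
  letR (e + (1 : ℝ)) fun z110 =>
  letR (z110 ^ 2) fun z111 =>
  letR (z111 * z110) fun z177 =>
  letR (z176 * z177) fun z178 =>
  letR (parV gs 2) fun z9 =>
  letR ((19 / 10 : ℝ) - z56) fun z57 =>
  letR (z50 * z57) fun z59 =>
  letR z59 fun z60 =>
  letR (z9 * z60) fun z179 =>
  letR (z178 + z179) fun z180 =>
  letR z180 fun z333 =>
  letR (parV gs 4) fun z11 =>
  letR (parV gs 5) fun z12 =>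
  letR (z12 * sg) fun z30 =>
  letR (z11 + z30) fun z31 =>
  letR (parV gs 6) fun z13 =>
  letR (z13 * v) fun z32 =>
  letR (z31 + z32) fun z33 =>
  letR z33 fun z62 =>
  letR (v ^ 2) fun z51 =>
  letR ((2 : ℝ) - z51) fun z61 =>
  letR (z62 * z61) fun z63 =>
  letR z63 fun z64 =>
  letR ((2 : ℝ) * z50) fun z53 =>
  letR (z50 * z51) fun z52 =>
  letR (z53 - z52) fun z54 =>
  letR z54 fun z65 =>
  b_R2 gs ps sg v e z3 z4 z5 z6 z92 z105 z134 z110 z111 z57 z60 z333 z62 z64 z52 z65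

theorem b_S1 {ε : Fin 4 → ℝ} (gs : ℕ) (hε : ∀ i, |ε i| ≤ 1) (ps : ℕ) (x0 x1 x2 z3 z4 z5 z6 z50 z56 z92 z105 z134 z176 : AF) (sg v e t3 t4 t5 t6 t50 t56 t92 t105 t134 t176 : ℝ)
    (h0 : Rel ε x0 sg) (h1 : Rel ε x1 v) (h2 : Rel ε x2 e) (g3 : Rel ε z3 t3) (g4 : Rel ε z4 t4) (g5 : Rel ε z5 t5) (g6 : Rel ε z6 t6) (g50 : Rel ε z50 t50) (g56 : Rel ε z56 t56) (g92 : Rel ε z92 t92) (g105 : Rel ε z105 t105) (g134 : Rel ε z134 t134) (g176 : Rel ε z176 t176) :
    b_B1 gs ps x0 x1 x2 z3 z4 z5 z6 z50 z56 z92 z105 z134 z176 = true → b_R1 gs ps sg v e t3 t4 t5 t6 t50 t56 t92 t105 t134 t176 := by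
  delta b_B1 b_R1
  exact addcS h2 k2 fun z110 t110 g110 =>
  sqrS hε g110 fun z111 t111 g111 =>
  mulS hε g111 g110 fun z177 t177 g177 =>
  mulS hε g176 g177 fun z178 t178 g178 =>
  parS fun z9 t9 g9 =>
  rsubS g56 k3 fun z57 t57 g57 =>
  mulS hε g50 g57 fun z59 t59 g59 =>
  normS g59 fun z60 t60 g60 =>
  mulS hε g9 g60 fun z179 t179 g179 =>
  addS g178 g179 fun z180 t180 g180 =>
  normS g180 fun z333 t333 g333 =>
  parS fun z11 t11 g11 =>
  parS fun z12 t12 g12 =>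
  mulS hε g12 h0 fun z30 t30 g30 =>
  addS g11 g30 fun z31 t31 g31 =>
  parS fun z13 t13 g13 =>
  mulS hε g13 h1 fun z32 t32 g32 =>
  addS g31 g32 fun z33 t33 g33 =>
  normS g33 fun z62 t62 g62 =>
  sqrS hε h1 fun z51 t51 g51 =>
  rsubS g51 k4 fun z61 t61 g61 =>
  mulS hε g62 g61 fun z63 t63 g63 =>
  normS g63 fun z64 t64 g64 =>
  smulS hε g50 k5 fun z53 t53 g53 =>
  mulS hε g50 g51 fun z52 t52 g52 =>
  subS g53 g52 fun z54 t54 g54 =>
  normS g54 fun z65 t65 g65 =>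
  b_S2 gs hε ps x0 x1 x2 z3 z4 z5 z6 z92 z105 z134 z110 z111 z57 z60 z333 z62 z64 z52 z65 sg v e t3 t4 t5 t6 t92 t105 t134 t110 t111 t57 t60 t333 t62 t64 t52 t65 h0 h1 h2 g3 g4 g5 g6 g92 g105 g134 g110 g111 g57 g60 g333 g62 g64 g52 g65

def b_B (gs ps : ℕ) (x0 x1 x2 x3 : AF) : Bool :=
  parK ps 0 fun z3 =>
  parK ps 1 fun z4 =>
  parK ps 2 fun z5 =>
  parK ps 3 fun z6 =>
  parK gs 3 fun z10 =>
  sqrK x0 fun z50 =>
  mulK (cst 4722366736197124253286 1) z50 fun z56 =>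
  addcK z56 4722366511017142884761 1 fun z90 =>
  mulK z50 z90 fun z91 =>
  rsubK z91 4722366764344621924352 0 fun z92 =>
  parK gs 10 fun z17 =>
  parK gs 11 fun z18 =>
  mulK z18 x0 fun z38 =>
  addK z17 z38 fun z39 =>
  parK gs 12 fun z19 =>
  mulK z19 x1 fun z40 =>
  addK z39 z40 fun z41 =>
  normK z41 fun z104 =>
  sqrK z104 fun z105 =>
  mulK z104 z105 fun z134 =>
  mulK z92 z134 fun z175 =>
  mulK z10 z175 fun z176 =>
  b_B1 gs ps x0 x1 x2 z3 z4 z5 z6 z50 z56 z92 z105 z134 z176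

def b_R (gs ps : ℕ) (sg v e u3 : ℝ) : Prop :=
  letR (parV ps 0) fun z3 =>
  letR (parV ps 1) fun z4 =>
  letR (parV ps 2) fun z5 =>
  letR (parV ps 3) fun z6 =>
  letR (parV gs 3) fun z10 =>
  letR (sg ^ 2) fun z50 =>
  letR ((9 / 10 : ℝ) * z50) fun z56 =>
  letR (z56 + (1 / 10 : ℝ)) fun z90 =>
  letR (z50 * z90) fun z91 =>
  letR ((1 : ℝ) - z91) fun z92 =>
  letR (parV gs 10) fun z17 =>
  letR (parV gs 11) fun z18 =>
  letR (z18 * sg) fun z38 =>
  letR (z17 + z38) fun z39 =>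
  letR (parV gs 12) fun z19 =>
  letR (z19 * v) fun z40 =>
  letR (z39 + z40) fun z41 =>
  letR z41 fun z104 =>
  letR (z104 ^ 2) fun z105 =>
  letR (z104 * z105) fun z134 =>
  letR (z92 * z134) fun z175 =>
  letR (z10 * z175) fun z176 =>
  b_R1 gs ps sg v e z3 z4 z5 z6 z50 z56 z92 z105 z134 z176

theorem b_S {ε : Fin 4 → ℝ} (gs : ℕ) (hε : ∀ i, |ε i| ≤ 1) (ps : ℕ) (x0 x1 x2 x3 : AF) (sg v e u3 : ℝ)
    (h0 : Rel ε x0 sg) (h1 : Rel ε x1 v) (h2 : Rel ε x2 e) (h3 : Rel ε x3 u3) :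
    b_B gs ps x0 x1 x2 x3 = true → b_R gs ps sg v e u3 := by
  delta b_B b_R
  exact parS fun z3 t3 g3 =>
  parS fun z4 t4 g4 =>
  parS fun z5 t5 g5 =>
  parS fun z6 t6 g6 =>
  parS fun z10 t10 g10 =>
  sqrS hε h0 fun z50 t50 g50 =>
  mulS hε (cst_rel k0) g50 fun z56 t56 g56 =>
  addcS g56 k1 fun z90 t90 g90 =>
  mulS hε g50 g90 fun z91 t91 g91 =>
  rsubS g91 k2 fun z92 t92 g92 =>
  parS fun z17 t17 g17 =>
  parS fun z18 t18 g18 =>
  mulS hε g18 h0 fun z38 t38 g38 =>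
  addS g17 g38 fun z39 t39 g39 =>
  parS fun z19 t19 g19 =>
  mulS hε g19 h1 fun z40 t40 g40 =>
  addS g39 g40 fun z41 t41 g41 =>
  normS g41 fun z104 t104 g104 =>
  sqrS hε g104 fun z105 t105 g105 =>
  mulS hε g104 g105 fun z134 t134 g134 =>
  mulS hε g92 g134 fun z175 t175 g175 =>
  mulS hε g10 g175 fun z176 t176 g176 =>
  b_S1 gs hε ps x0 x1 x2 z3 z4 z5 z6 z50 z56 z92 z105 z134 z176 sg v e t3 t4 t5 t6 t50 t56 t92 t105 t134 t176 h0 h1 h2 g3 g4 g5 g6 g50 g56 g92 g105 g134 g176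

/- obtain ⟨pa, pb, pc, pd, al, w56, w, b, cb, cf, n, n2, uh, u, K, mu0, v2, a1, a0, w66, iu, A0, ga, g2, Ac, cA, up, f0, tau, t2, A, T, jj, d0, mu1, ex, LB, f1, d1, rg, M0c, cM0, rt, M0, rj, e0, M1c, cM1, M1, e1, PhN, W0, cg, s0c, cW0, E, G, x, xt, s0, z0, W1, s1c, cW1, s1, z1, w129, cr, p0c, cP0, rG, w200, xr, p0, y0, p1c, cP1, p1, y1, PhF, Phi, Q, PsN, PsF, Psi, h_al, h_w56, h_w, h_b, h_cb, h_cf, h_n, h_n2, h_uh, h_u, h_K, h_mu0, h_v2, h_a1, h_a0, h_w66, p_iu, h_iu, h_A0, h_ga, h_g2, h_Ac, p_Ac, h_cA, h_up, h_f0, h_tau, h_t2, h_A, h_T, h_jj, p_31, h_d0, h_mu1, h_ex, p_35, h_LB, h_f1, h_d1, h_rg, h_M0c, p_M0c, h_cM0, h_rt, h_M0, h_rj, p_46, h_e0, h_M1c, p_M1c, h_cM1, h_M1, p_52, h_e1, h_PhN, h_W0, h_cg, h_s0c, p_s0c, h_cW0, h_E, h_G, h_x, h_xt, h_s0, p_65, h_z0, h_W1, h_s1c, p_s1c, h_cW1, h_s1, p_72, h_z1, h_w129, h_cr, h_p0c, p_p0c, h_cP0, h_rG, h_w200, h_xr, h_p0, p_83, h_y0, h_p1c, p_p1c, h_cP1, h_p1,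 p_89, h_y1, h_PhF, h_Phi, p_A, p_f0, h_Q, p_M0, p_M1, h_PsN, p_s0, p_s1, p_p0, p_p1, h_PsF, h_Psi, c0⟩ := h -/
def b_Spec (rho l4 ku kw ma0 ma1 ma2 mb0 mb1 mb2 bq0 bq1 bq2 gq0 gq1 gq2 xq0 xq1 xq2 am0 am1 bm0 bm1 sg v e : ℝ) : Prop :=
  ∃ pa pb pc pd al w56 w b cb cf n n2 uh u K mu0 v2 a1 a0 w66 iu A0 ga g2 Ac cA up f0 tau t2 A T jj d0 mu1 ex LB f1 d1 rg M0c cM0 rt M0 rj e0 M1c cM1 M1 e1 PhN W0 cg s0c cW0 E G x xt s0 z0 W1 s1c cW1 s1 z1 w129 cr p0c cP0 rG w200 xr p0 y0 p1c cP1 p1 y1 PhF Phi Q PsN PsF Psi : ℝ,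
    al = (sg ^ 2) ∧
    w56 = ((9 / 10 : ℝ) * al) ∧
    w = ((1 : ℝ) - (al * (w56 + (1 / 10 : ℝ)))) ∧
    b = ((bq0 + (bq1 * sg)) + (bq2 * v)) ∧
    cb = (b ^ 2) ∧
    cf = (b * cb) ∧
    n = (e + (1 : ℝ)) ∧
    n2 = (n ^ 2) ∧
    uh = ((19 / 10 : ℝ) - w56) ∧
    u = (al * uh) ∧
    K = (((kw * (w * cf)) * (n2 * n)) + (ku * u)) ∧
    mu0 = ((ma0 + (ma1 * sg)) + (ma2 * v)) ∧
    v2 = (v ^ 2) ∧
    a1 = (al * v2) ∧
    a0 = (((2 : ℝ) * al) - a1) ∧
    w66 = ((9 / 10 : ℝ) * a0) ∧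
    0 < uh ∧
    iu = (uh⁻¹) ∧
    A0 = ((mu0 * ((2 : ℝ) - v2)) * (((19 / 10 : ℝ) - w66) * iu)) ∧
    ga = ((gq0 + (gq1 * sg)) + (gq2 * v)) ∧
    g2 = (ga ^ 2) ∧
    Ac = (√((2 : ℝ) - g2)) ∧
    0 < Ac ∧
    cA = (A0 * ((1 / 2 : ℝ) * (Ac⁻¹))) ∧
    up = (((pa + (pb * sg)) + (pc * v)) + (pd * e)) ∧
    f0 = ((e * up) + (1 : ℝ)) ∧
    tau = (ga * f0) ∧
    t2 = (tau ^ 2) ∧
    A = (√((2 : ℝ) - t2)) ∧
    T = (ga * up) ∧
    jj = (T * (tau + ga)) ∧
    0 < (A + Ac) ∧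
    d0 = (A - (jj * ((A + Ac)⁻¹))) ∧
    mu1 = ((mb0 + (mb1 * sg)) + (mb2 * v)) ∧
    ex = ((xq0 + (xq1 * sg)) + (xq2 * v)) ∧
    0 < (ga + l4) ∧
    LB = ((((mu1 * (v * (v + l4))) * (((19 / 20 : ℝ) - ((9 / 20 : ℝ) * a1)) * iu)) + ex) * ((ga + l4)⁻¹)) ∧
    f1 = (f0 + up) ∧
    d1 = (ga * f1) ∧
    rg = (rho * ((1 : ℝ) - g2)) ∧
    M0c = (√(rg + (1 : ℝ))) ∧
    0 < M0c ∧
    cM0 = ((1 / 2 : ℝ) * (M0c⁻¹)) ∧
    rt = (rho * ((1 : ℝ) - t2)) ∧
    M0 = (√(rt + (1 : ℝ))) ∧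
    rj = (rho * jj) ∧
    0 < (M0 + M0c) ∧
    e0 = (M0 - (rj * ((M0 + M0c)⁻¹))) ∧
    M1c = (√((1 : ℝ) - rg)) ∧
    0 < M1c ∧
    cM1 = ((1 / 2 : ℝ) * (M1c⁻¹)) ∧
    M1 = (√((1 : ℝ) - rt)) ∧
    0 < (M1 + M1c) ∧
    e1 = (M1 + (rj * ((M1 + M1c)⁻¹))) ∧
    PhN = (((cA * (d0 ^ 2)) + (LB * (d1 ^ 2))) - ((cM0 * (e0 ^ 2)) + (cM1 * (e1 ^ 2)))) ∧
    W0 = (mu0 * ((1 : ℝ) - (a0 * (w66 + (1 / 10 : ℝ))))) ∧
    cg = (cb * g2) ∧
    s0c = (√((cg - ((2 : ℝ) * cb)) + (1 : ℝ))) ∧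
    0 < s0c ∧
    cW0 = (W0 * ((1 / 2 : ℝ) * (s0c⁻¹))) ∧
    E = (n + (1 : ℝ)) ∧
    G = (d1 * ((n * tau) + ga)) ∧
    x = (cb * n2) ∧
    xt = (x * t2) ∧
    s0 = (√((xt - ((2 : ℝ) * x)) + (1 : ℝ))) ∧
    0 < (s0 + s0c) ∧
    z0 = ((((2 : ℝ) * E) - G) * ((s0 + s0c)⁻¹)) ∧
    W1 = (mu1 * ((1 : ℝ) - (a1 * (((9 / 10 : ℝ) * a1) + (1 / 10 : ℝ))))) ∧
    s1c = (√((1 : ℝ) - cg)) ∧
    0 < s1c ∧
    cW1 = (W1 * ((1 / 2 : ℝ) * (s1c⁻¹))) ∧
    s1 = (√((1 : ℝ) - xt)) ∧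
    0 < (s1 + s1c) ∧
    z1 = (G * ((s1 + s1c)⁻¹)) ∧
    w129 = ((1 : ℝ) - cb) ∧
    cr = (cb * rg) ∧
    p0c = (√(w129 - cr)) ∧
    0 < p0c ∧
    cP0 = ((1 / 2 : ℝ) * (p0c⁻¹)) ∧
    rG = (rho * (E - G)) ∧
    w200 = ((1 : ℝ) - x) ∧
    xr = (x * rt) ∧
    p0 = (√(w200 - xr)) ∧
    0 < (p0 + p0c) ∧
    y0 = ((E + rG) * ((p0 + p0c)⁻¹)) ∧
    p1c = (√(w129 + cr)) ∧
    0 < p1c ∧
    cP1 = ((1 / 2 : ℝ) * (p1c⁻¹)) ∧
    p1 = (√(w200 + xr)) ∧
    0 < (p1 + p1c) ∧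
    y1 = ((E - rG) * ((p1 + p1c)⁻¹)) ∧
    PhF = (((cW0 * (z0 ^ 2)) + (cW1 * (z1 ^ 2))) - (w * ((cP0 * (y0 ^ 2)) + (cP1 * (y1 ^ 2))))) ∧
    Phi = ((u * PhN) + (cf * PhF)) ∧
    0 < A ∧
    0 < f0 ∧
    Q = (f1 * (f0⁻¹)) ∧
    0 < M0 ∧
    0 < M1 ∧
    PsN = (((cA * (d0 * (A⁻¹))) - (LB * Q)) - (rho * ((cM0 * (e0 * (M0⁻¹))) - (cM1 * (e1 * (M1⁻¹)))))) ∧
    0 < s0 ∧
    0 < s1 ∧
    0 < p0 ∧
    0 < p1 ∧
    PsF = (((cW0 * (z0 * (s0⁻¹))) - (cW1 * (z1 * (s1⁻¹)))) - (w * (rho * ((cP0 * (y0 * (p0⁻¹))) - (cP1 * (y1 * (p1⁻¹))))))) ∧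
    Psi = ((u * PsN) + ((n * cf) * PsF)) ∧
    0 ≤ ((K * Phi) - ((2 : ℝ) * (n * (Psi ^ 2))))

theorem b_E {gs ps : ℕ} {sg v e u3 : ℝ} (h : b_R gs ps sg v e u3) : b_Spec (parV gs 0) (parV gs 1) (parV gs 2) (parV gs 3) (parV gs 4) (parV gs 5) (parV gs 6) (parV gs 7) (parV gs 8) (parV gs 9) (parV gs 10) (parV gs 11) (parV gs 12) (parV gs 13) (parV gs 14) (parV gs 15) (parV gs 16) (parV gs 17) (parV gs 18) (parV gs 19) (parV gs 20) (parV gs 21) (parV gs 22) sg v e := by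
  delta b_R at h
  exact letR_ex h fun pa _ h =>
  letR_ex h fun pb _ h =>
  letR_ex h fun pc _ h =>
  letR_ex h fun pd _ h =>
  letR_in h fun h =>
  letR_ex h fun al q1 h =>
  letR_ex h fun w56 q2 h =>
  letR_in h fun h =>
  letR_in h fun h =>
  letR_ex h fun w q3 h =>
  letR_in h fun h =>
  letR_in h fun h =>
  letR_in h fun h =>
  letR_in h fun h =>
  letR_in h fun h =>
  letR_in h fun h =>
  letR_ex h fun b q4 h =>
  letR_in h fun h =>
  letR_ex h fun cb q5 h =>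
  letR_ex h fun cf q6 h =>
  letR_in h fun h =>
  letR_in h fun h =>
  (by delta b_R1 at h; exact
  letR_ex h fun n q7 h =>
  letR_ex h fun n2 q8 h =>
  letR_in h fun h =>
  letR_in h fun h =>
  letR_in h fun h =>
  letR_ex h fun uh q9 h =>
  letR_in h fun h =>
  letR_ex h fun u q10 h =>
  letR_in h fun h =>
  letR_ex h fun K q11 h =>
  letR_in h fun h =>
  letR_in h fun h =>
  letR_in h fun h =>
  letR_in h fun h =>
  letR_in h fun h =>
  letR_in h fun h =>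
  letR_in h fun h =>
  letR_ex h fun mu0 q12 h =>
  letR_in h fun h =>
  letR_ex h fun v2 q13 h =>
  letR_in h fun h =>
  letR_in h fun h =>
  letR_in h fun h =>
  letR_in h fun h =>
  letR_ex h fun a1 q14 h =>
  letR_ex h fun a0 q15 h =>
  letR_in h fun h =>
  (by delta b_R2 at h; exact
  letR_ex h fun w66 q16 h =>
  letR_in h fun h =>
  invR_ex h fun q17 h =>
  letR_ex h fun iu q18 h =>
  letR_in h fun h =>
  letR_in h fun h =>
  letR_in h fun h =>
  letR_ex h fun A0 q19 h =>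
  letR_in h fun h =>
  letR_in h fun h =>
  letR_in h fun h =>
  letR_in h fun h =>
  letR_in h fun h =>
  letR_in h fun h =>
  letR_ex h fun ga q20 h =>
  letR_in h fun h =>
  letR_ex h fun g2 q21 h =>
  letR_in h fun h =>
  letR_ex h fun Ac q22 h =>
  invR_ex h fun q23 h =>
  letR_in h fun h =>
  letR_in h fun h =>
  letR_in h fun h =>
  letR_ex h fun cA q24 h =>
  letR_in h fun h =>
  letR_in h fun h =>
  letR_in h fun h =>
  letR_in h fun h =>
  letR_in h fun h =>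
  letR_ex h fun up q25 h =>
  (by delta b_R3 at h; exact
  letR_in h fun h =>
  letR_in h fun h =>
  letR_ex h fun f0 q26 h =>
  letR_in h fun h =>
  letR_ex h fun tau q27 h =>
  letR_ex h fun t2 q28 h =>
  letR_in h fun h =>
  letR_ex h fun A q29 h =>
  letR_in h fun h =>
  letR_ex h fun T q30 h =>
  letR_in h fun h =>
  letR_in h fun h =>
  letR_in h fun h =>
  letR_ex h fun jj q31 h =>
  letR_in h fun h =>
  invR_ex h fun q32 h =>
  letR_in h fun h =>
  letR_in h fun h =>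
  letR_ex h fun d0 q33 h =>
  letR_in h fun h =>
  letR_in h fun h =>
  letR_in h fun h =>
  letR_in h fun h =>
  letR_in h fun h =>
  letR_in h fun h =>
  letR_in h fun h =>
  letR_in h fun h =>
  letR_in h fun h =>
  letR_ex h fun mu1 q34 h =>
  letR_in h fun h =>
  (by delta b_R4 at h; exact
  letR_in h fun h =>
  letR_in h fun h =>
  letR_in h fun h =>
  letR_in h fun h =>
  letR_in h fun h =>
  letR_in h fun h =>
  letR_in h fun h =>
  letR_in h fun h =>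
  letR_in h fun h =>
  letR_in h fun h =>
  letR_in h fun h =>
  letR_in h fun h =>
  letR_in h fun h =>
  letR_in h fun h =>
  letR_in h fun h =>
  letR_in h fun h =>
  letR_in h fun h =>
  letR_ex h fun ex q35 h =>
  letR_in h fun h =>
  letR_in h fun h =>
  letR_in h fun h =>
  invR_ex h fun q36 h =>
  letR_in h fun h =>
  letR_in h fun h =>
  letR_ex h fun LB q37 h =>
  letR_ex h fun f1 q38 h =>
  letR_in h fun h =>
  letR_in h fun h =>
  letR_ex h fun d1 q39 h =>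
  letR_in h fun h =>
  letR_in h fun h =>
  letR_in h fun h =>
  (by delta b_R5 at h; exact
  letR_in h fun h =>
  letR_in h fun h =>
  letR_ex h fun rg q40 h =>
  letR_in h fun h =>
  letR_ex h fun M0c q41 h =>
  invR_ex h fun q42 h =>
  letR_in h fun h =>
  letR_ex h fun cM0 q43 h =>
  letR_in h fun h =>
  letR_ex h fun rt q44 h =>
  letR_in h fun h =>
  letR_ex h fun M0 q45 h =>
  letR_ex h fun rj q46 h =>
  letR_in h fun h =>
  invR_ex h fun q47 h =>
  letR_in h fun h =>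
  letR_in h fun h =>
  letR_ex h fun e0 q48 h =>
  letR_in h fun h =>
  letR_in h fun h =>
  letR_in h fun h =>
  letR_in h fun h =>
  letR_ex h fun M1c q49 h =>
  invR_ex h fun q50 h =>
  letR_in h fun h =>
  letR_ex h fun cM1 q51 h =>
  letR_in h fun h =>
  letR_ex h fun M1 q52 h =>
  letR_in h fun h =>
  invR_ex h fun q53 h =>
  letR_in h fun h =>
  letR_in h fun h =>
  letR_ex h fun e1 q54 h =>
  letR_in h fun h =>
  letR_in h fun h =>
  letR_in h fun h =>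
  letR_in h fun h =>
  letR_ex h fun PhN q55 h =>
  letR_in h fun h =>
  letR_in h fun h =>
  letR_in h fun h =>
  letR_in h fun h =>
  letR_in h fun h =>
  letR_in h fun h =>
  (by delta b_R6 at h; exact
  letR_ex h fun W0 q56 h =>
  letR_in h fun h =>
  letR_ex h fun cg q57 h =>
  letR_in h fun h =>
  letR_in h fun h =>
  letR_in h fun h =>
  letR_ex h fun s0c q58 h =>
  invR_ex h fun q59 h =>
  letR_in h fun h =>
  letR_in h fun h =>
  letR_in h fun h =>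
  letR_ex h fun cW0 q60 h =>
  letR_ex h fun E q61 h =>
  letR_in h fun h =>
  letR_in h fun h =>
  letR_in h fun h =>
  letR_in h fun h =>
  letR_in h fun h =>
  letR_ex h fun G q62 h =>
  letR_in h fun h =>
  letR_in h fun h =>
  letR_ex h fun x q63 h =>
  letR_in h fun h =>
  letR_ex h fun xt q64 h =>
  letR_in h fun h =>
  letR_in h fun h =>
  letR_in h fun h =>
  letR_ex h fun s0 q65 h =>
  letR_in h fun h =>
  invR_ex h fun q66 h =>
  letR_in h fun h =>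
  letR_in h fun h =>
  letR_ex h fun z0 q67 h =>
  (by delta b_R7 at h; exact
  letR_in h fun h =>
  letR_in h fun h =>
  letR_in h fun h =>
  letR_in h fun h =>
  letR_in h fun h =>
  letR_in h fun h =>
  letR_in h fun h =>
  letR_ex h fun W1 q68 h =>
  letR_in h fun h =>
  letR_ex h fun s1c q69 h =>
  invR_ex h fun q70 h =>
  letR_in h fun h =>
  letR_in h fun h =>
  letR_in h fun h =>
  letR_ex h fun cW1 q71 h =>
  letR_in h fun h =>
  letR_ex h fun s1 q72 h =>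
  letR_in h fun h =>
  invR_ex h fun q73 h =>
  letR_in h fun h =>
  letR_in h fun h =>
  letR_ex h fun z1 q74 h =>
  letR_in h fun h =>
  letR_in h fun h =>
  letR_in h fun h =>
  letR_ex h fun w129 q75 h =>
  letR_in h fun h =>
  letR_ex h fun cr q76 h =>
  (by delta b_R8 at h; exact
  letR_in h fun h =>
  letR_ex h fun p0c q77 h =>
  invR_ex h fun q78 h =>
  letR_in h fun h =>
  letR_ex h fun cP0 q79 h =>
  letR_in h fun h =>
  letR_in h fun h =>
  letR_ex h fun rG q80 h =>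
  letR_in h fun h =>
  letR_in h fun h =>
  letR_ex h fun w200 q81 h =>
  letR_in h fun h =>
  letR_ex h fun xr q82 h =>
  letR_in h fun h =>
  letR_ex h fun p0 q83 h =>
  letR_in h fun h =>
  invR_ex h fun q84 h =>
  letR_in h fun h =>
  letR_in h fun h =>
  letR_ex h fun y0 q85 h =>
  letR_in h fun h =>
  letR_in h fun h =>
  letR_in h fun h =>
  letR_ex h fun p1c q86 h =>
  invR_ex h fun q87 h =>
  letR_in h fun h =>
  letR_ex h fun cP1 q88 h =>
  letR_in h fun h =>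
  letR_in h fun h =>
  letR_in h fun h =>
  letR_ex h fun p1 q89 h =>
  letR_in h fun h =>
  invR_ex h fun q90 h =>
  letR_in h fun h =>
  letR_in h fun h =>
  letR_ex h fun y1 q91 h =>
  letR_in h fun h =>
  letR_in h fun h =>
  letR_in h fun h =>
  letR_in h fun h =>
  letR_in h fun h =>
  letR_ex h fun PhF q92 h =>
  letR_in h fun h =>
  letR_in h fun h =>
  letR_ex h fun Phi q93 h =>
  (by delta b_R9 at h; exact
  letR_in h fun h =>
  letR_in h fun h =>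
  invR_ex h fun q94 h =>
  letR_in h fun h =>
  letR_in h fun h =>
  letR_in h fun h =>
  letR_in h fun h =>
  invR_ex h fun q95 h =>
  letR_in h fun h =>
  letR_in h fun h =>
  letR_ex h fun Q q96 h =>
  letR_in h fun h =>
  letR_in h fun h =>
  invR_ex h fun q97 h =>
  letR_in h fun h =>
  letR_in h fun h =>
  letR_in h fun h =>
  letR_in h fun h =>
  invR_ex h fun q98 h =>
  letR_in h fun h =>
  letR_in h fun h =>
  letR_in h fun h =>
  letR_in h fun h =>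
  letR_in h fun h =>
  letR_in h fun h =>
  letR_in h fun h =>
  letR_ex h fun PsN q99 h =>
  letR_in h fun h =>
  letR_in h fun h =>
  letR_in h fun h =>
  letR_in h fun h =>
  invR_ex h fun q100 h =>
  letR_in h fun h =>
  letR_in h fun h =>
  letR_in h fun h =>
  letR_in h fun h =>
  invR_ex h fun q101 h =>
  letR_in h fun h =>
  letR_in h fun h =>
  letR_in h fun h =>
  letR_in h fun h =>
  letR_in h fun h =>
  invR_ex h fun q102 h =>
  letR_in h fun h =>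
  letR_in h fun h =>
  letR_in h fun h =>
  letR_in h fun h =>
  (by delta b_R10 at h; exact
  invR_ex h fun q103 h =>
  letR_in h fun h =>
  letR_in h fun h =>
  letR_in h fun h =>
  letR_in h fun h =>
  letR_in h fun h =>
  letR_in h fun h =>
  letR_in h fun h =>
  letR_in h fun h =>
  letR_ex h fun PsF q104 h =>
  letR_in h fun h =>
  letR_in h fun h =>
  letR_ex h fun Psi q105 h =>
  letR_in h fun h =>
  letR_in h fun h =>
  letR_in h fun h =>
  letR_in h fun h =>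
  letR_in h fun h =>
  posR_ex h fun q106 h =>
  ⟨pa, pb, pc, pd, al, w56, w, b, cb, cf, n, n2, uh, u, K, mu0, v2, a1, a0, w66, iu, A0, ga, g2, Ac, cA, up, f0, tau, t2, A, T, jj, d0, mu1, ex, LB, f1, d1, rg, M0c, cM0, rt, M0, rj, e0, M1c, cM1, M1, e1, PhN, W0, cg, s0c, cW0, E, G, x, xt, s0, z0, W1, s1c, cW1, s1, z1, w129, cr, p0c, cP0, rG, w200, xr, p0, y0, p1c, cP1, p1, y1, PhF, Phi, Q, PsN, PsF, Psi, q1, q2, q3, q4, q5, q6, q7, q8, q9, q10, q11, q12, q13, q14, q15, q16, q17, q18, q19, q20, q21, q22, q23, q24, q25, q26, q27, q28, q29, q30, q31, q32, q33, q34, q35, q36, q37, q38, q39, q40, q41, q42, q43, q44, q45, q46, q47, q48, q49, q50, q51, q52, q53, q54, q55, q56, q57, q58, q59, q60, q61, q62, q63, q64, q65, q66, q67, q68, q69, q70, q71, q72, q73, q74, q75, q76, q77, q78, q79, q80, q81, q82, q83, q84, q85, q86, q87, q88, q89, q90, q91, q92, q93, q94, q95, q96, q97, q98, q99, q100, q101, q102, q103, q104,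 q105, q106⟩))))))))))

theorem k9 : |2 ^ 48 * (-363 / 512 : ℝ) - (((4722366283308284772352 : ℕ) : ℝ) - 2 ^ 72)| ≤ ((0 : ℕ) : ℝ) := by norm_num [abs_le]
def c_B (gs ps : ℕ) (x0 x1 x2 x3 : AF) : Bool :=
  parK gs 10 fun z13 =>
  parK gs 11 fun z14 =>
  mulK z14 x0 fun z26 =>
  addK z13 z26 fun z27 =>
  parK gs 12 fun z15 =>
  mulK z15 x1 fun z28 =>
  addK z27 z28 fun z29 =>
  normK z29 fun z31 =>
  addcK x2 4722366764344621924352 0 fun z30 =>
  mulK z31 z30 fun z32 =>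
  addcK z32 4722366283308284772352 0 fun z33 =>
  posK z33 <|
  true

def c_R (gs ps : ℕ) (sg v e u3 : ℝ) : Prop :=
  letR (parV gs 10) fun z13 =>
  letR (parV gs 11) fun z14 =>
  letR (z14 * sg) fun z26 =>
  letR (z13 + z26) fun z27 =>
  letR (parV gs 12) fun z15 =>
  letR (z15 * v) fun z28 =>
  letR (z27 + z28) fun z29 =>
  letR z29 fun z31 =>
  letR (e + (1 : ℝ)) fun z30 =>
  letR (z31 * z30) fun z32 =>
  letR (z32 + (-363 / 512 : ℝ)) fun z33 =>
  posR z33 <|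
  True

theorem c_S {ε : Fin 4 → ℝ} (gs : ℕ) (hε : ∀ i, |ε i| ≤ 1) (ps : ℕ) (x0 x1 x2 x3 : AF) (sg v e u3 : ℝ)
    (h0 : Rel ε x0 sg) (h1 : Rel ε x1 v) (h2 : Rel ε x2 e) (h3 : Rel ε x3 u3) :
    c_B gs ps x0 x1 x2 x3 = true → c_R gs ps sg v e u3 := by
  delta c_B c_R
  exact parS fun z13 t13 g13 =>
  parS fun z14 t14 g14 =>
  mulS hε g14 h0 fun z26 t26 g26 =>
  addS g13 g26 fun z27 t27 g27 =>
  parS fun z15 t15 g15 =>
  mulS hε g15 h1 fun z28 t28 g28 =>
  addS g27 g28 fun z29 t29 g29 =>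
  normS g29 fun z31 t31 g31 =>
  addcS h2 k2 fun z30 t30 g30 =>
  mulS hε g31 g30 fun z32 t32 g32 =>
  addcS g32 k9 fun z33 t33 g33 =>
  posS hε g33 <|
  fun _ => trivial

/- obtain ⟨bn, h_bn, c0⟩ := h -/
def c_Spec (rho l4 ku kw ma0 ma1 ma2 mb0 mb1 mb2 bq0 bq1 bq2 gq0 gq1 gq2 xq0 xq1 xq2 am0 am1 bm0 bm1 sg v e : ℝ) : Prop :=
  ∃ bn : ℝ,
    bn = (((bq0 + (bq1 * sg)) + (bq2 * v)) * (e + (1 : ℝ))) ∧
    0 ≤ (bn + (-363 / 512 : ℝ))

theorem c_E {gs ps : ℕ} {sg v e u3 : ℝ} (h : c_R gs ps sg v e u3) : c_Spec (parV gs 0) (parV gs 1) (parV gs 2) (parV gs 3) (parV gs 4) (parV gs 5) (parV gs 6) (parV gs 7) (parV gs 8) (parV gs 9) (parV gs 10) (parV gs 11) (parV gs 12) (parV gs 13) (parV gs 14) (parV gs 15) (parV gs 16) (parV gs 17) (parV gs 18) (parV gs 19) (parV gs 20) (parV gs 21) (parV gs 22) sg v e := by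
  delta c_R at h
  exact letR_in h fun h =>
  letR_in h fun h =>
  letR_in h fun h =>
  letR_in h fun h =>
  letR_in h fun h =>
  letR_in h fun h =>
  letR_in h fun h =>
  letR_in h fun h =>
  letR_in h fun h =>
  letR_ex h fun bn q1 h =>
  letR_in h fun h =>
  posR_ex h fun q2 h =>
  ⟨bn, q1, q2⟩

theorem k10 : |2 ^ 48 * (-257 / 1024 : ℝ) - (((4722366412226023129088 : ℕ) : ℝ) - 2 ^ 72)| ≤ ((0 : ℕ) : ℝ) := by norm_num [abs_le]
def d_B (gs ps : ℕ) (x0 x1 x2 x3 : AF) : Bool :=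
  sqrK x0 fun z26 =>
  sqrK x1 fun z27 =>
  rsubK z27 4722366764344621924352 0 fun z28 =>
  mulK z26 z28 fun z29 =>
  addcK z29 4722366412226023129088 0 fun z30 =>
  posK z30 <|
  true

def d_R (gs ps : ℕ) (sg v e u3 : ℝ) : Prop :=
  letR (sg ^ 2) fun z26 =>
  letR (v ^ 2) fun z27 =>
  letR ((1 : ℝ) - z27) fun z28 =>
  letR (z26 * z28) fun z29 =>
  letR (z29 + (-257 / 1024 : ℝ)) fun z30 =>
  posR z30 <|
  True

theorem d_S {ε : Fin 4 → ℝ} (gs : ℕ) (hε : ∀ i, |ε i| ≤ 1) (ps : ℕ) (x0 x1 x2 x3 : AF) (sg v e u3 : ℝ)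
    (h0 : Rel ε x0 sg) (h1 : Rel ε x1 v) (h2 : Rel ε x2 e) (h3 : Rel ε x3 u3) :
    d_B gs ps x0 x1 x2 x3 = true → d_R gs ps sg v e u3 := by
  delta d_B d_R
  exact sqrS hε h0 fun z26 t26 g26 =>
  sqrS hε h1 fun z27 t27 g27 =>
  rsubS g27 k2 fun z28 t28 g28 =>
  mulS hε g26 g28 fun z29 t29 g29 =>
  addcS g29 k10 fun z30 t30 g30 =>
  posS hε g30 <|
  fun _ => trivial

/- obtain ⟨c0⟩ := h -/
def d_Spec (rho l4 ku kw ma0 ma1 ma2 mb0 mb1 mb2 bq0 bq1 bq2 gq0 gq1 gq2 xq0 xq1 xq2 am0 am1 bm0 bm1 sg v e : ℝ) : Prop :=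
  0 ≤ (((sg ^ 2) * ((1 : ℝ) - (v ^ 2))) + (-257 / 1024 : ℝ))

theorem d_E {gs ps : ℕ} {sg v e u3 : ℝ} (h : d_R gs ps sg v e u3) : d_Spec (parV gs 0) (parV gs 1) (parV gs 2) (parV gs 3) (parV gs 4) (parV gs 5) (parV gs 6) (parV gs 7) (parV gs 8) (parV gs 9) (parV gs 10) (parV gs 11) (parV gs 12) (parV gs 13) (parV gs 14) (parV gs 15) (parV gs 16) (parV gs 17) (parV gs 18) (parV gs 19) (parV gs 20) (parV gs 21) (parV gs 22) sg v e := by
  delta d_R at h
  exact letR_in h fun h =>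
  letR_in h fun h =>
  letR_in h fun h =>
  letR_in h fun h =>
  letR_in h fun h =>
  posR_ex h fun q1 h =>
  q1

def PB (gs : ℕ) : Prog := fun j ps x0 x1 x2 x3 =>
  Nat.rec (motive := fun _ => Bool) (a_B gs ps x0 x1 x2 x3) (fun j _ => Nat.rec (motive := fun _ => Bool) (b_B gs ps x0 x1 x2 x3) (fun j _ => Nat.rec (motive := fun _ => Bool) (c_B gs ps x0 x1 x2 x3) (fun j _ => d_B gs ps x0 x1 x2 x3) j) j) j

def PR (gs : ℕ) : ℕ → ℕ → ℝ → ℝ → ℝ → ℝ → Prop := fun j ps sg v e u3 =>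
  Nat.rec (motive := fun _ => Prop) (a_R gs ps sg v e u3) (fun j _ => Nat.rec (motive := fun _ => Prop) (b_R gs ps sg v e u3) (fun j _ => Nat.rec (motive := fun _ => Prop) (c_R gs ps sg v e u3) (fun j _ => d_R gs ps sg v e u3) j) j) j

theorem PS (gs : ℕ) : Sound (PB gs) (PR gs) := fun _ hε j => match j with
  | 0 => a_S gs hε
  | 1 => b_S gs hε
  | 2 => c_S gs hε
  | _ + 3 => d_S gs hε

theorem PE {j gs ps : ℕ} {sg v e u3 : ℝ} : PR gs j ps sg v e u3 → a_Spec (parV gs 0) (parV gs 1) (parV gs 2) (parV gs 3) (parV gs 4) (parV gs 5) (parV gs 6) (parV gs 7) (parV gs 8) (parV gs 9) (parV gs 10) (parV gs 11) (parV gs 12) (parV gs 13) (parV gs 14) (parV gs 15) (parV gs 16) (parV gs 17) (parV gs 18) (parV gs 19) (parV gs 20) (parV gs 21) (parV gs 22) sg v e ∨ b_Spec (parV gs 0) (parV gs 1) (parV gs 2) (parV gs 3) (parV gs 4) (parV gs 5) (parV gs 6) (parV gs 7) (parV gs 8) (parV gs 9) (parV gs 10) (parV gs 11) (parV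 gs 12) (parV gs 13) (parV gs 14) (parV gs 15) (parV gs 16) (parV gs 17) (parV gs 18) (parV gs 19) (parV gs 20) (parV gs 21) (parV gs 22) sg v e ∨ c_Spec (parV gs 0) (parV gs 1) (parV gs 2) (parV gs 3) (parV gs 4) (parV gs 5) (parV gs 6) (parV gs 7) (parV gs 8) (parV gs 9) (parV gs 10) (parV gs 11) (parV gs 12) (parV gs 13) (parV gs 14) (parV gs 15) (parV gs 16) (parV gs 17) (parV gs 18) (parV gs 19) (parV gs 20) (parV gs 21) (parV gs 22) sg v e ∨ d_Spec (parV gs 0) (parV gs 1) (parV gs 2) (parV gs 3) (parV gs 4) (parV gs 5) (parV gs 6) (parV gs 7) (parV gs 8) (parV gs 9) (parV gs 10) (parV gs 11) (parV gs 12) (parV gs 13) (parV gs 14) (parV gs 15) (parV gs 16) (parV gs 17) (parV gs 18) (parV gs 19) (parV gs 20) (parV gs 21) (parV gs 22) sg v e := match j with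
  | 0 => fun h => Or.inl (@a_E gs ps sg v e u3 h)
  | 1 => fun h => Or.inr (Or.inl (@b_E gs ps sg v e u3 h))
  | 2 => fun h => Or.inr (Or.inr (Or.inl (@c_E gs ps sg v e u3 h)))
  | _ + 3 => fun h => Or.inr (Or.inr (Or.inr (@d_E gs ps sg v e u3 h)))

theorem of_good {gs l0 h0 l1 h1 l2 h2 l3 h3 : ℕ} (h : Good (PR gs) l0 h0 l1 h1 l2 h2 l3 h3) {sg v e u3 : ℝ}
    (hb : InBox l0 h0 l1 h1 l2 h2 l3 h3 sg v e u3) : a_Spec (parV gs 0) (parV gs 1) (parV gs 2) (parV gs 3) (parV gs 4) (parV gs 5) (parV gs 6) (parV gs 7) (parV gs 8) (parV gs 9) (parV gs 10) (parV gs 11) (parV gs 12) (parV gs 13) (parV gs 14) (parV gs 15) (parV gs 16) (parV gs 17) (parV gs 18) (parV gs 19) (parV gs 20) (parV gs 21) (parV gs 22) sg v e ∨ b_Spec (parV gs 0) (parV gs 1) (parV gs 2) (parV gs 3) (parV gs 4) (parV gs 5) (parV gs 6) (parV gs 7) (parV gs 8) (parV gs 9) (parV gs 10) (parV gs 11) (parV gs 12) (parV gs 13) (parV gs 14) (parV gs 15)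 (parV gs 16) (parV gs 17) (parV gs 18) (parV gs 19) (parV gs 20) (parV gs 21) (parV gs 22) sg v e ∨ c_Spec (parV gs 0) (parV gs 1) (parV gs 2) (parV gs 3) (parV gs 4) (parV gs 5) (parV gs 6) (parV gs 7) (parV gs 8) (parV gs 9) (parV gs 10) (parV gs 11) (parV gs 12) (parV gs 13) (parV gs 14) (parV gs 15) (parV gs 16) (parV gs 17) (parV gs 18) (parV gs 19) (parV gs 20) (parV gs 21) (parV gs 22) sg v e ∨ d_Spec (parV gs 0) (parV gs 1) (parV gs 2) (parV gs 3) (parV gs 4) (parV gs 5) (parV gs 6) (parV gs 7) (parV gs 8) (parV gs 9) (parV gs 10) (parV gs 11) (parV gs 12) (parV gs 13) (parV gs 14) (parV gs 15) (parV gs 16) (parV gs 17) (parV gs 18) (parV gs 19) (parV gs 20) (parV gs 21) (parV gs 22) sg v e := by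
  obtain ⟨j, ps, h⟩ := h sg v e u3 hb
  exact PE h

def l0 : Tree := Tree.leaf 0
def l1 : Tree := Tree.leaf 1
def l2 : Tree := Tree.leaf 2
def l3 : Tree := Tree.leaf 3

end

end Crest.Agent.R307.BN
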