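import Crest.Agent.R307.B.BTm
import Crest.Agent.R307.B.BNP

/-! Row 307, regime `δ ≥ 5/8 α`: the chart `x = (a0 + a1) / 2 = (b (e + 1))²`. -/

set_option autoImplicit false
set_option linter.unusedVariables false

namespace Crest.Agent.R307

theorem BNm_far {a c s Sc q z : ℝ} (hs : 0 < s) (hSc : 0 < Sc) (ha : a = s ^ 2) (hc : c = Sc ^ 2) (hz : Sc - s = q * z) :
    Bg a c = q ^ 2 * (1 / 2 * Sc⁻¹ * z ^ 2) ∧ Bg' a c = -(q * (1 / 2 * Sc⁻¹ * (z * s⁻¹))) := by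
  have := BTm_far (a := a) (c := c) (q := q) (z := z) one_pos hs hSc ha (by rw [hc, one_mul]) (by rw [one_mul, hz])
  simpa only [inv_one, mul_one] using this

theorem BNm_core {rho l4 ku kw ma0 ma1 ma2 mb0 mb1 mb2 bq0 bq1 bq2 gq0 gq1 gq2 xq0 xq1 xq2 σ v e χ
    al w56 w b cb cf n n2 uh u K mu0 v2 a1 a0 w66 iu A0 ga g2 Ac cA T tau t2 A jj d0 mu1 ex LB d1 rg M0c cM0 rt M0 rj e0 M1c cM1 M1 e1 PhN W0 cg s0c cW0 E G x xt s0 z0 W1 s1c cW1 s1 z1 w129 cr p0c cP0 rG w195 xr p0 y0 p1c cP1 p1 y1 PhF Phi Q PsN PsF Psi : ℝ} (hp : PtB σ v) (he : -1 ≤ e)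
    (S : SideB rho l4 ku kw (af3 ma0 ma1 ma2 σ v) (af3 mb0 mb1 mb2 σ v) (af3 bq0 bq1 bq2 σ v) (af3 gq0 gq1 gq2 σ v) (af3 xq0 xq1 xq2 σ v) σ v)
    (h_tau : tau = e * T + ga) (p_tau : 0 ≤ tau) (χ0 : 0 ≤ χ) (χ1 : χ * tau = ga) (χ2 : e * Q = n - χ)
    (h_al : al = (σ ^ 2))
    (h_w56 : w56 = ((9 / 10 : ℝ) * al))
    (h_w : w = ((1 : ℝ) - (al * (w56 + (1 / 10 : ℝ)))))
    (h_b : b = ((bq0 + (bq1 * σ)) + (bq2 * v)))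
    (h_cb : cb = (b ^ 2))
    (h_cf : cf = (b * cb))
    (h_n : n = (e + (1 : ℝ)))
    (h_n2 : n2 = (n ^ 2))
    (h_uh : uh = ((19 / 10 : ℝ) - w56))
    (h_u : u = (al * uh))
    (h_K : K = (((kw * (w * cf)) * (n2 * n)) + (ku * u)))
    (h_mu0 : mu0 = ((ma0 + (ma1 * σ)) + (ma2 * v)))
    (h_v2 : v2 = (v ^ 2))
    (h_a1 : a1 = (al * v2))
    (h_a0 : a0 = (((2 : ℝ) * al) - a1))
    (h_w66 : w66 = ((9 / 10 : ℝ) * a0))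
    (p_iu : 0 < uh)
    (h_iu : iu = (uh⁻¹))
    (h_A0 : A0 = ((mu0 * ((2 : ℝ) - v2)) * (((19 / 10 : ℝ) - w66) * iu)))
    (h_ga : ga = ((gq0 + (gq1 * σ)) + (gq2 * v)))
    (h_g2 : g2 = (ga ^ 2))
    (h_Ac : Ac = (√((2 : ℝ) - g2)))
    (p_Ac : 0 < Ac)
    (h_cA : cA = (A0 * ((1 / 2 : ℝ) * (Ac⁻¹))))
    (h_t2 : t2 = (tau ^ 2))
    (h_A : A = (√((2 : ℝ) - t2)))
    (h_jj : jj = (T * (tau + ga)))
    (p_29 : 0 < (A + Ac))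
    (h_d0 : d0 = (A - (jj * ((A + Ac)⁻¹))))
    (h_mu1 : mu1 = ((mb0 + (mb1 * σ)) + (mb2 * v)))
    (h_ex : ex = ((xq0 + (xq1 * σ)) + (xq2 * v)))
    (p_33 : 0 < (ga + l4))
    (h_LB : LB = ((((mu1 * (v * (v + l4))) * (((19 / 20 : ℝ) - ((9 / 20 : ℝ) * a1)) * iu)) + ex) * ((ga + l4)⁻¹)))
    (h_d1 : d1 = (tau + T))
    (h_rg : rg = (rho * ((1 : ℝ) - g2)))
    (h_M0c : M0c = (√(rg + (1 : ℝ))))
    (p_M0c : 0 < M0c)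
    (h_cM0 : cM0 = ((1 / 2 : ℝ) * (M0c⁻¹)))
    (h_rt : rt = (rho * ((1 : ℝ) - t2)))
    (h_M0 : M0 = (√(rt + (1 : ℝ))))
    (h_rj : rj = (rho * jj))
    (p_43 : 0 < (M0 + M0c))
    (h_e0 : e0 = (M0 - (rj * ((M0 + M0c)⁻¹))))
    (h_M1c : M1c = (√((1 : ℝ) - rg)))
    (p_M1c : 0 < M1c)
    (h_cM1 : cM1 = ((1 / 2 : ℝ) * (M1c⁻¹)))
    (h_M1 : M1 = (√((1 : ℝ) - rt)))
    (p_49 : 0 < (M1 + M1c))
    (h_e1 : e1 = (M1 + (rj * ((M1 + M1c)⁻¹))))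
    (h_PhN : PhN = (((cA * (d0 ^ 2)) + (LB * (d1 ^ 2))) - ((cM0 * (e0 ^ 2)) + (cM1 * (e1 ^ 2)))))
    (h_W0 : W0 = (mu0 * ((1 : ℝ) - (a0 * (w66 + (1 / 10 : ℝ))))))
    (h_cg : cg = (cb * g2))
    (h_s0c : s0c = (√((cg - ((2 : ℝ) * cb)) + (1 : ℝ))))
    (p_s0c : 0 < s0c)
    (h_cW0 : cW0 = (W0 * ((1 / 2 : ℝ) * (s0c⁻¹))))
    (h_E : E = (n + (1 : ℝ)))
    (h_G : G = (d1 * ((n * tau) + ga)))
    (h_x : x = (cb * n2))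
    (h_xt : xt = (x * t2))
    (h_s0 : s0 = (√((xt - ((2 : ℝ) * x)) + (1 : ℝ))))
    (p_62 : 0 < (s0 + s0c))
    (h_z0 : z0 = ((((2 : ℝ) * E) - G) * ((s0 + s0c)⁻¹)))
    (h_W1 : W1 = (mu1 * ((1 : ℝ) - (a1 * (((9 / 10 : ℝ) * a1) + (1 / 10 : ℝ))))))
    (h_s1c : s1c = (√((1 : ℝ) - cg)))
    (p_s1c : 0 < s1c)
    (h_cW1 : cW1 = (W1 * ((1 / 2 : ℝ) * (s1c⁻¹))))
    (h_s1 : s1 = (√((1 : ℝ) - xt)))
    (p_69 : 0 < (s1 + s1c))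
    (h_z1 : z1 = (G * ((s1 + s1c)⁻¹)))
    (h_w129 : w129 = ((1 : ℝ) - cb))
    (h_cr : cr = (cb * rg))
    (h_p0c : p0c = (√(w129 - cr)))
    (p_p0c : 0 < p0c)
    (h_cP0 : cP0 = ((1 / 2 : ℝ) * (p0c⁻¹)))
    (h_rG : rG = (rho * (E - G)))
    (h_w195 : w195 = ((1 : ℝ) - x))
    (h_xr : xr = (x * rt))
    (h_p0 : p0 = (√(w195 - xr)))
    (p_80 : 0 < (p0 + p0c))
    (h_y0 : y0 = ((E + rG) * ((p0 + p0c)⁻¹)))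
    (h_p1c : p1c = (√(w129 + cr)))
    (p_p1c : 0 < p1c)
    (h_cP1 : cP1 = ((1 / 2 : ℝ) * (p1c⁻¹)))
    (h_p1 : p1 = (√(w195 + xr)))
    (p_86 : 0 < (p1 + p1c))
    (h_y1 : y1 = ((E - rG) * ((p1 + p1c)⁻¹)))
    (h_PhF : PhF = (((cW0 * (z0 ^ 2)) + (cW1 * (z1 ^ 2))) - (w * ((cP0 * (y0 ^ 2)) + (cP1 * (y1 ^ 2))))))
    (h_Phi : Phi = ((u * PhN) + (cf * PhF)))
    (p_A : 0 < A)
    (p_M0 : 0 < M0)
    (p_M1 : 0 < M1)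
    (h_PsN : PsN = (((cA * (d0 * (A⁻¹))) - (LB * Q)) - (rho * ((cM0 * (e0 * (M0⁻¹))) - (cM1 * (e1 * (M1⁻¹)))))))
    (p_s0 : 0 < s0)
    (p_s1 : 0 < s1)
    (p_p0 : 0 < p0)
    (p_p1 : 0 < p1)
    (h_PsF : PsF = (((cW0 * (z0 * (s0⁻¹))) - (cW1 * (z1 * (s1⁻¹)))) - (w * (rho * ((cP0 * (y0 * (p0⁻¹))) - (cP1 * (y1 * (p1⁻¹))))))))
    (h_Psi : Psi = ((u * PsN) + ((n * cf) * PsF)))
    (c0 : 0 ≤ ((K * Phi) - ((2 : ℝ) * (n * (Psi ^ 2)))))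
    {b0 b1 : ℝ} (hb00 : 0 ≤ b0) (hb01 : b0 ≤ 1) (hb10 : 0 ≤ b1) (hb11 : b1 ≤ 1)
    (hb : b0 + b1 = 2 * (af3 bq0 bq1 bq2 σ v * (e + 1)) ^ 2) :
    0 ≤ FBb rho (af3 ma0 ma1 ma2 σ v) (af3 mb0 mb1 mb2 σ v) (af3 bq0 bq1 bq2 σ v) (af3 gq0 gq1 gq2 σ v)
      (LBv (af3 mb0 mb1 mb2 σ v) (af3 xq0 xq1 xq2 σ v) (af3 gq0 gq1 gq2 σ v) l4 σ v) σ v b0 b1 := by
  have r0 := S.r0
  have r1 := S.r1
  have ku0 := S.ku0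
  have kw0 := S.kw0
  have m00 := S.m00
  have m10 := S.m10
  have g0 := S.g0
  have g1 := S.g1
  have c1 := S.c1
  have L0 := S.L0
  have Ku := S.Ku
  have Kw := S.Kw
  have p_b := S.b0
  clear S
  unfold FBb
  unfold af3 at *
  rw [← h_mu0] at m00
  rw [← h_mu1] at m10
  rw [← h_ga] at g0 g1
  rw [← h_ga, ← h_b] at c1
  rw [← h_mu1, ← h_ex, ← h_ga] at L0
  rw [← h_mu0, ← h_mu1, ← h_ex, ← h_ga, ← h_b] at Ku ⊢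
  rw [← h_mu0, ← h_mu1] at Kw
  rw [← h_b] at p_b
  rw [← h_b, ← h_n] at hb
  replace p_b : 0 < b := by linarith only [p_b]
  obtain ⟨σ0, σ1, v0, v1, d4⟩ := hp
  have hd0 : 0 ≤ dB σ v := mul_nonneg (sq_nonneg _) (by nlinarith only [v0, v1])
  have hd1 : dB σ v ≤ σ ^ 2 := by unfold dB; nlinarith only [mul_nonneg (sq_nonneg σ) (sq_nonneg v)]
  have hσ2 : 0 < σ ^ 2 := by have : 0 < σ := by linarith only [σ0]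
                             positivity
  have hu : 0 < uf (σ ^ 2) := B_uf_pos hσ2 (by linarith only [σ1])
  have hw : 0 < uf (1 - σ ^ 2) := B_uf_pos (by linarith only [σ1]) (by linarith only [hσ2])
  have hU0 : 0 ≤ mu0 * uf (σ ^ 2 + dB σ v) :=
    mul_nonneg m00 (HBa_uf_nonneg (by linarith only [hσ2, hd0]) (by linarith only [σ1, d4]))
  have hW0 : 0 ≤ mu0 * uf (1 - (σ ^ 2 + dB σ v)) :=
    mul_nonneg m00 (HBa_uf_nonneg (by linarith only [σ1, d4]) (by linarith only [hσ2, hd0]))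
  have hW1 : 0 ≤ mu1 * uf (1 - (σ ^ 2 - dB σ v)) :=
    mul_nonneg m10 (HBa_uf_nonneg (by linarith only [σ1, hd0]) (by linarith only [hd1]))
  have fL : LBv mu1 ex ga l4 σ v = LB := by
    unfold LBv; rw [h_LB, h_iu, h_a1, h_v2, h_uh, h_w56, h_al]
  have fu : uf (σ ^ 2) = u := by rw [h_u, h_uh, h_w56, h_al]; unfold uf; ring
  have fw : uf (1 - σ ^ 2) = w := by rw [h_w, h_w56, h_al]; unfold uf; ring
  have fU0 : mu0 * uf (σ ^ 2 + dB σ v) = u * A0 := by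
    have : u * iu = al := by rw [h_u, h_iu]; field_simp
    rw [h_A0, show u * (mu0 * (2 - v2) * ((19 / 10 - w66) * iu)) = u * iu * (mu0 * (2 - v2) * (19 / 10 - w66)) by ring, this,
      h_w66, h_a0, h_a1, h_v2, h_al]
    unfold uf dB; ring
  have fW0 : mu0 * uf (1 - (σ ^ 2 + dB σ v)) = W0 := by rw [h_W0, h_w66, h_a0, h_a1, h_v2, h_al]; unfold uf dB; ring
  have fW1 : mu1 * uf (1 - (σ ^ 2 - dB σ v)) = W1 := by rw [h_W1, h_a1, h_v2, h_al]; unfold uf dB; ring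
  rw [fL] at L0 Ku ⊢
  rw [fU0] at hU0 Ku ⊢
  rw [fW0] at hW0 Kw ⊢
  rw [fW1] at hW1 Kw ⊢
  rw [fu] at hu Ku ⊢
  rw [fw] at hw Kw ⊢
  have sAc := B_sq h_Ac p_Ac
  have sA := B_sq h_A p_A
  have sM0c := B_sq h_M0c p_M0c
  have sM0 := B_sq h_M0 p_M0
  have sM1c := B_sq h_M1c p_M1c
  have sM1 := B_sq h_M1 p_M1
  have ss0 := B_sq h_s0 p_s0
  have ss1 := B_sq h_s1 p_s1
  have sp0 := B_sq h_p0 p_p0
  have sp1 := B_sq h_p1 p_p1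
  have ss0c := B_sq h_s0c p_s0c
  have ss1c := B_sq h_s1c p_s1c
  have sp0c := B_sq h_p0c p_p0c
  have sp1c := B_sq h_p1c p_p1c
  have hn : 0 ≤ n := by linarith only [he, h_n]
  have hx : x = (b * n) ^ 2 := by rw [h_x, h_cb, h_n2]; ring
  have hj : tau ^ 2 - ga ^ 2 = e * jj := by rw [h_jj, h_tau]; ring
  have hd1' : n * tau - ga = e * d1 := by rw [h_n, h_d1, h_tau]; ring
  have hG : n ^ 2 * tau ^ 2 - ga ^ 2 = e * G := by rw [h_G, ← mul_assoc, ← hd1']; ring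
  have hE : n ^ 2 - 1 = e * E := by rw [h_E, h_n]; ring
  have D0 := B_dnear h_n (show A ^ 2 - Ac ^ 2 = -(e * jj) by rw [sA, sAc, h_t2, h_g2]; linear_combination -hj) p_29 h_d0
  have D1 := B_dnear h_n (show M0 ^ 2 - M0c ^ 2 = -(e * rj) by
    rw [sM0, sM0c, h_rt, h_rg, h_rj, h_t2, h_g2]; linear_combination -rho * hj) p_43 h_e0
  have D2 := B_dnear (j := -rj) (d := e1) h_n (show M1 ^ 2 - M1c ^ 2 = -(e * -rj) by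
    rw [sM1, sM1c, h_rt, h_rg, h_rj, h_t2, h_g2]; linear_combination rho * hj) p_49 (by rw [h_e1]; ring)
  have Z0 := B_dfar (c := b ^ 2 * e) (show s0c ^ 2 - s0 ^ 2 = b ^ 2 * e * (2 * E - G) by
    rw [ss0, ss0c, h_cg, h_xt, hx, h_t2, h_cb, h_g2]
    linear_combination 2 * b ^ 2 * hE - b ^ 2 * hG) p_62 h_z0
  have Z1 := B_dfar (c := b ^ 2 * e) (show s1c ^ 2 - s1 ^ 2 = b ^ 2 * e * G by
    rw [ss1, ss1c, h_cg, h_xt, hx, h_t2, h_cb, h_g2]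
    linear_combination b ^ 2 * hG) p_69 h_z1
  have Z2 := B_dfar (c := b ^ 2 * e) (show p0c ^ 2 - p0 ^ 2 = b ^ 2 * e * (E + rG) by
    rw [sp0, sp0c, h_w195, h_w129, h_cr, h_xr, hx, h_rt, h_rG, h_rg, h_t2, h_cb, h_g2]
    linear_combination (1 + rho) * b ^ 2 * hE - rho * b ^ 2 * hG) p_80 h_y0
  have Z3 := B_dfar (c := b ^ 2 * e) (show p1c ^ 2 - p1 ^ 2 = b ^ 2 * e * (E - rG) by
    rw [sp1, sp1c, h_w195, h_w129, h_cr, h_xr, hx, h_rt, h_rG, h_rg, h_t2, h_cb, h_g2]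
    linear_combination (1 - rho) * b ^ 2 * hE + rho * b ^ 2 * hG) p_86 h_y1
  obtain ⟨α0, hα0⟩ : ∃ α0, α0 = (b * n) ^ 2 * A ^ 2 := ⟨_, rfl⟩
  obtain ⟨t, ht⟩ : ∃ t, t = b * n * tau := ⟨_, rfl⟩
  have ht0 : 0 ≤ t := by rw [ht]; positivity
  have hα : α0 = x * (2 - t2) := by rw [hα0, sA, hx]
  have ht2 : t ^ 2 = xt := by rw [ht, h_xt, hx, h_t2]; ring
  obtain ⟨F1, G1⟩ := BTm_near (a := α0) (c := b ^ 2 * (2 - ga ^ 2)) p_b hn p_A p_Ac hα0 (by rw [sAc, h_g2]) D0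
  obtain ⟨F2, G2⟩ := BTm_near (a := (1 + rho) / 2 * α0 + (1 - rho) / 2 * t ^ 2)
    (c := (1 + rho) / 2 * (b ^ 2 * (2 - ga ^ 2)) + (1 - rho) / 2 * (b * ga) ^ 2) p_b hn p_M0 p_M0c
    (by rw [hα, ht2, sM0, h_xt, h_rt, hx]; ring) (by rw [sM0c, h_rg, h_g2]; ring) D1
  obtain ⟨F3, G3⟩ := BTm_near (a := (1 - rho) / 2 * α0 + (1 + rho) / 2 * t ^ 2)
    (c := (1 - rho) / 2 * (b ^ 2 * (2 - ga ^ 2)) + (1 + rho) / 2 * (b * ga) ^ 2) p_b hn p_M1 p_M1c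
    (by rw [hα, ht2, sM1, h_xt, h_rt, hx]; ring) (by rw [sM1c, h_rg, h_g2]; ring) D2
  obtain ⟨F4, G4⟩ := BNm_far (a := 1 - α0) (c := 1 - b ^ 2 * (2 - ga ^ 2)) p_s0 p_s0c
    (by rw [hα, ss0, h_xt]; ring) (by rw [ss0c, h_cg, h_cb, h_g2]; ring) Z0
  obtain ⟨F5, G5⟩ := BNm_far (a := 1 - t ^ 2) (c := 1 - (b * ga) ^ 2) p_s1 p_s1c
    (by rw [ht2, ss1]) (by rw [ss1c, h_cg, h_cb, h_g2]; ring) Z1
  obtain ⟨F6, G6⟩ := BNm_far (a := 1 - ((1 + rho) / 2 * α0 + (1 - rho) / 2 * t ^ 2))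
    (c := 1 - ((1 + rho) / 2 * (b ^ 2 * (2 - ga ^ 2)) + (1 - rho) / 2 * (b * ga) ^ 2)) p_p0 p_p0c
    (by rw [hα, ht2, sp0, h_w195, h_xr, h_xt, h_rt]; ring) (by rw [sp0c, h_w129, h_cr, h_rg, h_cb, h_g2]; ring) Z2
  obtain ⟨F7, G7⟩ := BNm_far (a := 1 - ((1 - rho) / 2 * α0 + (1 + rho) / 2 * t ^ 2))
    (c := 1 - ((1 - rho) / 2 * (b ^ 2 * (2 - ga ^ 2)) + (1 + rho) / 2 * (b * ga) ^ 2)) p_p1 p_p1c
    (by rw [hα, ht2, sp1, h_w195, h_xr, h_xt, h_rt]; ring) (by rw [sp1c, h_w129, h_cr, h_rg, h_cb, h_g2]; ring) Z3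
  have hF : FB rho u w (u * A0) (LB * u / b) W0 W1 (b ^ 2 * (2 - ga ^ 2)) (b * ga) α0 (t ^ 2) = e ^ 2 * b * Phi := by
    have z : LB * u / b * (t - b * ga) ^ 2 = e ^ 2 * b * (u * (LB * d1 ^ 2)) := by
      rw [show t - b * ga = b * (e * d1) by rw [ht, ← hd1']; ring]; field_simp
    unfold FB
    rw [F1, F2, F3, F4, F5, F6, F7, Real.sqrt_sq ht0, z, h_Phi, h_PhN, h_PhF, h_cf, h_cb, h_cA, h_cM0, h_cM1, h_cW0, h_cW1, h_cP0, h_cP1]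
    ring
  have hK0 : 0 < K := by
    rw [h_K, h_cf, h_cb, h_n2]; positivity
  rcases hn.eq_or_lt with hn0 | hn0
  · have hb' : b0 + b1 = 0 := by rw [hb, ← hn0]; ring
    have e0' : b0 = α0 := by rw [hα0, ← hn0]; linarith only [hb', hb00, hb10]
    have e1' : b1 = t ^ 2 := by rw [ht, ← hn0]; linarith only [hb', hb00, hb10]
    rw [e0', e1', hF]
    have := B_Phi hn hK0 c0
    positivity
  have hX0 : 0 < (b * n) ^ 2 := by positivity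
  have hX1 : (b * n) ^ 2 < 1 := by
    have e2 : p0 ^ 2 + p1 ^ 2 = 2 * (1 - (b * n) ^ 2) := by rw [sp0, sp1, h_w195, hx]; ring
    have : 0 < p0 ^ 2 + p1 ^ 2 := by positivity
    linarith only [this, e2]
  have hF' : n * b * FB' rho u w (u * A0) (LB * u / b) W0 W1 (b ^ 2 * (2 - ga ^ 2)) (b * ga) α0 (t ^ 2) (χ * n⁻¹)⁻¹ = e * Psi := by
    have Z0' : n * b * (LB * u / b * (1 - 1 / (χ * n⁻¹)⁻¹)) = u * LB * (e * Q) := by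
      rw [one_div, inv_inv, χ2]; field_simp
    unfold FB'
    rw [G4, G5, G6, G7, h_Psi, h_PsN, h_PsF, h_cf, h_cb, h_cA, h_cM0, h_cM1, h_cW0, h_cW1, h_cP0, h_cP1]
    linear_combination u * A0 * G1 hn0 - Z0' - rho * u * G2 hn0 + rho * u * G3 hn0
  have hKt : K ≤ (u * ku / ((b * n) ^ 2 * √((b * n) ^ 2)) + w * kw / ((1 - (b * n) ^ 2) * √(1 - (b * n) ^ 2))) * (b * n) ^ 3 := by
    rw [Real.sqrt_sq (mul_pos p_b hn0).le]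
    have t2' : 0 < 1 - (b * n) ^ 2 := by linarith only [hX1]
    have t1 : √(1 - (b * n) ^ 2) ≤ 1 := Real.sqrt_le_one.2 (by linarith only [hX0])
    have t0 := Real.sqrt_pos.2 t2'
    have t2' : w * kw ≤ w * kw / ((1 - (b * n) ^ 2) * √(1 - (b * n) ^ 2)) :=
      le_div_self (by positivity) (by positivity) (mul_le_one₀ (by linarith only [hX0]) t0.le t1)
    have t3 := mul_le_mul_of_nonneg_right t2' (show 0 ≤ (b * n) ^ 3 by positivity)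
    have t4 : u * ku / ((b * n) ^ 2 * (b * n)) * (b * n) ^ 3 = u * ku := by field_simp
    have t5 : K = u * ku + w * kw * (b * n) ^ 3 := by rw [h_K, h_cf, h_cb, h_n2]; ring
    rw [add_mul, t4, t5]
    linarith only [t3]
  obtain ⟨hκ, hP⟩ := B_fin p_b hn0 hK0 hF hF' hKt c0
  have hg2 : ga ^ 2 ≤ 1 := by nlinarith only [g0, g1]
  have hr1 : (b * ga) ^ 2 < 1 := by nlinarith only [c1, hg2, sq_nonneg b]
  refine FB_ref2 r0 r1 hu hw hU0 (by positivity) hW0 hW1 (mul_pos (by positivity) (by linarith only [hg2])) c1 (by positivity)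
    (by nlinarith only [hr1]) Ku Kw hX0 hX1 ht0 (by positivity) (by rw [ht, ← χ1]; field_simp)
    (by rw [hα, ht2, h_xt, hx]; ring) (by rw [hα0]; positivity) ?_ ?_ hκ hP hb00 hb01 hb10 hb11 hb
  · have : 0 < s0 ^ 2 := by positivity
    rw [ss0, h_xt] at this
    rw [hα]; linarith only [this]
  · have : 0 < s1 ^ 2 := by positivity
    rw [ss1] at this
    rw [ht2]; linarith only [this]


theorem BN_main {rho l4 ku kw ma0 ma1 ma2 mb0 mb1 mb2 bq0 bq1 bq2 gq0 gq1 gq2 xq0 xq1 xq2 am0 am1 bm0 bm1 σ v e : ℝ} (hp : PtB σ v) (he : -1 ≤ e)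
    (S : SideB rho l4 ku kw (af3 ma0 ma1 ma2 σ v) (af3 mb0 mb1 mb2 σ v) (af3 bq0 bq1 bq2 σ v) (af3 gq0 gq1 gq2 σ v) (af3 xq0 xq1 xq2 σ v) σ v)
    (h : BN.a_Spec rho l4 ku kw ma0 ma1 ma2 mb0 mb1 mb2 bq0 bq1 bq2 gq0 gq1 gq2 xq0 xq1 xq2 am0 am1 bm0 bm1 σ v e ∨
      BN.b_Spec rho l4 ku kw ma0 ma1 ma2 mb0 mb1 mb2 bq0 bq1 bq2 gq0 gq1 gq2 xq0 xq1 xq2 am0 am1 bm0 bm1 σ v e)
    {b0 b1 : ℝ} (hb00 : 0 ≤ b0) (hb01 : b0 ≤ 1) (hb10 : 0 ≤ b1) (hb11 : b1 ≤ 1)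
    (hb : b0 + b1 = 2 * (af3 bq0 bq1 bq2 σ v * (e + 1)) ^ 2) :
    0 ≤ FBb rho (af3 ma0 ma1 ma2 σ v) (af3 mb0 mb1 mb2 σ v) (af3 bq0 bq1 bq2 σ v) (af3 gq0 gq1 gq2 σ v)
      (LBv (af3 mb0 mb1 mb2 σ v) (af3 xq0 xq1 xq2 σ v) (af3 gq0 gq1 gq2 σ v) l4 σ v) σ v b0 b1 := by
  have g0 := S.g0
  rcases h with h | h
  · obtain ⟨pa, pb, pc, pd, al, w56, w, b, cb, cf, h⟩ := h
    obtain ⟨n, n2, uh, u, K, mu0, v2, a1, a0, w66, h⟩ := h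
    obtain ⟨iu, A0, ga, g2, Ac, cA, T, tau, t2, A, h⟩ := h
    obtain ⟨jj, d0, mu1, ex, LB, d1, rg, M0c, cM0, rt, h⟩ := h
    obtain ⟨M0, rj, e0, M1c, cM1, M1, e1, PhN, W0, cg, h⟩ := h
    obtain ⟨s0c, cW0, E, G, x, xt, s0, z0, W1, s1c, h⟩ := h
    obtain ⟨cW1, s1, z1, w129, cr, p0c, cP0, rG, w195, xr, h⟩ := h
    obtain ⟨p0, y0, p1c, cP1, p1, y1, PhF, Phi, Q, PsN, h⟩ := h
    obtain ⟨PsF, Psi, h_al, h_w56, h_w, h_b, h_cb, h_cf, h_n, h_n2, h⟩ := h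
    obtain ⟨h_uh, h_u, h_K, h_mu0, h_v2, h_a1, h_a0, h_w66, p_iu, h_iu, h⟩ := h
    obtain ⟨h_A0, h_ga, h_g2, h_Ac, p_Ac, h_cA, h_T, h_tau, h_t2, h_A, h⟩ := h
    obtain ⟨h_jj, p_29, h_d0, h_mu1, h_ex, p_33, h_LB, h_d1, h_rg, h_M0c, h⟩ := h
    obtain ⟨p_M0c, h_cM0, h_rt, h_M0, h_rj, p_43, h_e0, h_M1c, p_M1c, h_cM1, h⟩ := h
    obtain ⟨h_M1, p_49, h_e1, h_PhN, h_W0, h_cg, h_s0c, p_s0c, h_cW0, h_E, h⟩ := h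
    obtain ⟨h_G, h_x, h_xt, h_s0, p_62, h_z0, h_W1, h_s1c, p_s1c, h_cW1, h⟩ := h
    obtain ⟨h_s1, p_69, h_z1, h_w129, h_cr, h_p0c, p_p0c, h_cP0, h_rG, h_w195, h⟩ := h
    obtain ⟨h_xr, h_p0, p_80, h_y0, h_p1c, p_p1c, h_cP1, h_p1, p_86, h_y1, h⟩ := h
    obtain ⟨h_PhF, h_Phi, p_A, p_tau, h_Q, p_M0, p_M1, h_PsN, p_s0, p_s1, h⟩ := h
    obtain ⟨p_p0, p_p1, h_PsF, h_Psi, c0⟩ := h
    have g0' : 0 ≤ ga := h_ga ▸ g0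
    exact BNm_core (χ := ga * tau⁻¹) hp he S h_tau p_tau.le (by positivity) (by field_simp)
      (by rw [h_Q, h_d1, h_n]; field_simp; rw [h_tau]; ring)
      h_al h_w56 h_w h_b h_cb h_cf h_n h_n2 h_uh h_u h_K h_mu0 h_v2 h_a1 h_a0 h_w66 p_iu h_iu h_A0 h_ga h_g2 h_Ac p_Ac h_cA h_t2 h_A
      h_jj p_29 h_d0 h_mu1 h_ex p_33 h_LB h_d1 h_rg h_M0c p_M0c h_cM0 h_rt h_M0 h_rj p_43 h_e0 h_M1c p_M1c h_cM1 h_M1 p_49 h_e1 h_PhN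
      h_W0 h_cg h_s0c p_s0c h_cW0 h_E h_G h_x h_xt h_s0 p_62 h_z0 h_W1 h_s1c p_s1c h_cW1 h_s1 p_69 h_z1 h_w129 h_cr h_p0c p_p0c h_cP0
      h_rG h_w195 h_xr h_p0 p_80 h_y0 h_p1c p_p1c h_cP1 h_p1 p_86 h_y1 h_PhF h_Phi p_A p_M0 p_M1 h_PsN p_s0 p_s1 p_p0 p_p1 h_PsF h_Psi
      c0 hb00 hb01 hb10 hb11 hb
  · obtain ⟨pa, pb, pc, pd, al, w56, w, b, cb, cf, h⟩ := h
    obtain ⟨n, n2, uh, u, K, mu0, v2, a1, a0, w66, h⟩ := h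
    obtain ⟨iu, A0, ga, g2, Ac, cA, up, f0, tau, t2, h⟩ := h
    obtain ⟨A, T, jj, d0, mu1, ex, LB, f1, d1, rg, h⟩ := h
    obtain ⟨M0c, cM0, rt, M0, rj, e0, M1c, cM1, M1, e1, h⟩ := h
    obtain ⟨PhN, W0, cg, s0c, cW0, E, G, x, xt, s0, h⟩ := h
    obtain ⟨z0, W1, s1c, cW1, s1, z1, w129, cr, p0c, cP0, h⟩ := h
    obtain ⟨rG, w200, xr, p0, y0, p1c, cP1, p1, y1, PhF, h⟩ := h
    obtain ⟨Phi, Q, PsN, PsF, Psi, h_al, h_w56, h_w, h_b, h_cb, h⟩ := h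
    obtain ⟨h_cf, h_n, h_n2, h_uh, h_u, h_K, h_mu0, h_v2, h_a1, h_a0, h⟩ := h
    obtain ⟨h_w66, p_iu, h_iu, h_A0, h_ga, h_g2, h_Ac, p_Ac, h_cA, h_up, h⟩ := h
    obtain ⟨h_f0, h_tau, h_t2, h_A, h_T, h_jj, p_31, h_d0, h_mu1, h_ex, h⟩ := h
    obtain ⟨p_35, h_LB, h_f1, h_d1, h_rg, h_M0c, p_M0c, h_cM0, h_rt, h_M0, h⟩ := h
    obtain ⟨h_rj, p_46, h_e0, h_M1c, p_M1c, h_cM1, h_M1, p_52, h_e1, h_PhN, h⟩ := h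
    obtain ⟨h_W0, h_cg, h_s0c, p_s0c, h_cW0, h_E, h_G, h_x, h_xt, h_s0, h⟩ := h
    obtain ⟨p_65, h_z0, h_W1, h_s1c, p_s1c, h_cW1, h_s1, p_72, h_z1, h_w129, h⟩ := h
    obtain ⟨h_cr, h_p0c, p_p0c, h_cP0, h_rG, h_w200, h_xr, h_p0, p_83, h_y0, h⟩ := h
    obtain ⟨h_p1c, p_p1c, h_cP1, h_p1, p_89, h_y1, h_PhF, h_Phi, p_A, p_f0, h⟩ := h
    obtain ⟨h_Q, p_M0, p_M1, h_PsN, p_s0, p_s1, p_p0, p_p1, h_PsF, h_Psi, h⟩ := h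
    have c0 := h
    have g0' : 0 ≤ ga := h_ga ▸ g0
    exact BNm_core (χ := f0⁻¹) (T := T) hp he S (by rw [h_tau, h_T, h_f0]; ring) (by rw [h_tau]; positivity) (by positivity)
      (by rw [h_tau]; field_simp) (by rw [h_Q, h_f1, h_n]; field_simp; rw [h_f0]; ring)
      h_al h_w56 h_w h_b h_cb h_cf h_n h_n2 h_uh h_u h_K h_mu0 h_v2 h_a1 h_a0 h_w66 p_iu h_iu h_A0 h_ga h_g2 h_Ac p_Ac h_cA h_t2 h_A
      h_jj p_31 h_d0 h_mu1 h_ex p_35 h_LB (by rw [h_d1, h_f1, h_tau, h_T]; ring) h_rg h_M0c p_M0c h_cM0 h_rt h_M0 h_rj p_46 h_e0 h_M1c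
      p_M1c h_cM1 h_M1 p_52 h_e1 h_PhN h_W0 h_cg h_s0c p_s0c h_cW0 h_E h_G h_x h_xt h_s0 p_65 h_z0 h_W1 h_s1c p_s1c h_cW1 h_s1 p_72 h_z1
      h_w129 h_cr h_p0c p_p0c h_cP0 h_rG h_w200 h_xr h_p0 p_83 h_y0 h_p1c p_p1c h_cP1 h_p1 p_89 h_y1 h_PhF h_Phi p_A p_M0 p_M1 h_PsN
      p_s0 p_s1 p_p0 p_p1 h_PsF h_Psi c0 hb00 hb01 hb10 hb11 hb

end Crest.Agent.R307
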