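import Crest.Agent.R307.B.BVx
import Crest.Agent.R307.B.BKm
import Crest.Agent.R307.B.BNm

/-! Row 307, regime `δ ≥ 5/8 α`: from boxes of cells to the certificate on a region. -/

set_option autoImplicit false
set_option linter.unusedVariables false

namespace Crest.Agent.R307
open AA

theorem BR_O : val 4722366482869645213696 ≤ (0 : ℝ) ∧ (0 : ℝ) ≤ val 4722366482869645213696 := by norm_num [val]

/-- a checked vertex at the point `(σ, v)` -/
def VtxB (g : ℕ) (σ v : ℝ) : Prop :=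
  SideB (parV g 0) (parV g 1) (parV g 2) (parV g 3) (af3 (parV g 4) (parV g 5) (parV g 6) σ v) (af3 (parV g 7) (parV g 8) (parV g 9) σ v)
      (af3 (parV g 10) (parV g 11) (parV g 12) σ v) (af3 (parV g 13) (parV g 14) (parV g 15) σ v) (af3 (parV g 16) (parV g 17) (parV g 18) σ v) σ v ∧
    ∀ b0 b1 : ℝ, 0 ≤ b0 → b0 ≤ 1 → 0 ≤ b1 → b1 ≤ 1 → 0 ≤ FBb (parV g 0) (af3 (parV g 4) (parV g 5) (parV g 6) σ v) (af3 (parV g 7) (parV g 8) (parV g 9) σ v)
      (af3 (parV g 10) (parV g 11) (parV g 12) σ v) (af3 (parV g 13) (parV g 14) (parV g 15) σ v)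
      (LBv (af3 (parV g 7) (parV g 8) (parV g 9) σ v) (af3 (parV g 16) (parV g 17) (parV g 18) σ v) (af3 (parV g 13) (parV g 14) (parV g 15) σ v) (parV g 1) σ v) σ v b0 b1

theorem BR_ex {σ v : ℝ} (hp : PtB σ v) : ¬ 0 ≤ σ ^ 2 * ((1 : ℝ) - v ^ 2) + (-257 / 1024 : ℝ) := by
  have := hp.d4
  unfold dB at this
  intro h; linarith

/-- `e ∈ [-1, 105/16]`, `y ∈ [0, 723/1024]`, `s ∈ [0, 1]` -/
theorem BR_vertex {g l0 h0 l1 h1 eL eH yL yH sL sH : ℕ}
    (N : Good (BN.PR g) l0 h0 l1 h1 eL eH 4722366482869645213696 4722366482869645213696)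
    (T : Good (BT.PR g) l0 h0 l1 h1 yL yH 4722366482869645213696 4722366482869645213696)
    (D : Good (BD.PR g) l0 h0 l1 h1 4722366482869645213696 4722366482869645213696 4722366482869645213696 4722366482869645213696)
    (K : Good (BK.PR g) sL sH 4722366482869645213696 4722366482869645213696 4722366482869645213696 4722366482869645213696 4722366482869645213696 4722366482869645213696)
    (hr : val eL ≤ -1 ∧ 105 / 16 ≤ val eH ∧ val yL ≤ 0 ∧ 2889 / 4096 ≤ val yH ∧ val sL ≤ 0 ∧ 1 ≤ val sH)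
    {σ v : ℝ} (hb0 : val l0 ≤ σ ∧ σ ≤ val h0) (hb1 : val l1 ≤ v ∧ v ≤ val h1) (hp : PtB σ v) : VtxB g σ v := by
  obtain ⟨e0, e1, y0, y1, s0, s1⟩ := hr
  have hex := BR_ex hp
  have S : SideB (parV g 0) (parV g 1) (parV g 2) (parV g 3) (af3 (parV g 4) (parV g 5) (parV g 6) σ v) (af3 (parV g 7) (parV g 8) (parV g 9) σ v)
      (af3 (parV g 10) (parV g 11) (parV g 12) σ v) (af3 (parV g 13) (parV g 14) (parV g 15) σ v) (af3 (parV g 16) (parV g 17) (parV g 18) σ v) σ v := by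
    refine BKD_main hp (fun s a b => @BK.of_good _ _ _ _ _ _ _ _ _ K s 0 0 0 ⟨⟨s0.trans a, b.trans s1⟩, BR_O, BR_O, BR_O⟩) ?_
    rcases @BD.of_good _ _ _ _ _ _ _ _ _ D σ v 0 0 ⟨hb0, hb1, BR_O, BR_O⟩ with h | h | h
    · exact Or.inl h
    · exact Or.inr h
    · exact absurd h hex
  refine ⟨S, fun b0 b1 p0 p1 q0 q1 => ?_⟩
  have hb := S.b0
  obtain ⟨b, hbe⟩ : ∃ b, b = (af3 (parV g 10) (parV g 11) (parV g 12) σ v) := ⟨_, rfl⟩
  rw [← hbe] at hb
  have hb' : 0 < b := by linarith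
  have hx0 : 0 ≤ (b0 + b1) / 2 := by linarith
  have hs := Real.sq_sqrt hx0
  have hs0 := Real.sqrt_nonneg ((b0 + b1) / 2)
  rcases lt_or_ge √((b0 + b1) / 2) (363 / 512) with c | c
  · have he : b * (√((b0 + b1) / 2) / b - 1 + 1) = √((b0 + b1) / 2) := by field_simp; ring
    have f0 : -1 ≤ √((b0 + b1) / 2) / b - 1 := by have := div_nonneg hs0 hb'.le; linarith
    have f1 : √((b0 + b1) / 2) / b - 1 ≤ 105 / 16 := by
      have : √((b0 + b1) / 2) / b ≤ 121 / 16 := by rw [div_le_iff₀ hb']; linarith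
      linarith
    rcases @BN.of_good _ _ _ _ _ _ _ _ _ N σ v (√((b0 + b1) / 2) / b - 1) 0 ⟨hb0, hb1, ⟨e0.trans f0, f1.trans e1⟩, BR_O⟩ with h | h | h | h
    · exact BN_main hp f0 S (Or.inl h) p0 p1 q0 q1 (by rw [← hbe, he, hs]; ring)
    · exact BN_main hp f0 S (Or.inr h) p0 p1 q0 q1 (by rw [← hbe, he, hs]; ring)
    · exfalso
      obtain ⟨bn, h1, h2⟩ := h
      unfold af3 at hbe
      rw [← hbe, he] at h1
      linarith
    · exact absurd h hex
  · have hy : 0 ≤ 1 - (b0 + b1) / 2 := by linarith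
    have f0 := Real.sqrt_nonneg (1 - (b0 + b1) / 2)
    have f1 : √(1 - (b0 + b1) / 2) ≤ 2889 / 4096 := Real.sqrt_le_iff.2 ⟨by norm_num, by nlinarith⟩
    rcases @BT.of_good _ _ _ _ _ _ _ _ _ T σ v √(1 - (b0 + b1) / 2) 0 ⟨hb0, hb1, ⟨y0.trans f0, f1.trans y1⟩, BR_O⟩ with h | h
    · exact BT_main hp f0 S h p0 p1 q0 q1 (by rw [Real.sq_sqrt hy]; ring)
    · exact absurd h hex

theorem BR_theta {ρ ρa ρb : ℝ} (h0 : 0 ≤ ρa) (ha : ρa ≤ ρ) (hb : ρ ≤ ρb) :
    ∃ θ : ℝ, 0 ≤ θ ∧ θ ≤ 1 ∧ ρ ^ 2 = (1 - θ) * ρa ^ 2 + θ * ρb ^ 2 := by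
  have a2 : ρa ^ 2 ≤ ρ ^ 2 := pow_le_pow_left₀ h0 ha 2
  have b2 : ρ ^ 2 ≤ ρb ^ 2 := pow_le_pow_left₀ (h0.trans ha) hb 2
  rcases (a2.trans b2).eq_or_lt with h | h
  · exact ⟨0, le_rfl, zero_le_one, by linarith⟩
  · have hd : 0 < ρb ^ 2 - ρa ^ 2 := by linarith
    refine ⟨(ρ ^ 2 - ρa ^ 2) / (ρb ^ 2 - ρa ^ 2), div_nonneg (by linarith) hd.le, (div_le_one hd).2 (by linarith), ?_⟩
    field_simp; ring

theorem BR_A {ga gb l0 h0 l1 h1 tL tH : ℕ} (S : Good (BA.PR ga gb) l0 h0 l1 h1 tL tH 4722366482869645213696 4722366482869645213696)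
    (ht : val tL ≤ 0 ∧ 1 ≤ val tH) {ρ β σ v : ℝ} (hb0 : val l0 ≤ σ ∧ σ ≤ val h0) (hb1 : val l1 ≤ v ∧ v ≤ val h1) (hp : PtB σ v)
    (Va : VtxB ga σ v) (Vb : VtxB gb σ v) (hβ : 0 ≤ β) (hρ : ρ ^ 2 + β ^ 2 = 1) (ha : parV ga 0 ≤ ρ) (hb : ρ ≤ parV gb 0) :
    HS ρ β (σ ^ 2) (dB σ v) := by
  obtain ⟨θ, t0, t1, hr⟩ := BR_theta Va.1.r0 ha hb
  have h := (@BA.of_good _ _ _ _ _ _ _ _ _ _ S σ v θ 0 ⟨hb0, hb1, ⟨ht.1.trans t0, t1.trans ht.2⟩, BR_O⟩).resolve_right (BR_ex hp)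
  exact BV_interval hp (Va.1.r0.trans ha) t0 t1 hr Va.1 Vb.1 Va.2 Vb.2 (BA_main hp hβ hρ t0 t1 hr Va.1 Vb.1 h)

theorem BR_B {ga gb l0 h0 l1 h1 tL tH : ℕ} (S : Good (BB.PR ga gb) l0 h0 l1 h1 tL tH 4722366482869645213696 4722366482869645213696)
    (ht : val tL ≤ 0 ∧ 1 ≤ val tH) {ρ β σ v : ℝ} (hb0 : val l0 ≤ σ ∧ σ ≤ val h0) (hb1 : val l1 ≤ v ∧ v ≤ val h1) (hp : PtB σ v)
    (Va : VtxB ga σ v) (Vb : VtxB gb σ v) (hβ : 0 ≤ β) (hρ : ρ ^ 2 + β ^ 2 = 1) (ha : parV ga 0 ≤ ρ) (hb : ρ ≤ parV gb 0) :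
    HS ρ β (σ ^ 2) (dB σ v) := by
  obtain ⟨θ, t0, t1, hr⟩ := BR_theta Va.1.r0 ha hb
  have h := (@BB.of_good _ _ _ _ _ _ _ _ _ _ S σ v θ 0 ⟨hb0, hb1, ⟨ht.1.trans t0, t1.trans ht.2⟩, BR_O⟩).resolve_right (BR_ex hp)
  exact BV_interval hp (Va.1.r0.trans ha) t0 t1 hr Va.1 Vb.1 Va.2 Vb.2 (BB_main hp hβ hρ t0 t1 hr Va.1 Vb.1 h)

/-- the property of a point `(σ, v)` -/
def QB : ℕ → ℕ → ℝ → ℝ → ℝ → ℝ → Prop := fun _ _ σ v _ _ =>
  ∀ ρ β : ℝ, 0 ≤ ρ → ρ ≤ 4 / 5 → 0 ≤ β → ρ ^ 2 + β ^ 2 = 1 → PtB σ v → HS ρ β (σ ^ 2) (dB σ v)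

/-- six vertices -/
theorem BR_region {g0 g1 g2 g3 g4 g5 l0 h0 l1 h1 eL eH yL yH sL sH tL tH : ℕ}
    (N0 : Good (BN.PR g0) l0 h0 l1 h1 eL eH 4722366482869645213696 4722366482869645213696)
    (T0 : Good (BT.PR g0) l0 h0 l1 h1 yL yH 4722366482869645213696 4722366482869645213696)
    (D0 : Good (BD.PR g0) l0 h0 l1 h1 4722366482869645213696 4722366482869645213696 4722366482869645213696 4722366482869645213696)
    (K0 : Good (BK.PR g0) sL sH 4722366482869645213696 4722366482869645213696 4722366482869645213696 4722366482869645213696 4722366482869645213696 4722366482869645213696)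
    (N1 : Good (BN.PR g1) l0 h0 l1 h1 eL eH 4722366482869645213696 4722366482869645213696)
    (T1 : Good (BT.PR g1) l0 h0 l1 h1 yL yH 4722366482869645213696 4722366482869645213696)
    (D1 : Good (BD.PR g1) l0 h0 l1 h1 4722366482869645213696 4722366482869645213696 4722366482869645213696 4722366482869645213696)
    (K1 : Good (BK.PR g1) sL sH 4722366482869645213696 4722366482869645213696 4722366482869645213696 4722366482869645213696 4722366482869645213696 4722366482869645213696)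
    (N2 : Good (BN.PR g2) l0 h0 l1 h1 eL eH 4722366482869645213696 4722366482869645213696)
    (T2 : Good (BT.PR g2) l0 h0 l1 h1 yL yH 4722366482869645213696 4722366482869645213696)
    (D2 : Good (BD.PR g2) l0 h0 l1 h1 4722366482869645213696 4722366482869645213696 4722366482869645213696 4722366482869645213696)
    (K2 : Good (BK.PR g2) sL sH 4722366482869645213696 4722366482869645213696 4722366482869645213696 4722366482869645213696 4722366482869645213696 4722366482869645213696)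
    (N3 : Good (BN.PR g3) l0 h0 l1 h1 eL eH 4722366482869645213696 4722366482869645213696)
    (T3 : Good (BT.PR g3) l0 h0 l1 h1 yL yH 4722366482869645213696 4722366482869645213696)
    (D3 : Good (BD.PR g3) l0 h0 l1 h1 4722366482869645213696 4722366482869645213696 4722366482869645213696 4722366482869645213696)
    (K3 : Good (BK.PR g3) sL sH 4722366482869645213696 4722366482869645213696 4722366482869645213696 4722366482869645213696 4722366482869645213696 4722366482869645213696)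
    (N4 : Good (BN.PR g4) l0 h0 l1 h1 eL eH 4722366482869645213696 4722366482869645213696)
    (T4 : Good (BT.PR g4) l0 h0 l1 h1 yL yH 4722366482869645213696 4722366482869645213696)
    (D4 : Good (BD.PR g4) l0 h0 l1 h1 4722366482869645213696 4722366482869645213696 4722366482869645213696 4722366482869645213696)
    (K4 : Good (BK.PR g4) sL sH 4722366482869645213696 4722366482869645213696 4722366482869645213696 4722366482869645213696 4722366482869645213696 4722366482869645213696)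
    (N5 : Good (BN.PR g5) l0 h0 l1 h1 eL eH 4722366482869645213696 4722366482869645213696)
    (T5 : Good (BT.PR g5) l0 h0 l1 h1 yL yH 4722366482869645213696 4722366482869645213696)
    (D5 : Good (BD.PR g5) l0 h0 l1 h1 4722366482869645213696 4722366482869645213696 4722366482869645213696 4722366482869645213696)
    (K5 : Good (BK.PR g5) sL sH 4722366482869645213696 4722366482869645213696 4722366482869645213696 4722366482869645213696 4722366482869645213696 4722366482869645213696)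
    (S0 : Good (BA.PR g0 g1) l0 h0 l1 h1 tL tH 4722366482869645213696 4722366482869645213696)
    (S1 : Good (BB.PR g1 g2) l0 h0 l1 h1 tL tH 4722366482869645213696 4722366482869645213696)
    (S2 : Good (BB.PR g2 g3) l0 h0 l1 h1 tL tH 4722366482869645213696 4722366482869645213696)
    (S3 : Good (BB.PR g3 g4) l0 h0 l1 h1 tL tH 4722366482869645213696 4722366482869645213696)
    (S4 : Good (BB.PR g4 g5) l0 h0 l1 h1 tL tH 4722366482869645213696 4722366482869645213696)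
    (hr : val eL ≤ -1 ∧ 105 / 16 ≤ val eH ∧ val yL ≤ 0 ∧ 2889 / 4096 ≤ val yH ∧ val sL ≤ 0 ∧ 1 ≤ val sH)
    (ht : val tL ≤ 0 ∧ 1 ≤ val tH) (hg : parN g0 0 = 4722366482869645213696 ∧ 4722366708049626582221 ≤ parN g5 0) :
    Good QB l0 h0 l1 h1 4722366482869645213696 4722366482869645213696 4722366482869645213696 4722366482869645213696 := by
  intro σ v _ _ hb
  refine ⟨0, 0, fun ρ β h0 h1 hβ hρ hp => ?_⟩
  have V0 := BR_vertex N0 T0 D0 K0 hr hb.1 hb.2.1 hp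
  have V1 := BR_vertex N1 T1 D1 K1 hr hb.1 hb.2.1 hp
  have V2 := BR_vertex N2 T2 D2 K2 hr hb.1 hb.2.1 hp
  have V3 := BR_vertex N3 T3 D3 K3 hr hb.1 hb.2.1 hp
  have V4 := BR_vertex N4 T4 D4 K4 hr hb.1 hb.2.1 hp
  have V5 := BR_vertex N5 T5 D5 K5 hr hb.1 hb.2.1 hp
  have c0 : parV g0 0 ≤ ρ := by rw [parV, hg.1]; exact BR_O.1.trans h0
  have cn : ρ ≤ parV g5 0 := by
    have : (4722366708049626582221 : ℝ) ≤ (parN g5 0 : ℝ) := by exact_mod_cast hg.2
    unfold parV val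
    rw [le_div_iff₀ (by positivity), show (2 : ℝ) ^ 48 = 281474976710656 by norm_num,
      show (2 : ℝ) ^ 72 = 4722366482869645213696 by norm_num]
    linarith
  rcases le_total ρ (parV g1 0) with c1 | c1
  · exact BR_A S0 ht hb.1 hb.2.1 hp V0 V1 hβ hρ c0 c1
  rcases le_total ρ (parV g2 0) with c2 | c2
  · exact BR_B S1 ht hb.1 hb.2.1 hp V1 V2 hβ hρ c1 c2
  rcases le_total ρ (parV g3 0) with c3 | c3
  · exact BR_B S2 ht hb.1 hb.2.1 hp V2 V3 hβ hρ c2 c3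
  rcases le_total ρ (parV g4 0) with c4 | c4
  · exact BR_B S3 ht hb.1 hb.2.1 hp V3 V4 hβ hρ c3 c4
  exact BR_B S4 ht hb.1 hb.2.1 hp V4 V5 hβ hρ c4 cn

/-- the final chart; the box has to contain `[1/8, 633/1000] × [0, 6124/10000]` -/
theorem BR_final {l0 h0 l1 h1 : ℕ} (G : Good QB l0 h0 l1 h1 4722366482869645213696 4722366482869645213696 4722366482869645213696 4722366482869645213696)
    (hb : val l0 ≤ 1 / 8 ∧ 6325 / 10000 ≤ val h0 ∧ val l1 ≤ 0 ∧ 6124 / 10000 ≤ val h1)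
    {ρ β α δ : ℝ} (h0 : 0 ≤ ρ) (h1 : ρ ≤ 4 / 5) (hβ : 0 ≤ β) (h : ρ ^ 2 + β ^ 2 = 1)
    (hα0 : 1 / 64 ≤ α) (hδ5 : 5 / 8 * α ≤ δ) (hδ : δ ≤ α) (hδ4 : δ ≤ 1 / 4) : HS ρ β α δ := by
  have hα1 : 0 < α := by linarith
  have hs : √α ^ 2 = α := Real.sq_sqrt hα1.le
  have s0 : 1 / 8 ≤ √α := Real.le_sqrt_of_sq_le (by linarith)
  have s1 : √α ≤ 6325 / 10000 := Real.sqrt_le_iff.2 ⟨by norm_num, by linarith⟩
  have w0 : 0 ≤ 1 - δ / α := by rw [sub_nonneg, div_le_one hα1]; exact hδ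
  have w1 : 5 / 8 ≤ δ / α := by rw [le_div_iff₀ hα1]; exact hδ5
  have v1 : √(1 - δ / α) ≤ 6124 / 10000 := Real.sqrt_le_iff.2 ⟨by norm_num, by linarith⟩
  have e : dB √α √(1 - δ / α) = δ := by unfold dB; rw [hs, Real.sq_sqrt w0]; field_simp; ring
  obtain ⟨_, _, H⟩ := G √α √(1 - δ / α) 0 0 ⟨⟨hb.1.trans s0, s1.trans hb.2.1⟩,
    ⟨hb.2.2.1.trans (Real.sqrt_nonneg _), v1.trans hb.2.2.2⟩, BR_O, BR_O⟩
  have := H ρ β h0 h1 hβ h ⟨s0, by rw [hs]; linarith, Real.sqrt_nonneg _, by linarith, by rw [e]; exact hδ4⟩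
  rwa [e, hs] at this

end Crest.Agent.R307
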