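import Crest.Agent.R307.B.BDefs
import Crest.Agent.R307.B.BAP
import Crest.Agent.R307.B.BBP

/-! Row 307, regime `δ ≥ 5/8 α`: the scalar half.
With `a0 = σ² + δ = σ² (2 - v²)`, `a1 = σ² - δ = (σ v)²`, `x = σ v = √a1`:
* `psiH a a - RH β a = s * D`, `s = 1 - β`, `D = uw / (ψ + √(ψ² - uw s))` (`RH_eq`; the radicand is `≥ 0` because
  `ψ ≥ u a + w (1 - a) ≥ (u + w) / 2 ≥ √(u w)`, using `u - w = 2 a - 1` for `u = uf a`, `w = uf (1 - a)`);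
* `Nnv = Nn` of the Spec, from `√a + Bg a c = (a + c) / (2 √c)` (`HBa_Bg`) at the four mixed points `σ² ± ρ δ`, `1 - (σ² ± ρ δ)`, whose
  base points are `(b M0c)²`, `(b M1c)²`, `p0c²`, `p1c²`; `√(b² (2 - γ²)) = b Ac`, `uf σ² * fa = uf a0`, `LB = LBv`;
* `x - a1 ^ (1 / (2 - r)) = x - x * x ^ κ ≤ x (1 - c + c log c) + c κ M`, `κ = r / (2 - r)`, `M = p - x (log p + 1) ≥ - x log x`
  (`exp t ≥ c (1 + t - log c)`, `log (p / x) ≤ p / x - 1`; for `x = 0` the left side is `0`); `c = 1` in `BA`. -/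

set_option autoImplicit false
set_option linter.unusedVariables false

namespace Crest.Agent.R307

theorem BSm_D {β a s u w X Y ps D : ℝ} (h0 : 0 ≤ a) (h1 : a ≤ 1) (hβ : 0 ≤ β) (hs : s = 1 - β) (hu : uf a = u) (hw : uf (1 - a) = w)
    (hX : √a = X) (hY : Y = √(1 - a)) (hps : ps = u * X + w * Y) (hp : 0 < ps + √(ps ^ 2 - u * w * s))
    (hD : D = u * w * (ps + √(ps ^ 2 - u * w * s))⁻¹) : psiH a a - RH β a = s * D := by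
  have e1 : psiH a a = ps := by unfold psiH; rw [hu, hw, hX, ← hY, hps]
  have hu0 : 0 ≤ u := hu ▸ HBa_uf_nonneg h0 h1
  have hw0 : 0 ≤ w := hw ▸ HBa_uf_nonneg (by linarith) (by linarith)
  have hd : u - w = 2 * a - 1 := by rw [← hu, ← hw]; unfold uf; ring
  have x1 : a ≤ X := by rw [← hX]; exact Real.le_sqrt_of_sq_le (by nlinarith)
  have y1 : 1 - a ≤ Y := by rw [hY]; exact Real.le_sqrt_of_sq_le (by nlinarith)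
  have p1 : (u + w) / 2 ≤ ps := by
    have := mul_le_mul_of_nonneg_left x1 hu0
    have := mul_le_mul_of_nonneg_left y1 hw0
    have : u * a + w * (1 - a) - (u + w) / 2 = (2 * a - 1) ^ 2 / 2 := by linear_combination (a - 1 / 2) * hd
    nlinarith [sq_nonneg (2 * a - 1)]
  have p2 : ((u + w) / 2) ^ 2 ≤ ps ^ 2 := pow_le_pow_left₀ (by positivity) p1 2
  have p3 : 0 ≤ ps ^ 2 - u * w * s := by
    have := mul_nonneg (mul_nonneg hu0 hw0) hβ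
    rw [hs]; nlinarith [sq_nonneg (u - w)]
  rw [RH_eq h0 h1, e1, hu, hw, ← hs, hD]
  have p4 := Real.sq_sqrt p3
  generalize √(ps ^ 2 - u * w * s) = H at *
  field_simp
  linear_combination -p4

theorem BSm_mix {a c t s rd : ℝ} (ha : 0 ≤ a) (ht : 0 < t) (hc : c = t ^ 2) (hs : a = s ^ 2 + rd) :
    Bg a c = -√a + s + t⁻¹ * ((t - s) ^ 2 + rd) / 2 := by
  rw [HBa_Bg ha (by rw [hc]; positivity), hc, Real.sqrt_sq ht.le]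
  generalize √a = P
  rw [hs]; field_simp; ring

theorem BSm_E {x r c p M i2 : ℝ} (hx : 0 ≤ x) (hr : 0 ≤ r) (h2 : 0 < 2 - r) (hc : 0 < c) (hp : 0 < p)
    (hi : i2 = (2 - r)⁻¹) (hM : M = p - x * (Real.log p + 1)) :
    x - (x ^ 2) ^ (1 / (2 - r)) ≤ x * (c * (Real.log c + -1) + 1) + c * (r * i2) * M := by
  have hi0 : 0 < i2 := hi ▸ inv_pos.2 h2
  have hk : 0 ≤ c * (r * i2) := by positivity
  rcases hx.eq_or_lt with h | h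
  · subst h
    rw [zero_pow two_ne_zero, Real.zero_rpow (one_div_pos.2 h2).ne', hM]
    simp only [zero_mul, sub_zero, zero_add]
    positivity
  · have e1 : (x ^ 2) ^ (1 / (2 - r)) = x * Real.exp (r * i2 * Real.log x) := by
      rw [Real.rpow_def_of_pos (by positivity), Real.log_pow]
      conv_rhs => rw [← Real.exp_log h, ← Real.exp_add, Real.log_exp]
      congr 1
      rw [hi]; push_cast; field_simp; ring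
    have e2 : c * (1 + r * i2 * Real.log x - Real.log c) ≤ Real.exp (r * i2 * Real.log x) := by
      have := Real.add_one_le_exp (r * i2 * Real.log x - Real.log c)
      rw [Real.exp_sub, Real.exp_log hc, le_div_iff₀ hc] at this
      linarith
    have e3 : -(x * Real.log x) ≤ M := by
      have := Real.log_le_sub_one_of_pos (div_pos hp h)
      rw [Real.log_div hp.ne' h.ne'] at this
      have := mul_le_mul_of_nonneg_left this h.le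
      have e : x * (p / x - 1) = p - x := by field_simp
      rw [hM]; linarith
    have e4 := mul_le_mul_of_nonneg_left e2 h.le
    have e5 := mul_le_mul_of_nonneg_left e3 hk
    rw [e1]; linarith

/-- the point -/
theorem BSm_pt {σ v al w58 uh u w v2 a1 a0 w64 h0 u0 w0 w77 X0 w66 h1 u1 w1 x : ℝ} (hp : PtB σ v)
    (h_al : al = σ ^ 2) (h_w58 : w58 = 9 / 10 * al) (h_uh : uh = 19 / 10 - w58) (h_u : u = al * uh)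
    (h_w : w = 1 - al * (w58 + 1 / 10)) (h_v2 : v2 = v ^ 2) (h_a1 : a1 = al * v2) (h_a0 : a0 = 2 * al - a1)
    (h_w64 : w64 = 9 / 10 * a0) (h_h0 : h0 = 19 / 10 - w64) (h_u0 : u0 = a0 * h0) (h_w0 : w0 = 1 - a0 * (w64 + 1 / 10))
    (h_w77 : w77 = 2 - v2) (h_X0 : X0 = σ * √w77) (h_w66 : w66 = 9 / 10 * a1) (h_h1 : h1 = 19 / 10 - w66) (h_u1 : u1 = a1 * h1)
    (h_w1 : w1 = 1 - a1 * (w66 + 1 / 10)) (h_x : x = σ * v) :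
    σ ^ 2 + dB σ v = a0 ∧ σ ^ 2 - dB σ v = a1 ∧ dB σ v = al - a1 ∧ uf al = u ∧ uf (1 - al) = w ∧ uf a0 = u0 ∧ uf (1 - a0) = w0 ∧
      uf a1 = u1 ∧ uf (1 - a1) = w1 ∧ √al = σ ∧ √a0 = X0 ∧ √a1 = x ∧ a1 = x ^ 2 ∧ a0 = al * w77 ∧
      0 ≤ x ∧ 0 ≤ a1 ∧ a1 ≤ al ∧ al ≤ a0 ∧ a0 ≤ 3 / 4 ∧ al ≤ 1 / 2 := by
  obtain ⟨s0, s1, v0, v1, d4⟩ := hp
  have hσ : 0 < σ := by linarith
  have hv : v ^ 2 ≤ 1 := by nlinarith
  have hx : 0 ≤ σ * v := by positivity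
  have hd : 0 ≤ σ ^ 2 * (1 - v ^ 2) := mul_nonneg (sq_nonneg _) (by linarith)
  unfold dB at *
  subst h_al h_w58 h_uh h_u h_w h_v2 h_a1 h_a0 h_w64 h_h0 h_u0 h_w0 h_w77 h_X0 h_w66 h_h1 h_u1 h_w1 h_x
  refine ⟨by ring, by ring, by ring, by unfold uf; ring, by unfold uf; ring, by unfold uf; ring, by unfold uf; ring,
    by unfold uf; ring, by unfold uf; ring, Real.sqrt_sq hσ.le, ?_, ?_, by ring, by ring, hx, by positivity, by linarith, by linarith,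
    by linarith, s1⟩
  · rw [show 2 * σ ^ 2 - σ ^ 2 * v ^ 2 = σ ^ 2 * (2 - v ^ 2) by ring, Real.sqrt_mul (sq_nonneg _), Real.sqrt_sq hσ.le]
  · rw [← mul_pow, Real.sqrt_sq hx]

/-- the value `Nnv` -/
theorem BSm_N {ρ l4 m0 m1 b γ ex σ v al w58 uh u w v2 a1 a0 w64 h0 u0 w0 w77 X0 w66 h1 u1 w1 x Y Y0 Y1 ig iu fa A0 g2 Ac fb LB rg
    M0c de rd M1c Nu W0 cb cg s0c W1 s1c w309 cr p0c p1c Nw Nn : ℝ} (hp : PtB σ v) (r0 : 0 ≤ ρ) (r1 : ρ < 1)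
    (h_al : al = σ ^ 2) (h_w58 : w58 = 9 / 10 * al) (h_uh : uh = 19 / 10 - w58) (h_u : u = al * uh)
    (h_w : w = 1 - al * (w58 + 1 / 10)) (h_v2 : v2 = v ^ 2) (h_a1 : a1 = al * v2) (h_a0 : a0 = 2 * al - a1)
    (h_w64 : w64 = 9 / 10 * a0) (h_h0 : h0 = 19 / 10 - w64) (h_u0 : u0 = a0 * h0) (h_w0 : w0 = 1 - a0 * (w64 + 1 / 10))
    (h_w77 : w77 = 2 - v2) (h_X0 : X0 = σ * √w77) (h_w66 : w66 = 9 / 10 * a1) (h_h1 : h1 = 19 / 10 - w66) (h_u1 : u1 = a1 * h1)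
    (h_w1 : w1 = 1 - a1 * (w66 + 1 / 10)) (h_x : x = σ * v)
    (h_Y : Y = √(1 - al)) (h_Y0 : Y0 = √(1 - a0)) (h_Y1 : Y1 = √(1 - a1)) (h_ig : ig = (γ + l4)⁻¹)
    (p_b : 0 < b) (p_iu : 0 < uh) (h_iu : iu = uh⁻¹) (h_fa : fa = w77 * (h0 * iu)) (h_fb : fb = 1 / 2 * (h1 * iu)) (h_de : de = al - a1)
    (h_A0 : A0 = m0 * fa) (h_g2 : g2 = γ ^ 2) (h_Ac : Ac = √(2 - g2)) (p_Ac : 0 < Ac)
    (h_LB : LB = (m1 * (v * (v + l4)) * fb + ex) * ig) (h_rg : rg = ρ * (1 - g2)) (h_M0c : M0c = √(rg + 1)) (p_M0c : 0 < M0c)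
    (h_rd : rd = ρ * de) (h_M1c : M1c = √(1 - rg)) (p_M1c : 0 < M1c)
    (h_Nu : Nu = A0 * Ac⁻¹ * (X0 - b * Ac) ^ 2 + 2 * (LB * (x - b * γ) ^ 2) - M0c⁻¹ * ((b * M0c - σ) ^ 2 + rd)
      - M1c⁻¹ * ((b * M1c - σ) ^ 2 - rd))
    (h_W0 : W0 = m0 * w0) (h_cb : cb = b ^ 2) (h_cg : cg = cb * g2) (h_s0c : s0c = √(cg - 2 * cb + 1)) (p_s0c : 0 < s0c)
    (h_W1 : W1 = m1 * w1) (h_s1c : s1c = √(1 - cg)) (p_s1c : 0 < s1c) (h_w309 : w309 = 1 - cb) (h_cr : cr = cb * rg)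
    (h_p0c : p0c = √(w309 - cr)) (p_p0c : 0 < p0c) (h_p1c : p1c = √(w309 + cr)) (p_p1c : 0 < p1c)
    (h_Nw : Nw = W0 * s0c⁻¹ * (Y0 - s0c) ^ 2 + W1 * s1c⁻¹ * (Y1 - s1c) ^ 2
      - w * (p0c⁻¹ * ((p0c - Y) ^ 2 - rd) + p1c⁻¹ * ((p1c - Y) ^ 2 + rd)))
    (h_Nn : Nn = 1 / 2 * (u * b⁻¹ * Nu + Nw)) : Nnv ρ l4 m0 m1 b γ ex σ v = Nn := by
  obtain ⟨e0, e1, ed, f, fw, f0, fw0, f1, fw1, q, q0, q1, x2, a0e, x0, l1, l2, l3, l4', l5⟩ :=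
    BSm_pt hp h_al h_w58 h_uh h_u h_w h_v2 h_a1 h_a0 h_w64 h_h0 h_u0 h_w0 h_w77 h_X0 h_w66 h_h1 h_u1 h_w1 h_x
  have hL : LBv m1 ex γ l4 σ v = LB := by
    unfold LBv; rw [h_LB, h_fb, h_iu, h_ig, h_h1, h_w66, h_a1, h_v2, h_uh, h_w58, h_al]; ring
  have hf : u0 = u * fa := by
    rw [h_u0, h_u, h_fa, h_iu, a0e]; field_simp
  have sAc := B_sq h_Ac p_Ac
  have sM0 := B_sq h_M0c p_M0c
  have sM1 := B_sq h_M1c p_M1c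
  have ss0 := B_sq h_s0c p_s0c
  have ss1 := B_sq h_s1c p_s1c
  have sp0 := B_sq h_p0c p_p0c
  have sp1 := B_sq h_p1c p_p1c
  have hde : 0 ≤ de := by linarith
  have hrd0 : 0 ≤ rd := by rw [h_rd]; positivity
  have hrd1 : rd ≤ de := by rw [h_rd]; exact mul_le_of_le_one_left hde r1.le
  have sY : Y ^ 2 = 1 - al := by rw [h_Y]; exact Real.sq_sqrt (by linarith)
  have m0' : (1 + ρ) / 2 * a0 + (1 - ρ) / 2 * a1 = al + rd := by rw [h_rd, h_de, h_a0]; ring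
  have m1' : (1 - ρ) / 2 * a0 + (1 + ρ) / 2 * a1 = al - rd := by rw [h_rd, h_de, h_a0]; ring
  have b0 : Bg a0 (b ^ 2 * (2 - γ ^ 2)) = (X0 - b * Ac) ^ 2 / (2 * (b * Ac)) := by
    unfold Bg
    rw [q0, show b ^ 2 * (2 - γ ^ 2) = (b * Ac) ^ 2 by rw [mul_pow, sAc, h_g2], Real.sqrt_sq (mul_pos p_b p_Ac).le]
  have b1 : Bg (al + rd) ((1 + ρ) / 2 * (b ^ 2 * (2 - γ ^ 2)) + (1 - ρ) / 2 * (b * γ) ^ 2) =
      -√(al + rd) + σ + (b * M0c)⁻¹ * ((b * M0c - σ) ^ 2 + rd) / 2 :=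
    BSm_mix (by linarith) (by positivity) (by rw [mul_pow b M0c, sM0, h_rg, h_g2]; ring) (by rw [h_al])
  have b2 : Bg (al - rd) ((1 - ρ) / 2 * (b ^ 2 * (2 - γ ^ 2)) + (1 + ρ) / 2 * (b * γ) ^ 2) =
      -√(al - rd) + σ + (b * M1c)⁻¹ * ((b * M1c - σ) ^ 2 + -rd) / 2 :=
    BSm_mix (by linarith) (by positivity) (by rw [mul_pow b M1c, sM1, h_rg, h_g2]; ring) (by rw [h_al]; ring)
  have b3 : Bg (1 - a0) (1 - b ^ 2 * (2 - γ ^ 2)) = (Y0 - s0c) ^ 2 / (2 * s0c) := by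
    unfold Bg
    rw [← h_Y0, show 1 - b ^ 2 * (2 - γ ^ 2) = cg - 2 * cb + 1 by rw [h_cg, h_cb, h_g2]; ring, ← h_s0c]
  have b4 : Bg (1 - a1) (1 - (b * γ) ^ 2) = (Y1 - s1c) ^ 2 / (2 * s1c) := by
    unfold Bg
    rw [← h_Y1, show 1 - (b * γ) ^ 2 = 1 - cg by rw [h_cg, h_cb, h_g2]; ring, ← h_s1c]
  have b5 : Bg (1 - (al + rd)) (1 - ((1 + ρ) / 2 * (b ^ 2 * (2 - γ ^ 2)) + (1 - ρ) / 2 * (b * γ) ^ 2)) =
      -√(1 - (al + rd)) + Y + p0c⁻¹ * ((p0c - Y) ^ 2 + -rd) / 2 :=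
    BSm_mix (by linarith) p_p0c (by rw [sp0, h_w309, h_cr, h_cb, h_rg, h_g2]; ring) (by rw [sY]; ring)
  have b6 : Bg (1 - (al - rd)) (1 - ((1 - ρ) / 2 * (b ^ 2 * (2 - γ ^ 2)) + (1 + ρ) / 2 * (b * γ) ^ 2)) =
      -√(1 - (al - rd)) + Y + p1c⁻¹ * ((p1c - Y) ^ 2 + rd) / 2 :=
    BSm_mix (by linarith) p_p1c (by rw [sp1, h_w309, h_cr, h_cb, h_rg, h_g2]; ring) (by rw [sY]; ring)
  unfold Nnv FBb FB psiH
  rw [hL, e0, e1, ed, ← h_al, ← h_de, ← h_rd, m0', m1', b0, b1, b2, b3, b4, b5, b6, f, fw, f0, fw0, fw1, q, q1, ← h_Y, hf,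
    h_Nn, h_Nu, h_Nw, h_A0, h_W0, h_W1]
  ring

theorem BSm_N0 {l4 m0 m1 ex σ v : ℝ} (hp : PtB σ v) : Nnv 0 l4 m0 m1 σ v ex σ v = 0 := by
  have hx : 0 ≤ σ * v := mul_nonneg (by linarith [hp.s0]) hp.v0
  have e0 : σ ^ 2 + dB σ v = σ ^ 2 * (2 - v ^ 2) := by unfold dB; ring
  have e1 : σ ^ 2 - dB σ v = (σ * v) ^ 2 := by unfold dB; ring
  unfold Nnv FBb FB
  rw [e0, e1, Real.sqrt_sq hx]
  simp only [Bg, sub_self, zero_mul, add_zero, sub_zero, zero_pow two_ne_zero, zero_div, mul_zero]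
  ring

theorem BSm_eta {ρ l4 ku kw m0 m1 b γ ex σ v : ℝ} (hp : PtB σ v) (S : SideB ρ l4 ku kw m0 m1 b γ ex σ v) : 0 ≤ etav ex γ l4 σ := by
  have h1 := S.ex0
  have h2 := S.g0
  have h3 := S.gl
  have h4 := HBa_uf_nonneg (sq_nonneg σ) (by linarith [hp.s1])
  unfold etav; positivity


theorem BB_main {rhoa l4a kua kwa ma0a ma1a ma2a mb0a mb1a mb2a bq0a bq1a bq2a gq0a gq1a gq2a xq0a xq1a xq2a am0a am1a bm0a bm1a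
    rhob l4b kub kwb ma0b ma1b ma2b mb0b mb1b mb2b bq0b bq1b bq2b gq0b gq1b gq2b xq0b xq1b xq2b am0b am1b bm0b bm1b ρ β σ v θ : ℝ} (hp : PtB σ v)
    (hβ : 0 ≤ β) (hρ : ρ ^ 2 + β ^ 2 = 1) (h0 : 0 ≤ θ) (h1 : θ ≤ 1) (hr : ρ ^ 2 = (1 - θ) * rhoa ^ 2 + θ * rhob ^ 2)
    (Sa : SideB rhoa l4a kua kwa (af3 ma0a ma1a ma2a σ v) (af3 mb0a mb1a mb2a σ v) (af3 bq0a bq1a bq2a σ v) (af3 gq0a gq1a gq2a σ v) (af3 xq0a xq1a xq2a σ v) σ v)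
    (Sb : SideB rhob l4b kub kwb (af3 ma0b ma1b ma2b σ v) (af3 mb0b mb1b mb2b σ v) (af3 bq0b bq1b bq2b σ v) (af3 gq0b gq1b gq2b σ v) (af3 xq0b xq1b xq2b σ v) σ v)
    (h : BB.a_Spec rhoa l4a kua kwa ma0a ma1a ma2a mb0a mb1a mb2a bq0a bq1a bq2a gq0a gq1a gq2a xq0a xq1a xq2a am0a am1a bm0a bm1a
      rhob l4b kub kwb ma0b ma1b ma2b mb0b mb1b mb2b bq0b bq1b bq2b gq0b gq1b gq2b xq0b xq1b xq2b am0b am1b bm0b bm1b σ v θ) :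
    SB ρ β ((1 - θ) * af3 ma0a ma1a ma2a σ v + θ * af3 ma0b ma1b ma2b σ v) ((1 - θ) * af3 mb0a mb1a mb2a σ v + θ * af3 mb0b mb1b mb2b σ v)
      ((1 - θ) * etav (af3 xq0a xq1a xq2a σ v) (af3 gq0a gq1a gq2a σ v) l4a σ + θ * etav (af3 xq0b xq1b xq2b σ v) (af3 gq0b gq1b gq2b σ v) l4b σ)
      ((1 - θ) * Nnv rhoa l4a (af3 ma0a ma1a ma2a σ v) (af3 mb0a mb1a mb2a σ v) (af3 bq0a bq1a bq2a σ v) (af3 gq0a gq1a gq2a σ v) (af3 xq0a xq1a xq2a σ v) σ v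
        + θ * Nnv rhob l4b (af3 ma0b ma1b ma2b σ v) (af3 mb0b mb1b mb2b σ v) (af3 bq0b bq1b bq2b σ v) (af3 gq0b gq1b gq2b σ v) (af3 xq0b xq1b xq2b σ v) σ v) σ v := by
  have hθ0 := h0
  have hθ1 := sub_nonneg.2 h1
  obtain ⟨pp, cc, rb, ra, dr, r, be, s, al, w58, h⟩ := h
  obtain ⟨uh, u, w, uwm, Y, psm, Dm, mu0b, mu0a, m0, h⟩ := h
  obtain ⟨v2, a1, a0, w64, h0, u0, w0, uw0, w77, X0, h⟩ := h
  obtain ⟨Y0, ps0, D0, mu1b, mu1a, m1, w66, h1, u1, w1, h⟩ := h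
  obtain ⟨uw1, x, Y1, ps1, D1, C, exb, gab, igb, etb, h⟩ := h
  obtain ⟨exa, gaa, iga, eta, e1, et, i2, M, CE, bb, h⟩ := h
  obtain ⟨iu, fa, A0b, g2b, Acb, fb, LBb, rgb, M0cb, de, h⟩ := h
  obtain ⟨rdb, M1cb, Nub, W0b, cbb, cgb, s0cb, W1b, s1cb, w309, h⟩ := h
  obtain ⟨crb, p0cb, p1cb, Nwb, Nnb, ba, A0a, g2a, Aca, LBa, h⟩ := h
  obtain ⟨rga, M0ca, rda, M1ca, Nua, W0a, cba, cga, s0ca, W1a, h⟩ := h
  obtain ⟨s1ca, w162, cra, p0ca, p1ca, Nwa, Nna, Nn, h_rb, h_ra, h⟩ := h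
  obtain ⟨h_dr, c0, h_r, h_be, h_s, h_al, h_w58, h_uh, h_u, h_w, h⟩ := h
  obtain ⟨h_uwm, h_Y, h_psm, p_15, h_Dm, h_mu0b, h_mu0a, h_m0, h_v2, h_a1, h⟩ := h
  obtain ⟨h_a0, h_w64, h_h0, h_u0, h_w0, h_uw0, h_w77, h_X0, h_Y0, h_ps0, h⟩ := h
  obtain ⟨p_32, h_D0, h_mu1b, h_mu1a, h_m1, h_w66, h_h1, h_u1, h_w1, h_uw1, h⟩ := h
  obtain ⟨h_x, h_Y1, h_ps1, p_45, h_D1, h_C, h_exb, h_gab, p_igb, h_igb, h⟩ := h
  obtain ⟨h_etb, h_exa, h_gaa, p_iga, h_iga, h_eta, h_e1, h_et, p_cc, p_i2, h⟩ := h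
  obtain ⟨h_i2, p_pp, h_M, h_CE, h_bb, p_bb, p_iu, h_iu, h_fa, h_A0b, h⟩ := h
  obtain ⟨h_g2b, h_Acb, p_Acb, h_fb, h_LBb, h_rgb, h_M0cb, p_M0cb, h_de, h_rdb, h⟩ := h
  obtain ⟨h_M1cb, p_M1cb, h_Nub, h_W0b, h_cbb, h_cgb, h_s0cb, p_s0cb, h_W1b, h_s1cb, h⟩ := h
  obtain ⟨p_s1cb, h_w309, h_crb, h_p0cb, p_p0cb, h_p1cb, p_p1cb, h_Nwb, h_Nnb, h_ba, h⟩ := h
  obtain ⟨p_ba, h_A0a, h_g2a, h_Aca, p_Aca, h_LBa, h_rga, h_M0ca, p_M0ca, h_rda, h⟩ := h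
  obtain ⟨h_M1ca, p_M1ca, h_Nua, h_W0a, h_cba, h_cga, h_s0ca, p_s0ca, h_W1a, h_s1ca, h⟩ := h
  obtain ⟨p_s1ca, h_w162, h_cra, h_p0ca, p_p0ca, h_p1ca, p_p1ca, h_Nwa, h_Nna, h_Nn, h⟩ := h
  have c1 := h
  have hr' : r = ρ ^ 2 := by rw [h_r, h_dr, h_rb, h_ra, hr]; ring
  obtain ⟨e0, e1', ed, f, fw, f0, fw0, f1, fw1, q, q0, q1, x2, a0e, x0, l1, l2, l3, l4', l5⟩ :=
    BSm_pt hp h_al h_w58 h_uh h_u h_w h_v2 h_a1 h_a0 h_w64 h_h0 h_u0 h_w0 h_w77 h_X0 h_w66 h_h1 h_u1 h_w1 h_x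
  have hbe : be = β := by rw [h_be, show 1 - r = β ^ 2 by linarith only [hr', hρ], Real.sqrt_sq hβ]
  rw [hbe] at h_s
  rw [h_uwm] at p_15 h_Dm
  rw [h_uw0] at p_32 h_D0
  rw [h_uw1] at p_45 h_D1
  have dm := BSm_D (l1.trans l2) (l5.trans (by norm_num)) hβ h_s f fw q h_Y h_psm p_15 h_Dm
  have d0 := BSm_D ((l1.trans l2).trans l3) (l4'.trans (by norm_num)) hβ h_s f0 fw0 q0 h_Y0 h_ps0 p_32 h_D0
  have d1 := BSm_D l1 ((l2.trans l5).trans (by norm_num)) hβ h_s f1 fw1 q1 h_Y1 h_ps1 p_45 h_D1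
  have na := BSm_eta hp Sa
  have nb := BSm_eta hp Sb
  have r0 := Sb.r0
  have r1 := Sb.r1
  unfold af3 at na nb ⊢
  rw [← h_exa, ← h_gaa] at na
  rw [← h_exb, ← h_gab] at nb
  rw [← h_mu0a, ← h_mu1a, ← h_exa, ← h_gaa, ← h_mu0b, ← h_mu1b, ← h_exb, ← h_gab, ← h_bb]
  have het : (1 - θ) * etav exa gaa l4a σ + θ * etav exb gab l4b σ = et := by
    unfold etav; rw [← h_al, f, ← h_iga, ← h_igb, ← h_eta, ← h_etb, h_et, h_e1]; ring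
  have het0 : 0 ≤ et := by rw [← het]; exact add_nonneg (mul_nonneg hθ1 na) (mul_nonneg hθ0 nb)
  have Na := BSm_N hp Sa.r0 Sa.r1 h_al h_w58 h_uh h_u h_w h_v2 h_a1 h_a0 h_w64 h_h0 h_u0 h_w0 h_w77 h_X0 h_w66 h_h1 h_u1 h_w1 h_x
    h_Y h_Y0 h_Y1 h_iga p_ba p_iu h_iu h_fa h_fb h_de h_A0a h_g2a h_Aca p_Aca h_LBa h_rga h_M0ca p_M0ca h_rda h_M1ca p_M1ca h_Nua
    h_W0a h_cba h_cga h_s0ca p_s0ca h_W1a h_s1ca p_s1ca h_w162 h_cra h_p0ca p_p0ca h_p1ca p_p1ca h_Nwa h_Nna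
  have Nb := BSm_N hp r0 r1 h_al h_w58 h_uh h_u h_w h_v2 h_a1 h_a0 h_w64 h_h0 h_u0 h_w0 h_w77 h_X0 h_w66 h_h1 h_u1 h_w1 h_x
    h_Y h_Y0 h_Y1 h_igb p_bb p_iu h_iu h_fa h_fb h_de h_A0b h_g2b h_Acb p_Acb h_LBb h_rgb h_M0cb p_M0cb h_rdb h_M1cb p_M1cb h_Nub
    h_W0b h_cbb h_cgb h_s0cb p_s0cb h_W1b h_s1cb p_s1cb h_w309 h_crb h_p0cb p_p0cb h_p1cb p_p1cb h_Nwb h_Nnb
  have hE := mul_le_mul_of_nonneg_left (BSm_E x0 (by rw [hr']; positivity) p_i2 p_cc p_pp h_i2 h_M) het0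
  unfold SB
  rw [← h_ba, het, Na, Nb, e0, e1', ← h_al, dm, d0, d1, q1, x2, ← hr']
  rw [← h_CE] at hE
  rw [h_C, h_Nn, h_m0, h_m1] at c1
  linarith only [c1, hE]

/-- here the Spec forces `rhoa = 0`, `b = σ`, `γ = v` at the first vertex, so that `Nnv = 0` there (base point `(σ² + δ, σ² - δ)`);
`s = θ rb / (1 + β)`; multiply the last check by `θ`. -/
theorem BA_main {rhoa l4a kua kwa ma0a ma1a ma2a mb0a mb1a mb2a bq0a bq1a bq2a gq0a gq1a gq2a xq0a xq1a xq2a am0a am1a bm0a bm1a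
    rhob l4b kub kwb ma0b ma1b ma2b mb0b mb1b mb2b bq0b bq1b bq2b gq0b gq1b gq2b xq0b xq1b xq2b am0b am1b bm0b bm1b ρ β σ v θ : ℝ} (hp : PtB σ v)
    (hβ : 0 ≤ β) (hρ : ρ ^ 2 + β ^ 2 = 1) (h0 : 0 ≤ θ) (h1 : θ ≤ 1) (hr : ρ ^ 2 = (1 - θ) * rhoa ^ 2 + θ * rhob ^ 2)
    (Sa : SideB rhoa l4a kua kwa (af3 ma0a ma1a ma2a σ v) (af3 mb0a mb1a mb2a σ v) (af3 bq0a bq1a bq2a σ v) (af3 gq0a gq1a gq2a σ v) (af3 xq0a xq1a xq2a σ v) σ v)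
    (Sb : SideB rhob l4b kub kwb (af3 ma0b ma1b ma2b σ v) (af3 mb0b mb1b mb2b σ v) (af3 bq0b bq1b bq2b σ v) (af3 gq0b gq1b gq2b σ v) (af3 xq0b xq1b xq2b σ v) σ v)
    (h : BA.a_Spec rhoa l4a kua kwa ma0a ma1a ma2a mb0a mb1a mb2a bq0a bq1a bq2a gq0a gq1a gq2a xq0a xq1a xq2a am0a am1a bm0a bm1a
      rhob l4b kub kwb ma0b ma1b ma2b mb0b mb1b mb2b bq0b bq1b bq2b gq0b gq1b gq2b xq0b xq1b xq2b am0b am1b bm0b bm1b σ v θ) :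
    SB ρ β ((1 - θ) * af3 ma0a ma1a ma2a σ v + θ * af3 ma0b ma1b ma2b σ v) ((1 - θ) * af3 mb0a mb1a mb2a σ v + θ * af3 mb0b mb1b mb2b σ v)
      ((1 - θ) * etav (af3 xq0a xq1a xq2a σ v) (af3 gq0a gq1a gq2a σ v) l4a σ + θ * etav (af3 xq0b xq1b xq2b σ v) (af3 gq0b gq1b gq2b σ v) l4b σ)
      ((1 - θ) * Nnv rhoa l4a (af3 ma0a ma1a ma2a σ v) (af3 mb0a mb1a mb2a σ v) (af3 bq0a bq1a bq2a σ v) (af3 gq0a gq1a gq2a σ v) (af3 xq0a xq1a xq2a σ v) σ v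
        + θ * Nnv rhob l4b (af3 ma0b ma1b ma2b σ v) (af3 mb0b mb1b mb2b σ v) (af3 bq0b bq1b bq2b σ v) (af3 gq0b gq1b gq2b σ v) (af3 xq0b xq1b xq2b σ v) σ v) σ v := by
  have hθ0 := h0
  have hθ1 := sub_nonneg.2 h1
  obtain ⟨pp, rb, al, w68, uh, u, w, uwm, Y, psm, h⟩ := h
  obtain ⟨r, be, s, Dm, mu0b, mu0a, m0, v2, a1, a0, h⟩ := h
  obtain ⟨w74, h0, u0, w0, uw0, w87, X0, Y0, ps0, D0, h⟩ := h
  obtain ⟨mu1b, mu1a, m1, w76, h1, u1, w1, uw1, x, Y1, h⟩ := h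
  obtain ⟨ps1, D1, C, exb, gab, igb, etb, exa, gaa, iga, h⟩ := h
  obtain ⟨eta, e1, et, M, i2, bb, iu, fa, A0b, g2b, h⟩ := h
  obtain ⟨Acb, fb, LBb, rgb, M0cb, de, rdb, M1cb, Nub, W0b, h⟩ := h
  obtain ⟨cbb, cgb, s0cb, W1b, s1cb, w197, crb, p0cb, p1cb, Nwb, h⟩ := h
  obtain ⟨Nnb, c0, c1, c2, c3, c4, c5, c6, c7, c8, h⟩ := h
  obtain ⟨c9, c10, c11, c12, c13, c14, c15, h_rb, c16, h_al, h⟩ := h
  obtain ⟨h_w68, h_uh, h_u, h_w, h_uwm, h_Y, h_psm, h_r, h_be, h_s, h⟩ := h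
  obtain ⟨p_29, h_Dm, h_mu0b, h_mu0a, h_m0, h_v2, h_a1, h_a0, h_w74, h_h0, h⟩ := h
  obtain ⟨h_u0, h_w0, h_uw0, h_w87, h_X0, h_Y0, h_ps0, p_46, h_D0, h_mu1b, h⟩ := h
  obtain ⟨h_mu1a, h_m1, h_w76, h_h1, h_u1, h_w1, h_uw1, h_x, h_Y1, h_ps1, h⟩ := h
  obtain ⟨p_59, h_D1, h_C, p_62, h_exb, h_gab, p_igb, h_igb, h_etb, h_exa, h⟩ := h
  obtain ⟨h_gaa, p_iga, h_iga, h_eta, h_e1, h_et, p_pp, h_M, p_i2, h_i2, h⟩ := h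
  obtain ⟨h_bb, p_bb, p_iu, h_iu, h_fa, h_A0b, h_g2b, h_Acb, p_Acb, h_fb, h⟩ := h
  obtain ⟨h_LBb, h_rgb, h_M0cb, p_M0cb, h_de, h_rdb, h_M1cb, p_M1cb, h_Nub, h_W0b, h⟩ := h
  obtain ⟨h_cbb, h_cgb, h_s0cb, p_s0cb, h_W1b, h_s1cb, p_s1cb, h_w197, h_crb, h_p0cb, h⟩ := h
  obtain ⟨p_p0cb, h_p1cb, p_p1cb, h_Nwb, h_Nnb, c17⟩ := h
  have z0 : rhoa = 0 := by linarith only [c0, c1]
  have hr' : r = ρ ^ 2 := by rw [h_r, h_rb, hr, z0]; ring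
  have zb : af3 bq0a bq1a bq2a σ v = σ := by
    unfold af3; rw [show bq0a = 0 by linarith only [c4, c5], show bq1a = 1 by linarith only [c6, c7], show bq2a = 0 by linarith only [c8, c9]]; ring
  have zg : af3 gq0a gq1a gq2a σ v = v := by
    unfold af3; rw [show gq0a = 0 by linarith only [c10, c11], show gq1a = 0 by linarith only [c12, c13], show gq2a = 1 by linarith only [c14, c15]]; ring
  have Na : Nnv rhoa l4a (af3 ma0a ma1a ma2a σ v) (af3 mb0a mb1a mb2a σ v) (af3 bq0a bq1a bq2a σ v) (af3 gq0a gq1a gq2a σ v)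
      (af3 xq0a xq1a xq2a σ v) σ v = 0 := by rw [z0, zb, zg]; exact BSm_N0 hp
  rw [Na]
  clear Na zb zg
  obtain ⟨e0, e1', ed, f, fw, f0, fw0, f1, fw1, q, q0, q1, x2, a0e, x0, l1, l2, l3, l4', l5⟩ :=
    BSm_pt hp h_al h_w68 h_uh h_u h_w h_v2 h_a1 h_a0 h_w74 h_h0 h_u0 h_w0 h_w87 h_X0 h_w76 h_h1 h_u1 h_w1 h_x
  have hbe : be = β := by rw [h_be, show 1 - r = β ^ 2 by linarith only [hr', hρ], Real.sqrt_sq hβ]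
  rw [hbe] at h_s
  rw [h_uwm] at p_29 h_Dm
  rw [h_uw0] at p_46 h_D0
  rw [h_uw1] at p_59 h_D1
  have dm := BSm_D (l1.trans l2) (l5.trans (by norm_num)) hβ h_s f fw q h_Y h_psm p_29 h_Dm
  have d0 := BSm_D ((l1.trans l2).trans l3) (l4'.trans (by norm_num)) hβ h_s f0 fw0 q0 h_Y0 h_ps0 p_46 h_D0
  have d1 := BSm_D l1 ((l2.trans l5).trans (by norm_num)) hβ h_s f1 fw1 q1 h_Y1 h_ps1 p_59 h_D1
  have na := BSm_eta hp Sa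
  have nb := BSm_eta hp Sb
  have r0 := Sb.r0
  have r1 := Sb.r1
  unfold af3 at na nb ⊢
  rw [← h_exa, ← h_gaa] at na
  rw [← h_exb, ← h_gab] at nb
  rw [← h_mu0a, ← h_mu1a, ← h_exa, ← h_gaa, ← h_mu0b, ← h_mu1b, ← h_exb, ← h_gab, ← h_bb]
  have het : (1 - θ) * etav exa gaa l4a σ + θ * etav exb gab l4b σ = et := by
    unfold etav; rw [← h_al, f, ← h_iga, ← h_igb, ← h_eta, ← h_etb, h_et, h_e1]; ring
  have het0 : 0 ≤ et := by rw [← het]; exact add_nonneg (mul_nonneg hθ1 na) (mul_nonneg hθ0 nb)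
  have Nb := BSm_N hp r0 r1 h_al h_w68 h_uh h_u h_w h_v2 h_a1 h_a0 h_w74 h_h0 h_u0 h_w0 h_w87 h_X0 h_w76 h_h1 h_u1 h_w1 h_x
    h_Y h_Y0 h_Y1 h_igb p_bb p_iu h_iu h_fa h_fb h_de h_A0b h_g2b h_Acb p_Acb h_LBb h_rgb h_M0cb p_M0cb h_rdb h_M1cb p_M1cb h_Nub
    h_W0b h_cbb h_cgb h_s0cb p_s0cb h_W1b h_s1cb p_s1cb h_w197 h_crb h_p0cb p_p0cb h_p1cb p_p1cb h_Nwb h_Nnb
  have hE := mul_le_mul_of_nonneg_left (BSm_E x0 (by rw [hr']; positivity) p_i2 one_pos p_pp h_i2 h_M) het0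
  rw [Real.log_one] at hE
  have hs : θ * rb * (be + 1)⁻¹ = s := by
    rw [← h_r, hr', h_s, hbe, show ρ ^ 2 = (1 - β) * (β + 1) by linarith only [hρ], mul_assoc, mul_inv_cancel₀ (by linarith only [hβ]), mul_one]
  have c := mul_nonneg hθ0 c17
  have e : θ * (rb * (C * (be + 1)⁻¹ - et * (M * i2)) - Nnb) = s * C - et * (r * i2 * M) - θ * Nnb := by
    rw [← hs, h_r]; ring
  unfold SB
  rw [het, Nb, e0, e1', ← h_al, dm, d0, d1, q1, x2, ← hr']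
  rw [e, h_C, h_m0, h_m1] at c
  linarith only [c, hE]

end Crest.Agent.R307
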