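import Crest.Agent.R307.AA

set_option autoImplicit false
set_option maxRecDepth 100000
set_option linter.unusedVariables false

namespace Crest.Agent.R307.BT
open Crest.Agent.R307.AA

noncomputable section

theorem k0 : |2 ^ 48 * (1 : ℝ) - (((4722366764344621924352 : ℕ) : ℝ) - 2 ^ 72)| ≤ ((0 : ℕ) : ℝ) := by norm_num [abs_le]
theorem k1 : |2 ^ 48 * (9 / 10 : ℝ) - (((4722366736197124253286 : ℕ) : ℝ) - 2 ^ 72)| ≤ ((1 : ℕ) : ℝ) := by norm_num [abs_le]
theorem k2 : |2 ^ 48 * (19 / 10 : ℝ) - (((4722367017672100963942 : ℕ) : ℝ) - 2 ^ 72)| ≤ ((1 : ℕ) : ℝ) := by norm_num [abs_le]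
theorem k3 : |2 ^ 48 * (1 / 10 : ℝ) - (((4722366511017142884761 : ℕ) : ℝ) - 2 ^ 72)| ≤ ((1 : ℕ) : ℝ) := by norm_num [abs_le]
theorem k4 : (1 / 2 : ℝ) = val 4722366623607133569024 := by norm_num [val]
theorem k5 : |2 ^ 48 * (-1 : ℝ) - (((4722366201394668503040 : ℕ) : ℝ) - 2 ^ 72)| ≤ ((0 : ℕ) : ℝ) := by norm_num [abs_le]
theorem k6 : |2 ^ 48 * (2 : ℝ) - (((4722367045819598635008 : ℕ) : ℝ) - 2 ^ 72)| ≤ ((0 : ℕ) : ℝ) := by norm_num [abs_le]
theorem k7 : (2 : ℝ) = val 4722367045819598635008 := by norm_num [val]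
theorem k8 : |2 ^ 48 * (9 / 20 : ℝ) - (((4722366609533384733491 : ℕ) : ℝ) - 2 ^ 72)| ≤ ((1 : ℕ) : ℝ) := by norm_num [abs_le]
theorem k9 : |2 ^ 48 * (19 / 20 : ℝ) - (((4722366750270873088819 : ℕ) : ℝ) - 2 ^ 72)| ≤ ((1 : ℕ) : ℝ) := by norm_num [abs_le]
def a_B10 (gs ps : ℕ) (z114 z7 z167 z169 z214 z263 z341 z309 z335 z318 z320 : AF) : Bool :=
  normK z320 fun z321 =>
  mulK z167 z321 fun z322 =>
  invK z214 fun z323 =>
  mulK z263 z323 fun z324 =>
  normK z324 fun z325 =>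
  mulK z169 z325 fun z326 =>
  subK z322 z326 fun z327 =>
  normK z327 fun z328 =>
  mulK z7 z328 fun z329 =>
  subK z318 z329 fun z330 =>
  normK z330 fun z336 =>
  mulK z335 z336 fun z337 =>
  addK z309 z337 fun z338 =>
  normK z338 fun z342 =>
  sqrK z342 fun z343 =>
  mulK z114 z343 fun z344 =>
  smulK z344 4722367045819598635008 fun z345 =>
  subK z341 z345 fun z346 =>
  posK z346 <|
  true

def a_R10 (gs ps : ℕ) (z114 z7 z167 z169 z214 z263 z341 z309 z335 z318 z320 : ℝ) : Prop :=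
  letR z320 fun z321 =>
  letR (z167 * z321) fun z322 =>
  invR z214 fun z323 =>
  letR (z263 * z323) fun z324 =>
  letR z324 fun z325 =>
  letR (z169 * z325) fun z326 =>
  letR (z322 - z326) fun z327 =>
  letR z327 fun z328 =>
  letR (z7 * z328) fun z329 =>
  letR (z318 - z329) fun z330 =>
  letR z330 fun z336 =>
  letR (z335 * z336) fun z337 =>
  letR (z309 + z337) fun z338 =>
  letR z338 fun z342 =>
  letR (z342 ^ 2) fun z343 =>
  letR (z114 * z343) fun z344 =>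
  letR ((2 : ℝ) * z344) fun z345 =>
  letR (z341 - z345) fun z346 =>
  posR z346 <|
  True

theorem a_S10 {ε : Fin 4 → ℝ} (gs : ℕ) (hε : ∀ i, |ε i| ≤ 1) (ps : ℕ) (z114 z7 z167 z169 z214 z263 z341 z309 z335 z318 z320 : AF) (t114 t7 t167 t169 t214 t263 t341 t309 t335 t318 t320 : ℝ)
    (g114 : Rel ε z114 t114) (g7 : Rel ε z7 t7) (g167 : Rel ε z167 t167) (g169 : Rel ε z169 t169) (g214 : Rel ε z214 t214) (g263 : Rel ε z263 t263) (g341 : Rel ε z341 t341) (g309 : Rel ε z309 t309) (g335 : Rel ε z335 t335) (g318 : Rel ε z318 t318) (g320 : Rel ε z320 t320) :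
    a_B10 gs ps z114 z7 z167 z169 z214 z263 z341 z309 z335 z318 z320 = true → a_R10 gs ps t114 t7 t167 t169 t214 t263 t341 t309 t335 t318 t320 := by
  delta a_B10 a_R10
  exact normS g320 fun z321 t321 g321 =>
  mulS hε g167 g321 fun z322 t322 g322 =>
  invS hε g214 fun z323 t323 g323 =>
  mulS hε g263 g323 fun z324 t324 g324 =>
  normS g324 fun z325 t325 g325 =>
  mulS hε g169 g325 fun z326 t326 g326 =>
  subS g322 g326 fun z327 t327 g327 =>
  normS g327 fun z328 t328 g328 =>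
  mulS hε g7 g328 fun z329 t329 g329 =>
  subS g318 g329 fun z330 t330 g330 =>
  normS g330 fun z336 t336 g336 =>
  mulS hε g335 g336 fun z337 t337 g337 =>
  addS g309 g337 fun z338 t338 g338 =>
  normS g338 fun z342 t342 g342 =>
  sqrS hε g342 fun z343 t343 g343 =>
  mulS hε g114 g343 fun z344 t344 g344 =>
  smulS hε g344 k7 fun z345 t345 g345 =>
  subS g341 g345 fun z346 t346 g346 =>
  posS hε g346 <|
  fun _ => trivial

def a_B9 (gs ps : ℕ) (z114 z92 z339 z153 z178 z195 z264 z157 z181 z7 z159 z197 z270 z161 z199 z273 z279 z149 z89 z207 z247 z165 z209 z251 z167 z212 z257 z169 z214 z263 z290 : AF) : Bool :=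
  normK z290 fun z331 =>
  mulK z149 z331 fun z332 =>
  addK z279 z332 fun z333 =>
  normK z333 fun z340 =>
  mulK z339 z340 fun z341 =>
  invK z195 fun z291 =>
  mulK z264 z291 fun z292 =>
  normK z292 fun z293 =>
  mulK z153 z293 fun z294 =>
  invK z178 fun z180 =>
  mulK z181 z180 fun z182 =>
  normK z182 fun z183 =>
  mulK z157 z183 fun z295 =>
  subK z294 z295 fun z296 =>
  invK z197 fun z297 =>
  mulK z270 z297 fun z298 =>
  normK z298 fun z299 =>
  mulK z159 z299 fun z300 =>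
  invK z199 fun z301 =>
  mulK z273 z301 fun z302 =>
  normK z302 fun z303 =>
  mulK z161 z303 fun z304 =>
  subK z300 z304 fun z305 =>
  normK z305 fun z306 =>
  mulK z7 z306 fun z307 =>
  mulK z92 z307 fun z308 =>
  subK z296 z308 fun z309 =>
  mulK z114 z149 fun z334 =>
  normK z334 fun z335 =>
  invK z207 fun z310 =>
  mulK z247 z310 fun z311 =>
  normK z311 fun z312 =>
  mulK z89 z312 fun z313 =>
  invK z209 fun z314 =>
  mulK z251 z314 fun z315 =>
  normK z315 fun z316 =>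
  mulK z165 z316 fun z317 =>
  subK z313 z317 fun z318 =>
  invK z212 fun z319 =>
  mulK z257 z319 fun z320 =>
  a_B10 gs ps z114 z7 z167 z169 z214 z263 z341 z309 z335 z318 z320

def a_R9 (gs ps : ℕ) (z114 z92 z339 z153 z178 z195 z264 z157 z181 z7 z159 z197 z270 z161 z199 z273 z279 z149 z89 z207 z247 z165 z209 z251 z167 z212 z257 z169 z214 z263 z290 : ℝ) : Prop :=
  letR z290 fun z331 =>
  letR (z149 * z331) fun z332 =>
  letR (z279 + z332) fun z333 =>
  letR z333 fun z340 =>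
  letR (z339 * z340) fun z341 =>
  invR z195 fun z291 =>
  letR (z264 * z291) fun z292 =>
  letR z292 fun z293 =>
  letR (z153 * z293) fun z294 =>
  invR z178 fun z180 =>
  letR (z181 * z180) fun z182 =>
  letR z182 fun z183 =>
  letR (z157 * z183) fun z295 =>
  letR (z294 - z295) fun z296 =>
  invR z197 fun z297 =>
  letR (z270 * z297) fun z298 =>
  letR z298 fun z299 =>
  letR (z159 * z299) fun z300 =>
  invR z199 fun z301 =>
  letR (z273 * z301) fun z302 =>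
  letR z302 fun z303 =>
  letR (z161 * z303) fun z304 =>
  letR (z300 - z304) fun z305 =>
  letR z305 fun z306 =>
  letR (z7 * z306) fun z307 =>
  letR (z92 * z307) fun z308 =>
  letR (z296 - z308) fun z309 =>
  letR (z114 * z149) fun z334 =>
  letR z334 fun z335 =>
  invR z207 fun z310 =>
  letR (z247 * z310) fun z311 =>
  letR z311 fun z312 =>
  letR (z89 * z312) fun z313 =>
  invR z209 fun z314 =>
  letR (z251 * z314) fun z315 =>
  letR z315 fun z316 =>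
  letR (z165 * z316) fun z317 =>
  letR (z313 - z317) fun z318 =>
  invR z212 fun z319 =>
  letR (z257 * z319) fun z320 =>
  a_R10 gs ps z114 z7 z167 z169 z214 z263 z341 z309 z335 z318 z320

theorem a_S9 {ε : Fin 4 → ℝ} (gs : ℕ) (hε : ∀ i, |ε i| ≤ 1) (ps : ℕ) (z114 z92 z339 z153 z178 z195 z264 z157 z181 z7 z159 z197 z270 z161 z199 z273 z279 z149 z89 z207 z247 z165 z209 z251 z167 z212 z257 z169 z214 z263 z290 : AF) (t114 t92 t339 t153 t178 t195 t264 t157 t181 t7 t159 t197 t270 t161 t199 t273 t279 t149 t89 t207 t247 t165 t209 t251 t167 t212 t257 t169 t214 t263 t290 : ℝ)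
    (g114 : Rel ε z114 t114) (g92 : Rel ε z92 t92) (g339 : Rel ε z339 t339) (g153 : Rel ε z153 t153) (g178 : Rel ε z178 t178) (g195 : Rel ε z195 t195) (g264 : Rel ε z264 t264) (g157 : Rel ε z157 t157) (g181 : Rel ε z181 t181) (g7 : Rel ε z7 t7) (g159 : Rel ε z159 t159) (g197 : Rel ε z197 t197) (g270 : Rel ε z270 t270) (g161 : Rel ε z161 t161) (g199 : Rel ε z199 t199) (g273 : Rel ε z273 t273) (g279 : Rel ε z279 t279) (g149 : Rel ε z149 t149) (g89 : Rel ε z89 t89) (g207 : Rel ε z207 t207) (g247 : Rel ε z247 t247) (g165 : Rel ε z165 t165) (g209 : Rel ε z209 t209) (g251 : Rel ε z251 t251) (g167 : Rel ε z167 t167) (g212 : Rel ε z212 t212) (g257 : Rel ε z257 t257) (g169 : Rel ε z169 t169) (g214 : Rel ε z214 t214) (g263 : Rel ε z263 t263) (g290 : Rel ε z290 t290) :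
    a_B9 gs ps z114 z92 z339 z153 z178 z195 z264 z157 z181 z7 z159 z197 z270 z161 z199 z273 z279 z149 z89 z207 z247 z165 z209 z251 z167 z212 z257 z169 z214 z263 z290 = true → a_R9 gs ps t114 t92 t339 t153 t178 t195 t264 t157 t181 t7 t159 t197 t270 t161 t199 t273 t279 t149 t89 t207 t247 t165 t209 t251 t167 t212 t257 t169 t214 t263 t290 := by
  delta a_B9 a_R9
  exact normS g290 fun z331 t331 g331 =>
  mulS hε g149 g331 fun z332 t332 g332 =>
  addS g279 g332 fun z333 t333 g333 =>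
  normS g333 fun z340 t340 g340 =>
  mulS hε g339 g340 fun z341 t341 g341 =>
  invS hε g195 fun z291 t291 g291 =>
  mulS hε g264 g291 fun z292 t292 g292 =>
  normS g292 fun z293 t293 g293 =>
  mulS hε g153 g293 fun z294 t294 g294 =>
  invS hε g178 fun z180 t180 g180 =>
  mulS hε g181 g180 fun z182 t182 g182 =>
  normS g182 fun z183 t183 g183 =>
  mulS hε g157 g183 fun z295 t295 g295 =>
  subS g294 g295 fun z296 t296 g296 =>
  invS hε g197 fun z297 t297 g297 =>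
  mulS hε g270 g297 fun z298 t298 g298 =>
  normS g298 fun z299 t299 g299 =>
  mulS hε g159 g299 fun z300 t300 g300 =>
  invS hε g199 fun z301 t301 g301 =>
  mulS hε g273 g301 fun z302 t302 g302 =>
  normS g302 fun z303 t303 g303 =>
  mulS hε g161 g303 fun z304 t304 g304 =>
  subS g300 g304 fun z305 t305 g305 =>
  normS g305 fun z306 t306 g306 =>
  mulS hε g7 g306 fun z307 t307 g307 =>
  mulS hε g92 g307 fun z308 t308 g308 =>
  subS g296 g308 fun z309 t309 g309 =>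
  mulS hε g114 g149 fun z334 t334 g334 =>
  normS g334 fun z335 t335 g335 =>
  invS hε g207 fun z310 t310 g310 =>
  mulS hε g247 g310 fun z311 t311 g311 =>
  normS g311 fun z312 t312 g312 =>
  mulS hε g89 g312 fun z313 t313 g313 =>
  invS hε g209 fun z314 t314 g314 =>
  mulS hε g251 g314 fun z315 t315 g315 =>
  normS g315 fun z316 t316 g316 =>
  mulS hε g165 g316 fun z317 t317 g317 =>
  subS g313 g317 fun z318 t318 g318 =>
  invS hε g212 fun z319 t319 g319 =>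
  mulS hε g257 g319 fun z320 t320 g320 =>
  a_S10 gs hε ps z114 z7 z167 z169 z214 z263 z341 z309 z335 z318 z320 t114 t7 t167 t169 t214 t263 t341 t309 t335 t318 t320 g114 g7 g167 g169 g214 g263 g341 g309 g335 g318 g320

def a_B8 (gs ps : ℕ) (z104 z114 z92 z339 z153 z178 z195 z264 z157 z181 z7 z159 z193 z197 z270 z161 z199 z273 z279 z149 z89 z237 z236 z116 z207 z247 z165 z209 z251 z284 z109 : AF) : Bool :=
  rsubK z109 4722366764344621924352 0 fun z134 =>
  sqrtK z134 fun z135 =>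
  invK z135 fun z166 =>
  smulK z166 4722366623607133569024 fun z167 =>
  subK z237 z236 fun z238 =>
  normK z238 fun z239 =>
  mulK z7 z239 fun z240 =>
  addK z237 z240 fun z252 =>
  normK z252 fun z255 =>
  rsubK z116 4722366764344621924352 0 fun z210 =>
  mulK z116 z193 fun z202 =>
  normK z202 fun z203 =>
  subK z210 z203 fun z211 =>
  sqrtK z211 fun z212 =>
  mulK z104 z135 fun z140 =>
  normK z140 fun z141 =>
  addK z212 z141 fun z253 =>
  invK z253 fun z254 =>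
  mulK z255 z254 fun z256 =>
  normK z256 fun z257 =>
  sqrK z257 fun z285 =>
  mulK z167 z285 fun z286 =>
  addcK z109 4722366764344621924352 0 fun z132 =>
  sqrtK z132 fun z133 =>
  invK z133 fun z168 =>
  smulK z168 4722366623607133569024 fun z169 =>
  subK z237 z240 fun z258 =>
  normK z258 fun z261 =>
  addK z210 z203 fun z213 =>
  sqrtK z213 fun z214 =>
  mulK z104 z133 fun z142 =>
  normK z142 fun z143 =>
  addK z214 z143 fun z259 =>
  invK z259 fun z260 =>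
  mulK z261 z260 fun z262 =>
  normK z262 fun z263 =>
  sqrK z263 fun z287 =>
  mulK z169 z287 fun z288 =>
  addK z286 z288 fun z289 =>
  subK z284 z289 fun z290 =>
  a_B9 gs ps z114 z92 z339 z153 z178 z195 z264 z157 z181 z7 z159 z197 z270 z161 z199 z273 z279 z149 z89 z207 z247 z165 z209 z251 z167 z212 z257 z169 z214 z263 z290

def a_R8 (gs ps : ℕ) (z104 z114 z92 z339 z153 z178 z195 z264 z157 z181 z7 z159 z193 z197 z270 z161 z199 z273 z279 z149 z89 z237 z236 z116 z207 z247 z165 z209 z251 z284 z109 : ℝ) : Prop :=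
  letR ((1 : ℝ) - z109) fun z134 =>
  letR (√z134) fun z135 =>
  invR z135 fun z166 =>
  letR ((1 / 2 : ℝ) * z166) fun z167 =>
  letR (z237 - z236) fun z238 =>
  letR z238 fun z239 =>
  letR (z7 * z239) fun z240 =>
  letR (z237 + z240) fun z252 =>
  letR z252 fun z255 =>
  letR ((1 : ℝ) - z116) fun z210 =>
  letR (z116 * z193) fun z202 =>
  letR z202 fun z203 =>
  letR (z210 - z203) fun z211 =>
  letR (√z211) fun z212 =>
  letR (z104 * z135) fun z140 =>
  letR z140 fun z141 =>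
  letR (z212 + z141) fun z253 =>
  invR z253 fun z254 =>
  letR (z255 * z254) fun z256 =>
  letR z256 fun z257 =>
  letR (z257 ^ 2) fun z285 =>
  letR (z167 * z285) fun z286 =>
  letR (z109 + (1 : ℝ)) fun z132 =>
  letR (√z132) fun z133 =>
  invR z133 fun z168 =>
  letR ((1 / 2 : ℝ) * z168) fun z169 =>
  letR (z237 - z240) fun z258 =>
  letR z258 fun z261 =>
  letR (z210 + z203) fun z213 =>
  letR (√z213) fun z214 =>
  letR (z104 * z133) fun z142 =>
  letR z142 fun z143 =>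
  letR (z214 + z143) fun z259 =>
  invR z259 fun z260 =>
  letR (z261 * z260) fun z262 =>
  letR z262 fun z263 =>
  letR (z263 ^ 2) fun z287 =>
  letR (z169 * z287) fun z288 =>
  letR (z286 + z288) fun z289 =>
  letR (z284 - z289) fun z290 =>
  a_R9 gs ps z114 z92 z339 z153 z178 z195 z264 z157 z181 z7 z159 z197 z270 z161 z199 z273 z279 z149 z89 z207 z247 z165 z209 z251 z167 z212 z257 z169 z214 z263 z290

theorem a_S8 {ε : Fin 4 → ℝ} (gs : ℕ) (hε : ∀ i, |ε i| ≤ 1) (ps : ℕ) (z104 z114 z92 z339 z153 z178 z195 z264 z157 z181 z7 z159 z193 z197 z270 z161 z199 z273 z279 z149 z89 z237 z236 z116 z207 z247 z165 z209 z251 z284 z109 : AF) (t104 t114 t92 t339 t153 t178 t195 t264 t157 t181 t7 t159 t193 t197 t270 t161 t199 t273 t279 t149 t89 t237 t236 t116 t207 t247 t165 t209 t251 t284 t109 : ℝ)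
    (g104 : Rel ε z104 t104) (g114 : Rel ε z114 t114) (g92 : Rel ε z92 t92) (g339 : Rel ε z339 t339) (g153 : Rel ε z153 t153) (g178 : Rel ε z178 t178) (g195 : Rel ε z195 t195) (g264 : Rel ε z264 t264) (g157 : Rel ε z157 t157) (g181 : Rel ε z181 t181) (g7 : Rel ε z7 t7) (g159 : Rel ε z159 t159) (g193 : Rel ε z193 t193) (g197 : Rel ε z197 t197) (g270 : Rel ε z270 t270) (g161 : Rel ε z161 t161) (g199 : Rel ε z199 t199) (g273 : Rel ε z273 t273) (g279 : Rel ε z279 t279) (g149 : Rel ε z149 t149) (g89 : Rel ε z89 t89) (g237 : Rel ε z237 t237) (g236 : Rel ε z236 t236) (g116 : Rel ε z116 t116) (g207 : Rel ε z207 t207) (g247 : Rel ε z247 t247) (g165 : Rel ε z165 t165) (g209 : Rel ε z209 t209) (g251 : Rel ε z251 t251) (g284 : Rel ε z284 t284) (g109 : Rel ε z109 t109) :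
    a_B8 gs ps z104 z114 z92 z339 z153 z178 z195 z264 z157 z181 z7 z159 z193 z197 z270 z161 z199 z273 z279 z149 z89 z237 z236 z116 z207 z247 z165 z209 z251 z284 z109 = true → a_R8 gs ps t104 t114 t92 t339 t153 t178 t195 t264 t157 t181 t7 t159 t193 t197 t270 t161 t199 t273 t279 t149 t89 t237 t236 t116 t207 t247 t165 t209 t251 t284 t109 := by
  delta a_B8 a_R8
  exact rsubS g109 k0 fun z134 t134 g134 =>
  sqrtS hε g134 fun z135 t135 g135 =>
  invS hε g135 fun z166 t166 g166 =>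
  smulS hε g166 k4 fun z167 t167 g167 =>
  subS g237 g236 fun z238 t238 g238 =>
  normS g238 fun z239 t239 g239 =>
  mulS hε g7 g239 fun z240 t240 g240 =>
  addS g237 g240 fun z252 t252 g252 =>
  normS g252 fun z255 t255 g255 =>
  rsubS g116 k0 fun z210 t210 g210 =>
  mulS hε g116 g193 fun z202 t202 g202 =>
  normS g202 fun z203 t203 g203 =>
  subS g210 g203 fun z211 t211 g211 =>
  sqrtS hε g211 fun z212 t212 g212 =>
  mulS hε g104 g135 fun z140 t140 g140 =>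
  normS g140 fun z141 t141 g141 =>
  addS g212 g141 fun z253 t253 g253 =>
  invS hε g253 fun z254 t254 g254 =>
  mulS hε g255 g254 fun z256 t256 g256 =>
  normS g256 fun z257 t257 g257 =>
  sqrS hε g257 fun z285 t285 g285 =>
  mulS hε g167 g285 fun z286 t286 g286 =>
  addcS g109 k0 fun z132 t132 g132 =>
  sqrtS hε g132 fun z133 t133 g133 =>
  invS hε g133 fun z168 t168 g168 =>
  smulS hε g168 k4 fun z169 t169 g169 =>
  subS g237 g240 fun z258 t258 g258 =>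
  normS g258 fun z261 t261 g261 =>
  addS g210 g203 fun z213 t213 g213 =>
  sqrtS hε g213 fun z214 t214 g214 =>
  mulS hε g104 g133 fun z142 t142 g142 =>
  normS g142 fun z143 t143 g143 =>
  addS g214 g143 fun z259 t259 g259 =>
  invS hε g259 fun z260 t260 g260 =>
  mulS hε g261 g260 fun z262 t262 g262 =>
  normS g262 fun z263 t263 g263 =>
  sqrS hε g263 fun z287 t287 g287 =>
  mulS hε g169 g287 fun z288 t288 g288 =>
  addS g286 g288 fun z289 t289 g289 =>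
  subS g284 g289 fun z290 t290 g290 =>
  a_S9 gs hε ps z114 z92 z339 z153 z178 z195 z264 z157 z181 z7 z159 z197 z270 z161 z199 z273 z279 z149 z89 z207 z247 z165 z209 z251 z167 z212 z257 z169 z214 z263 z290 t114 t92 t339 t153 t178 t195 t264 t157 t181 t7 t159 t197 t270 t161 t199 t273 t279 t149 t89 t207 t247 t165 t209 t251 t167 t212 t257 t169 t214 t263 t290 g114 g92 g339 g153 g178 g195 g264 g157 g181 g7 g159 g197 g270 g161 g199 g273 g279 g149 g89 g207 g247 g165 g209 g251 g167 g212 g257 g169 g214 g263 g290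

def a_B7 (gs ps : ℕ) (z104 z114 z92 z339 z51 z107 z108 z153 z178 z195 z264 z62 z66 z157 z181 z7 z159 z193 z197 z270 z161 z199 z273 z279 z149 z58 z89 z237 z236 z116 z201 z207 z246 : AF) : Bool :=
  normK z246 fun z247 =>
  sqrK z247 fun z280 =>
  mulK z89 z280 fun z281 =>
  rsubK z51 4722367045819598635008 0 fun z61 =>
  mulK z62 z61 fun z63 =>
  normK z63 fun z64 =>
  rsubK z66 4722367017672100963942 1 fun z67 =>
  mulK z67 z58 fun z68 =>
  normK z68 fun z69 =>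
  mulK z64 z69 fun z70 =>
  normK z70 fun z71 =>
  rsubK z107 4722367045819598635008 0 fun z130 =>
  sqrtK z130 fun z131 =>
  invK z131 fun z162 =>
  smulK z162 4722366623607133569024 fun z163 =>
  mulK z71 z163 fun z164 =>
  normK z164 fun z165 =>
  rsubK z201 4722366764344621924352 0 fun z208 =>
  sqrtK z208 fun z209 =>
  mulK z104 z131 fun z138 =>
  normK z138 fun z139 =>
  addK z209 z139 fun z248 =>
  invK z248 fun z249 =>
  mulK z236 z249 fun z250 =>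
  normK z250 fun z251 =>
  sqrK z251 fun z282 =>
  mulK z165 z282 fun z283 =>
  addK z281 z283 fun z284 =>
  mulK z7 z108 fun z109 =>
  a_B8 gs ps z104 z114 z92 z339 z153 z178 z195 z264 z157 z181 z7 z159 z193 z197 z270 z161 z199 z273 z279 z149 z89 z237 z236 z116 z207 z247 z165 z209 z251 z284 z109

def a_R7 (gs ps : ℕ) (z104 z114 z92 z339 z51 z107 z108 z153 z178 z195 z264 z62 z66 z157 z181 z7 z159 z193 z197 z270 z161 z199 z273 z279 z149 z58 z89 z237 z236 z116 z201 z207 z246 : ℝ) : Prop :=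
  letR z246 fun z247 =>
  letR (z247 ^ 2) fun z280 =>
  letR (z89 * z280) fun z281 =>
  letR ((2 : ℝ) - z51) fun z61 =>
  letR (z62 * z61) fun z63 =>
  letR z63 fun z64 =>
  letR ((19 / 10 : ℝ) - z66) fun z67 =>
  letR (z67 * z58) fun z68 =>
  letR z68 fun z69 =>
  letR (z64 * z69) fun z70 =>
  letR z70 fun z71 =>
  letR ((2 : ℝ) - z107) fun z130 =>
  letR (√z130) fun z131 =>
  invR z131 fun z162 =>
  letR ((1 / 2 : ℝ) * z162) fun z163 =>
  letR (z71 * z163) fun z164 =>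
  letR z164 fun z165 =>
  letR ((1 : ℝ) - z201) fun z208 =>
  letR (√z208) fun z209 =>
  letR (z104 * z131) fun z138 =>
  letR z138 fun z139 =>
  letR (z209 + z139) fun z248 =>
  invR z248 fun z249 =>
  letR (z236 * z249) fun z250 =>
  letR z250 fun z251 =>
  letR (z251 ^ 2) fun z282 =>
  letR (z165 * z282) fun z283 =>
  letR (z281 + z283) fun z284 =>
  letR (z7 * z108) fun z109 =>
  a_R8 gs ps z104 z114 z92 z339 z153 z178 z195 z264 z157 z181 z7 z159 z193 z197 z270 z161 z199 z273 z279 z149 z89 z237 z236 z116 z207 z247 z165 z209 z251 z284 z109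

theorem a_S7 {ε : Fin 4 → ℝ} (gs : ℕ) (hε : ∀ i, |ε i| ≤ 1) (ps : ℕ) (z104 z114 z92 z339 z51 z107 z108 z153 z178 z195 z264 z62 z66 z157 z181 z7 z159 z193 z197 z270 z161 z199 z273 z279 z149 z58 z89 z237 z236 z116 z201 z207 z246 : AF) (t104 t114 t92 t339 t51 t107 t108 t153 t178 t195 t264 t62 t66 t157 t181 t7 t159 t193 t197 t270 t161 t199 t273 t279 t149 t58 t89 t237 t236 t116 t201 t207 t246 : ℝ)
    (g104 : Rel ε z104 t104) (g114 : Rel ε z114 t114) (g92 : Rel ε z92 t92) (g339 : Rel ε z339 t339) (g51 : Rel ε z51 t51) (g107 : Rel ε z107 t107) (g108 : Rel ε z108 t108) (g153 : Rel ε z153 t153) (g178 : Rel ε z178 t178) (g195 : Rel ε z195 t195) (g264 : Rel ε z264 t264) (g62 : Rel ε z62 t62) (g66 : Rel ε z66 t66) (g157 : Rel ε z157 t157) (g181 : Rel ε z181 t181) (g7 : Rel ε z7 t7) (g159 : Rel ε z159 t159) (g193 : Rel ε z193 t193) (g197 : Rel ε z197 t197) (g270 : Rel ε z270 t270) (g161 : Rel ε z161 t161) (g199 : Rel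 ε z199 t199) (g273 : Rel ε z273 t273) (g279 : Rel ε z279 t279) (g149 : Rel ε z149 t149) (g58 : Rel ε z58 t58) (g89 : Rel ε z89 t89) (g237 : Rel ε z237 t237) (g236 : Rel ε z236 t236) (g116 : Rel ε z116 t116) (g201 : Rel ε z201 t201) (g207 : Rel ε z207 t207) (g246 : Rel ε z246 t246) :
    a_B7 gs ps z104 z114 z92 z339 z51 z107 z108 z153 z178 z195 z264 z62 z66 z157 z181 z7 z159 z193 z197 z270 z161 z199 z273 z279 z149 z58 z89 z237 z236 z116 z201 z207 z246 = true → a_R7 gs ps t104 t114 t92 t339 t51 t107 t108 t153 t178 t195 t264 t62 t66 t157 t181 t7 t159 t193 t197 t270 t161 t199 t273 t279 t149 t58 t89 t237 t236 t116 t201 t207 t246 := by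
  delta a_B7 a_R7
  exact normS g246 fun z247 t247 g247 =>
  sqrS hε g247 fun z280 t280 g280 =>
  mulS hε g89 g280 fun z281 t281 g281 =>
  rsubS g51 k6 fun z61 t61 g61 =>
  mulS hε g62 g61 fun z63 t63 g63 =>
  normS g63 fun z64 t64 g64 =>
  rsubS g66 k2 fun z67 t67 g67 =>
  mulS hε g67 g58 fun z68 t68 g68 =>
  normS g68 fun z69 t69 g69 =>
  mulS hε g64 g69 fun z70 t70 g70 =>
  normS g70 fun z71 t71 g71 =>
  rsubS g107 k6 fun z130 t130 g130 =>
  sqrtS hε g130 fun z131 t131 g131 =>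
  invS hε g131 fun z162 t162 g162 =>
  smulS hε g162 k4 fun z163 t163 g163 =>
  mulS hε g71 g163 fun z164 t164 g164 =>
  normS g164 fun z165 t165 g165 =>
  rsubS g201 k0 fun z208 t208 g208 =>
  sqrtS hε g208 fun z209 t209 g209 =>
  mulS hε g104 g131 fun z138 t138 g138 =>
  normS g138 fun z139 t139 g139 =>
  addS g209 g139 fun z248 t248 g248 =>
  invS hε g248 fun z249 t249 g249 =>
  mulS hε g236 g249 fun z250 t250 g250 =>
  normS g250 fun z251 t251 g251 =>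
  sqrS hε g251 fun z282 t282 g282 =>
  mulS hε g165 g282 fun z283 t283 g283 =>
  addS g281 g283 fun z284 t284 g284 =>
  mulS hε g7 g108 fun z109 t109 g109 =>
  a_S8 gs hε ps z104 z114 z92 z339 z153 z178 z195 z264 z157 z181 z7 z159 z193 z197 z270 z161 z199 z273 z279 z149 z89 z237 z236 z116 z207 z247 z165 z209 z251 z284 z109 t104 t114 t92 t339 t153 t178 t195 t264 t157 t181 t7 t159 t193 t197 t270 t161 t199 t273 t279 t149 t89 t237 t236 t116 t207 t247 t165 t209 t251 t284 t109 g104 g114 g92 g339 g153 g178 g195 g264 g157 g181 g7 g159 g193 g197 g270 g161 g199 g273 g279 g149 g89 g237 g236 g116 g207 g247 g165 g209 g251 g284 g109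

def a_B6 (gs ps : ℕ) (x0 x1 x2 z104 z114 z92 z339 z51 z45 z106 z107 z108 z153 z123 z178 z190 z191 z195 z264 z62 z66 z157 z181 z7 z159 z193 z197 z270 z161 z199 z273 z279 z149 z8 z58 z83 : AF) : Bool :=
  parK gs 16 fun z23 =>
  parK gs 17 fun z24 =>
  mulK z24 x0 fun z46 =>
  addK z23 z46 fun z47 =>
  parK gs 18 fun z25 =>
  mulK z25 x1 fun z48 =>
  addK z47 z48 fun z49 =>
  addK z83 z49 fun z84 =>
  normK z84 fun z87 =>
  addK z45 z8 fun z85 =>
  invK z85 fun z86 =>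
  mulK z87 z86 fun z88 =>
  normK z88 fun z89 =>
  addcK z114 4722366764344621924352 0 fun z237 =>
  smulK z237 4722367045819598635008 fun z241 =>
  mulK z114 z190 fun z232 =>
  addK z232 z123 fun z233 =>
  normK z233 fun z234 =>
  mulK z181 z234 fun z235 =>
  normK z235 fun z236 =>
  subK z241 z236 fun z242 =>
  normK z242 fun z245 =>
  sqrK x2 fun z116 =>
  mulK z116 z191 fun z200 =>
  normK z200 fun z201 =>
  smulK z116 4722367045819598635008 fun z204 =>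
  subK z201 z204 fun z205 =>
  addcK z205 4722366764344621924352 0 fun z206 =>
  sqrtK z206 fun z207 =>
  mulK z104 z106 fun z136 =>
  normK z136 fun z137 =>
  addK z207 z137 fun z243 =>
  invK z243 fun z244 =>
  mulK z245 z244 fun z246 =>
  a_B7 gs ps z104 z114 z92 z339 z51 z107 z108 z153 z178 z195 z264 z62 z66 z157 z181 z7 z159 z193 z197 z270 z161 z199 z273 z279 z149 z58 z89 z237 z236 z116 z201 z207 z246

def a_R6 (gs ps : ℕ) (sg v y z104 z114 z92 z339 z51 z45 z106 z107 z108 z153 z123 z178 z190 z191 z195 z264 z62 z66 z157 z181 z7 z159 z193 z197 z270 z161 z199 z273 z279 z149 z8 z58 z83 : ℝ) : Prop :=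
  letR (parV gs 16) fun z23 =>
  letR (parV gs 17) fun z24 =>
  letR (z24 * sg) fun z46 =>
  letR (z23 + z46) fun z47 =>
  letR (parV gs 18) fun z25 =>
  letR (z25 * v) fun z48 =>
  letR (z47 + z48) fun z49 =>
  letR (z83 + z49) fun z84 =>
  letR z84 fun z87 =>
  letR (z45 + z8) fun z85 =>
  invR z85 fun z86 =>
  letR (z87 * z86) fun z88 =>
  letR z88 fun z89 =>
  letR (z114 + (1 : ℝ)) fun z237 =>
  letR ((2 : ℝ) * z237) fun z241 =>
  letR (z114 * z190) fun z232 =>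
  letR (z232 + z123) fun z233 =>
  letR z233 fun z234 =>
  letR (z181 * z234) fun z235 =>
  letR z235 fun z236 =>
  letR (z241 - z236) fun z242 =>
  letR z242 fun z245 =>
  letR (y ^ 2) fun z116 =>
  letR (z116 * z191) fun z200 =>
  letR z200 fun z201 =>
  letR ((2 : ℝ) * z116) fun z204 =>
  letR (z201 - z204) fun z205 =>
  letR (z205 + (1 : ℝ)) fun z206 =>
  letR (√z206) fun z207 =>
  letR (z104 * z106) fun z136 =>
  letR z136 fun z137 =>
  letR (z207 + z137) fun z243 =>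
  invR z243 fun z244 =>
  letR (z245 * z244) fun z246 =>
  a_R7 gs ps z104 z114 z92 z339 z51 z107 z108 z153 z178 z195 z264 z62 z66 z157 z181 z7 z159 z193 z197 z270 z161 z199 z273 z279 z149 z58 z89 z237 z236 z116 z201 z207 z246

theorem a_S6 {ε : Fin 4 → ℝ} (gs : ℕ) (hε : ∀ i, |ε i| ≤ 1) (ps : ℕ) (x0 x1 x2 z104 z114 z92 z339 z51 z45 z106 z107 z108 z153 z123 z178 z190 z191 z195 z264 z62 z66 z157 z181 z7 z159 z193 z197 z270 z161 z199 z273 z279 z149 z8 z58 z83 : AF) (sg v y t104 t114 t92 t339 t51 t45 t106 t107 t108 t153 t123 t178 t190 t191 t195 t264 t62 t66 t157 t181 t7 t159 t193 t197 t270 t161 t199 t273 t279 t149 t8 t58 t83 : ℝ)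
    (h0 : Rel ε x0 sg) (h1 : Rel ε x1 v) (h2 : Rel ε x2 y) (g104 : Rel ε z104 t104) (g114 : Rel ε z114 t114) (g92 : Rel ε z92 t92) (g339 : Rel ε z339 t339) (g51 : Rel ε z51 t51) (g45 : Rel ε z45 t45) (g106 : Rel ε z106 t106) (g107 : Rel ε z107 t107) (g108 : Rel ε z108 t108) (g153 : Rel ε z153 t153) (g123 : Rel ε z123 t123) (g178 : Rel ε z178 t178) (g190 : Rel ε z190 t190) (g191 : Rel ε z191 t191) (g195 : Rel ε z195 t195) (g264 : Rel ε z264 t264) (g62 : Rel ε z62 t62) (g66 : Rel ε z66 t66) (g157 : Rel ε z157 t157) (g181 : Rel ε z181 t181) (g7 : Rel ε z7 t7) (g159 : Rel ε z159 t159) (g193 : Rel ε z193 t193) (g197 : Rel ε z197 t197) (g270 : Rel ε z270 t270) (g161 : Rel ε z161 t161) (g199 : Rel ε z199 t199) (g273 : Rel ε z273 t273) (g279 : Rel ε z279 t279) (g149 : Rel ε z149 t149) (g8 : Rel ε z8 t8) (g58 : Rel ε z58 t58) (g83 : Rel ε z83 t83) :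
    a_B6 gs ps x0 x1 x2 z104 z114 z92 z339 z51 z45 z106 z107 z108 z153 z123 z178 z190 z191 z195 z264 z62 z66 z157 z181 z7 z159 z193 z197 z270 z161 z199 z273 z279 z149 z8 z58 z83 = true → a_R6 gs ps sg v y t104 t114 t92 t339 t51 t45 t106 t107 t108 t153 t123 t178 t190 t191 t195 t264 t62 t66 t157 t181 t7 t159 t193 t197 t270 t161 t199 t273 t279 t149 t8 t58 t83 := by
  delta a_B6 a_R6
  exact parS fun z23 t23 g23 =>
  parS fun z24 t24 g24 =>
  mulS hε g24 h0 fun z46 t46 g46 =>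
  addS g23 g46 fun z47 t47 g47 =>
  parS fun z25 t25 g25 =>
  mulS hε g25 h1 fun z48 t48 g48 =>
  addS g47 g48 fun z49 t49 g49 =>
  addS g83 g49 fun z84 t84 g84 =>
  normS g84 fun z87 t87 g87 =>
  addS g45 g8 fun z85 t85 g85 =>
  invS hε g85 fun z86 t86 g86 =>
  mulS hε g87 g86 fun z88 t88 g88 =>
  normS g88 fun z89 t89 g89 =>
  addcS g114 k0 fun z237 t237 g237 =>
  smulS hε g237 k7 fun z241 t241 g241 =>
  mulS hε g114 g190 fun z232 t232 g232 =>
  addS g232 g123 fun z233 t233 g233 =>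
  normS g233 fun z234 t234 g234 =>
  mulS hε g181 g234 fun z235 t235 g235 =>
  normS g235 fun z236 t236 g236 =>
  subS g241 g236 fun z242 t242 g242 =>
  normS g242 fun z245 t245 g245 =>
  sqrS hε h2 fun z116 t116 g116 =>
  mulS hε g116 g191 fun z200 t200 g200 =>
  normS g200 fun z201 t201 g201 =>
  smulS hε g116 k7 fun z204 t204 g204 =>
  subS g201 g204 fun z205 t205 g205 =>
  addcS g205 k0 fun z206 t206 g206 =>
  sqrtS hε g206 fun z207 t207 g207 =>
  mulS hε g104 g106 fun z136 t136 g136 =>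
  normS g136 fun z137 t137 g137 =>
  addS g207 g137 fun z243 t243 g243 =>
  invS hε g243 fun z244 t244 g244 =>
  mulS hε g245 g244 fun z246 t246 g246 =>
  a_S7 gs hε ps z104 z114 z92 z339 z51 z107 z108 z153 z178 z195 z264 z62 z66 z157 z181 z7 z159 z193 z197 z270 z161 z199 z273 z279 z149 z58 z89 z237 z236 z116 z201 z207 z246 t104 t114 t92 t339 t51 t107 t108 t153 t178 t195 t264 t62 t66 t157 t181 t7 t159 t193 t197 t270 t161 t199 t273 t279 t149 t58 t89 t237 t236 t116 t201 t207 t246 g104 g114 g92 g339 g51 g107 g108 g153 g178 g195 g264 g62 g66 g157 g181 g7 g159 g193 g197 g270 g161 g199 g273 g279 g149 g58 g89 g237 g236 g116 g201 g207 g246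

def a_B5 (gs ps : ℕ) (x0 x1 x2 z41 z104 z57 z146 z114 z92 z339 z75 z51 z52 z45 z106 z107 z108 z153 z123 z178 z190 z191 z195 z264 z62 z66 z157 z181 z269 z7 z121 z159 z193 z197 z219 z270 : AF) : Bool :=
  sqrK z270 fun z271 =>
  mulK z159 z271 fun z272 =>
  rsubK z121 4722366764344621924352 0 fun z128 =>
  sqrtK z128 fun z129 =>
  invK z129 fun z160 =>
  smulK z160 4722366623607133569024 fun z161 =>
  rsubK z193 4722366764344621924352 0 fun z198 =>
  sqrtK z198 fun z199 =>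
  addK z199 z129 fun z228 =>
  invK z228 fun z229 =>
  mulK z219 z229 fun z230 =>
  addK z199 z230 fun z231 =>
  normK z231 fun z273 =>
  sqrK z273 fun z274 =>
  mulK z161 z274 fun z275 =>
  addK z272 z275 fun z276 =>
  normK z276 fun z277 =>
  mulK z92 z277 fun z278 =>
  subK z269 z278 fun z279 =>
  invK z41 fun z147 =>
  mulK z146 z147 fun z148 =>
  normK z148 fun z149 =>
  parK gs 1 fun z8 =>
  addK x1 z8 fun z72 =>
  normK z72 fun z73 =>
  mulK x1 z73 fun z74 =>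
  mulK z75 z74 fun z76 =>
  normK z76 fun z77 =>
  mulK (cst 4722366609533384733491 1) z52 fun z79 =>
  rsubK z79 4722366750270873088819 1 fun z80 =>
  invK z57 fun z58 =>
  mulK z80 z58 fun z81 =>
  normK z81 fun z82 =>
  mulK z77 z82 fun z83 =>
  a_B6 gs ps x0 x1 x2 z104 z114 z92 z339 z51 z45 z106 z107 z108 z153 z123 z178 z190 z191 z195 z264 z62 z66 z157 z181 z7 z159 z193 z197 z270 z161 z199 z273 z279 z149 z8 z58 z83

def a_R5 (gs ps : ℕ) (sg v y z41 z104 z57 z146 z114 z92 z339 z75 z51 z52 z45 z106 z107 z108 z153 z123 z178 z190 z191 z195 z264 z62 z66 z157 z181 z269 z7 z121 z159 z193 z197 z219 z270 : ℝ) : Prop :=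
  letR (z270 ^ 2) fun z271 =>
  letR (z159 * z271) fun z272 =>
  letR ((1 : ℝ) - z121) fun z128 =>
  letR (√z128) fun z129 =>
  invR z129 fun z160 =>
  letR ((1 / 2 : ℝ) * z160) fun z161 =>
  letR ((1 : ℝ) - z193) fun z198 =>
  letR (√z198) fun z199 =>
  letR (z199 + z129) fun z228 =>
  invR z228 fun z229 =>
  letR (z219 * z229) fun z230 =>
  letR (z199 + z230) fun z231 =>
  letR z231 fun z273 =>
  letR (z273 ^ 2) fun z274 =>
  letR (z161 * z274) fun z275 =>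
  letR (z272 + z275) fun z276 =>
  letR z276 fun z277 =>
  letR (z92 * z277) fun z278 =>
  letR (z269 - z278) fun z279 =>
  invR z41 fun z147 =>
  letR (z146 * z147) fun z148 =>
  letR z148 fun z149 =>
  letR (parV gs 1) fun z8 =>
  letR (v + z8) fun z72 =>
  letR z72 fun z73 =>
  letR (v * z73) fun z74 =>
  letR (z75 * z74) fun z76 =>
  letR z76 fun z77 =>
  letR ((9 / 20 : ℝ) * z52) fun z79 =>
  letR ((19 / 20 : ℝ) - z79) fun z80 =>
  invR z57 fun z58 =>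
  letR (z80 * z58) fun z81 =>
  letR z81 fun z82 =>
  letR (z77 * z82) fun z83 =>
  a_R6 gs ps sg v y z104 z114 z92 z339 z51 z45 z106 z107 z108 z153 z123 z178 z190 z191 z195 z264 z62 z66 z157 z181 z7 z159 z193 z197 z270 z161 z199 z273 z279 z149 z8 z58 z83

theorem a_S5 {ε : Fin 4 → ℝ} (gs : ℕ) (hε : ∀ i, |ε i| ≤ 1) (ps : ℕ) (x0 x1 x2 z41 z104 z57 z146 z114 z92 z339 z75 z51 z52 z45 z106 z107 z108 z153 z123 z178 z190 z191 z195 z264 z62 z66 z157 z181 z269 z7 z121 z159 z193 z197 z219 z270 : AF) (sg v y t41 t104 t57 t146 t114 t92 t339 t75 t51 t52 t45 t106 t107 t108 t153 t123 t178 t190 t191 t195 t264 t62 t66 t157 t181 t269 t7 t121 t159 t193 t197 t219 t270 : ℝ)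
    (h0 : Rel ε x0 sg) (h1 : Rel ε x1 v) (h2 : Rel ε x2 y) (g41 : Rel ε z41 t41) (g104 : Rel ε z104 t104) (g57 : Rel ε z57 t57) (g146 : Rel ε z146 t146) (g114 : Rel ε z114 t114) (g92 : Rel ε z92 t92) (g339 : Rel ε z339 t339) (g75 : Rel ε z75 t75) (g51 : Rel ε z51 t51) (g52 : Rel ε z52 t52) (g45 : Rel ε z45 t45) (g106 : Rel ε z106 t106) (g107 : Rel ε z107 t107) (g108 : Rel ε z108 t108) (g153 : Rel ε z153 t153) (g123 : Rel ε z123 t123) (g178 : Rel ε z178 t178) (g190 : Rel ε z190 t190) (g191 : Rel ε z191 t191) (g195 : Rel ε z195 t195) (g264 : Rel ε z264 t264) (g62 : Rel ε z62 t62) (g66 : Rel ε z66 t66) (g157 : Rel ε z157 t157) (g181 : Rel ε z181 t181) (g269 : Rel ε z269 t269) (g7 : Rel ε z7 t7) (g121 : Rel ε z121 t121) (g159 : Rel ε z159 t159) (g193 : Rel ε z193 t193) (g197 : Rel ε z197 t197) (g219 : Rel ε z219 t219) (g270 : Rel ε z270 t270) :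
    a_B5 gs ps x0 x1 x2 z41 z104 z57 z146 z114 z92 z339 z75 z51 z52 z45 z106 z107 z108 z153 z123 z178 z190 z191 z195 z264 z62 z66 z157 z181 z269 z7 z121 z159 z193 z197 z219 z270 = true → a_R5 gs ps sg v y t41 t104 t57 t146 t114 t92 t339 t75 t51 t52 t45 t106 t107 t108 t153 t123 t178 t190 t191 t195 t264 t62 t66 t157 t181 t269 t7 t121 t159 t193 t197 t219 t270 := by
  delta a_B5 a_R5
  exact sqrS hε g270 fun z271 t271 g271 =>
  mulS hε g159 g271 fun z272 t272 g272 =>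
  rsubS g121 k0 fun z128 t128 g128 =>
  sqrtS hε g128 fun z129 t129 g129 =>
  invS hε g129 fun z160 t160 g160 =>
  smulS hε g160 k4 fun z161 t161 g161 =>
  rsubS g193 k0 fun z198 t198 g198 =>
  sqrtS hε g198 fun z199 t199 g199 =>
  addS g199 g129 fun z228 t228 g228 =>
  invS hε g228 fun z229 t229 g229 =>
  mulS hε g219 g229 fun z230 t230 g230 =>
  addS g199 g230 fun z231 t231 g231 =>
  normS g231 fun z273 t273 g273 =>
  sqrS hε g273 fun z274 t274 g274 =>
  mulS hε g161 g274 fun z275 t275 g275 =>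
  addS g272 g275 fun z276 t276 g276 =>
  normS g276 fun z277 t277 g277 =>
  mulS hε g92 g277 fun z278 t278 g278 =>
  subS g269 g278 fun z279 t279 g279 =>
  invS hε g41 fun z147 t147 g147 =>
  mulS hε g146 g147 fun z148 t148 g148 =>
  normS g148 fun z149 t149 g149 =>
  parS fun z8 t8 g8 =>
  addS h1 g8 fun z72 t72 g72 =>
  normS g72 fun z73 t73 g73 =>
  mulS hε h1 g73 fun z74 t74 g74 =>
  mulS hε g75 g74 fun z76 t76 g76 =>
  normS g76 fun z77 t77 g77 =>
  mulS hε (cst_rel k8) g52 fun z79 t79 g79 =>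
  rsubS g79 k9 fun z80 t80 g80 =>
  invS hε g57 fun z58 t58 g58 =>
  mulS hε g80 g58 fun z81 t81 g81 =>
  normS g81 fun z82 t82 g82 =>
  mulS hε g77 g82 fun z83 t83 g83 =>
  a_S6 gs hε ps x0 x1 x2 z104 z114 z92 z339 z51 z45 z106 z107 z108 z153 z123 z178 z190 z191 z195 z264 z62 z66 z157 z181 z7 z159 z193 z197 z270 z161 z199 z273 z279 z149 z8 z58 z83 sg v y t104 t114 t92 t339 t51 t45 t106 t107 t108 t153 t123 t178 t190 t191 t195 t264 t62 t66 t157 t181 t7 t159 t193 t197 t270 t161 t199 t273 t279 t149 t8 t58 t83 h0 h1 h2 g104 g114 g92 g339 g51 g45 g106 g107 g108 g153 g123 g178 g190 g191 g195 g264 g62 g66 g157 g181 g7 g159 g193 g197 g270 g161 g199 g273 g279 g149 g8 g58 g83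

def a_B4 (gs ps : ℕ) (x0 x1 x2 z41 z104 z57 z146 z114 z92 z339 z75 z51 z52 z45 z106 z107 z108 z120 z153 z175 z123 z178 z190 z191 z195 z218 z264 z266 z62 z65 : AF) : Bool :=
  mulK (cst 4722366736197124253286 1) z65 fun z66 =>
  addcK z66 4722366511017142884761 1 fun z93 =>
  mulK z65 z93 fun z94 =>
  rsubK z94 4722366764344621924352 0 fun z95 =>
  mulK z62 z95 fun z96 =>
  normK z96 fun z97 =>
  invK z123 fun z154 =>
  smulK z154 4722366623607133569024 fun z155 =>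
  mulK z97 z155 fun z156 =>
  normK z156 fun z157 =>
  addK z178 z175 fun z179 =>
  normK z179 fun z181 =>
  sqrK z181 fun z267 =>
  mulK z157 z267 fun z268 =>
  addK z266 z268 fun z269 =>
  parK gs 0 fun z7 =>
  mulK z7 z120 fun z121 =>
  addcK z121 4722366764344621924352 0 fun z126 =>
  sqrtK z126 fun z127 =>
  invK z127 fun z158 =>
  smulK z158 4722366623607133569024 fun z159 =>
  rsubK z191 4722366764344621924352 0 fun z192 =>
  mulK z7 z192 fun z193 =>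
  addcK z193 4722366764344621924352 0 fun z196 =>
  sqrtK z196 fun z197 =>
  mulK z7 z218 fun z219 =>
  addK z197 z127 fun z224 =>
  invK z224 fun z225 =>
  mulK z219 z225 fun z226 =>
  subK z197 z226 fun z227 =>
  normK z227 fun z270 =>
  a_B5 gs ps x0 x1 x2 z41 z104 z57 z146 z114 z92 z339 z75 z51 z52 z45 z106 z107 z108 z153 z123 z178 z190 z191 z195 z264 z62 z66 z157 z181 z269 z7 z121 z159 z193 z197 z219 z270

def a_R4 (gs ps : ℕ) (sg v y z41 z104 z57 z146 z114 z92 z339 z75 z51 z52 z45 z106 z107 z108 z120 z153 z175 z123 z178 z190 z191 z195 z218 z264 z266 z62 z65 : ℝ) : Prop :=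
  letR ((9 / 10 : ℝ) * z65) fun z66 =>
  letR (z66 + (1 / 10 : ℝ)) fun z93 =>
  letR (z65 * z93) fun z94 =>
  letR ((1 : ℝ) - z94) fun z95 =>
  letR (z62 * z95) fun z96 =>
  letR z96 fun z97 =>
  invR z123 fun z154 =>
  letR ((1 / 2 : ℝ) * z154) fun z155 =>
  letR (z97 * z155) fun z156 =>
  letR z156 fun z157 =>
  letR (z178 + z175) fun z179 =>
  letR z179 fun z181 =>
  letR (z181 ^ 2) fun z267 =>
  letR (z157 * z267) fun z268 =>
  letR (z266 + z268) fun z269 =>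
  letR (parV gs 0) fun z7 =>
  letR (z7 * z120) fun z121 =>
  letR (z121 + (1 : ℝ)) fun z126 =>
  letR (√z126) fun z127 =>
  invR z127 fun z158 =>
  letR ((1 / 2 : ℝ) * z158) fun z159 =>
  letR ((1 : ℝ) - z191) fun z192 =>
  letR (z7 * z192) fun z193 =>
  letR (z193 + (1 : ℝ)) fun z196 =>
  letR (√z196) fun z197 =>
  letR (z7 * z218) fun z219 =>
  letR (z197 + z127) fun z224 =>
  invR z224 fun z225 =>
  letR (z219 * z225) fun z226 =>
  letR (z197 - z226) fun z227 =>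
  letR z227 fun z270 =>
  a_R5 gs ps sg v y z41 z104 z57 z146 z114 z92 z339 z75 z51 z52 z45 z106 z107 z108 z153 z123 z178 z190 z191 z195 z264 z62 z66 z157 z181 z269 z7 z121 z159 z193 z197 z219 z270

theorem a_S4 {ε : Fin 4 → ℝ} (gs : ℕ) (hε : ∀ i, |ε i| ≤ 1) (ps : ℕ) (x0 x1 x2 z41 z104 z57 z146 z114 z92 z339 z75 z51 z52 z45 z106 z107 z108 z120 z153 z175 z123 z178 z190 z191 z195 z218 z264 z266 z62 z65 : AF) (sg v y t41 t104 t57 t146 t114 t92 t339 t75 t51 t52 t45 t106 t107 t108 t120 t153 t175 t123 t178 t190 t191 t195 t218 t264 t266 t62 t65 : ℝ)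
    (h0 : Rel ε x0 sg) (h1 : Rel ε x1 v) (h2 : Rel ε x2 y) (g41 : Rel ε z41 t41) (g104 : Rel ε z104 t104) (g57 : Rel ε z57 t57) (g146 : Rel ε z146 t146) (g114 : Rel ε z114 t114) (g92 : Rel ε z92 t92) (g339 : Rel ε z339 t339) (g75 : Rel ε z75 t75) (g51 : Rel ε z51 t51) (g52 : Rel ε z52 t52) (g45 : Rel ε z45 t45) (g106 : Rel ε z106 t106) (g107 : Rel ε z107 t107) (g108 : Rel ε z108 t108) (g120 : Rel ε z120 t120) (g153 : Rel ε z153 t153) (g175 : Rel ε z175 t175) (g123 : Rel ε z123 t123) (g178 : Rel ε z178 t178) (g190 : Rel ε z190 t190) (g191 : Rel ε z191 t191) (g195 : Rel ε z195 t195) (g218 : Rel ε z218 t218) (g264 : Rel ε z264 t264) (g266 : Rel ε z266 t266) (g62 : Rel ε z62 t62) (g65 : Rel ε z65 t65) :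
    a_B4 gs ps x0 x1 x2 z41 z104 z57 z146 z114 z92 z339 z75 z51 z52 z45 z106 z107 z108 z120 z153 z175 z123 z178 z190 z191 z195 z218 z264 z266 z62 z65 = true → a_R4 gs ps sg v y t41 t104 t57 t146 t114 t92 t339 t75 t51 t52 t45 t106 t107 t108 t120 t153 t175 t123 t178 t190 t191 t195 t218 t264 t266 t62 t65 := by
  delta a_B4 a_R4
  exact mulS hε (cst_rel k1) g65 fun z66 t66 g66 =>
  addcS g66 k3 fun z93 t93 g93 =>
  mulS hε g65 g93 fun z94 t94 g94 =>
  rsubS g94 k0 fun z95 t95 g95 =>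
  mulS hε g62 g95 fun z96 t96 g96 =>
  normS g96 fun z97 t97 g97 =>
  invS hε g123 fun z154 t154 g154 =>
  smulS hε g154 k4 fun z155 t155 g155 =>
  mulS hε g97 g155 fun z156 t156 g156 =>
  normS g156 fun z157 t157 g157 =>
  addS g178 g175 fun z179 t179 g179 =>
  normS g179 fun z181 t181 g181 =>
  sqrS hε g181 fun z267 t267 g267 =>
  mulS hε g157 g267 fun z268 t268 g268 =>
  addS g266 g268 fun z269 t269 g269 =>
  parS fun z7 t7 g7 =>
  mulS hε g7 g120 fun z121 t121 g121 =>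
  addcS g121 k0 fun z126 t126 g126 =>
  sqrtS hε g126 fun z127 t127 g127 =>
  invS hε g127 fun z158 t158 g158 =>
  smulS hε g158 k4 fun z159 t159 g159 =>
  rsubS g191 k0 fun z192 t192 g192 =>
  mulS hε g7 g192 fun z193 t193 g193 =>
  addcS g193 k0 fun z196 t196 g196 =>
  sqrtS hε g196 fun z197 t197 g197 =>
  mulS hε g7 g218 fun z219 t219 g219 =>
  addS g197 g127 fun z224 t224 g224 =>
  invS hε g224 fun z225 t225 g225 =>
  mulS hε g219 g225 fun z226 t226 g226 =>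
  subS g197 g226 fun z227 t227 g227 =>
  normS g227 fun z270 t270 g270 =>
  a_S5 gs hε ps x0 x1 x2 z41 z104 z57 z146 z114 z92 z339 z75 z51 z52 z45 z106 z107 z108 z153 z123 z178 z190 z191 z195 z264 z62 z66 z157 z181 z269 z7 z121 z159 z193 z197 z219 z270 sg v y t41 t104 t57 t146 t114 t92 t339 t75 t51 t52 t45 t106 t107 t108 t153 t123 t178 t190 t191 t195 t264 t62 t66 t157 t181 t269 t7 t121 t159 t193 t197 t219 t270 h0 h1 h2 g41 g104 g57 g146 g114 g92 g339 g75 g51 g52 g45 g106 g107 g108 g153 g123 g178 g190 g191 g195 g264 g62 g66 g157 g181 g269 g7 g121 g159 g193 g197 g219 g270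

def a_B3 (gs ps : ℕ) (x0 x1 x2 z41 z104 z50 z57 z146 z114 z92 z339 z75 z51 z52 z45 z106 z107 z108 z120 z125 z153 z115 z175 : AF) : Bool :=
  normK z175 fun z176 =>
  mulK z115 z176 fun z177 =>
  rsubK z120 4722366764344621924352 0 fun z122 =>
  sqrtK z122 fun z123 =>
  addK z177 z123 fun z178 =>
  normK z178 fun z190 =>
  sqrK z190 fun z191 =>
  rsubK z191 4722367045819598635008 0 fun z194 =>
  sqrtK z194 fun z195 =>
  addK z178 z123 fun z215 =>
  normK z215 fun z216 =>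
  mulK z176 z216 fun z217 =>
  normK z217 fun z218 =>
  addK z195 z125 fun z220 =>
  invK z220 fun z221 =>
  mulK z218 z221 fun z222 =>
  subK z195 z222 fun z223 =>
  normK z223 fun z264 =>
  sqrK z264 fun z265 =>
  mulK z153 z265 fun z266 =>
  parK gs 4 fun z11 =>
  parK gs 5 fun z12 =>
  mulK z12 x0 fun z30 =>
  addK z11 z30 fun z31 =>
  parK gs 6 fun z13 =>
  mulK z13 x1 fun z32 =>
  addK z31 z32 fun z33 =>
  normK z33 fun z62 =>
  smulK z50 4722367045819598635008 fun z53 =>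
  subK z53 z52 fun z54 =>
  normK z54 fun z65 =>
  a_B4 gs ps x0 x1 x2 z41 z104 z57 z146 z114 z92 z339 z75 z51 z52 z45 z106 z107 z108 z120 z153 z175 z123 z178 z190 z191 z195 z218 z264 z266 z62 z65

def a_R3 (gs ps : ℕ) (sg v y z41 z104 z50 z57 z146 z114 z92 z339 z75 z51 z52 z45 z106 z107 z108 z120 z125 z153 z115 z175 : ℝ) : Prop :=
  letR z175 fun z176 =>
  letR (z115 * z176) fun z177 =>
  letR ((1 : ℝ) - z120) fun z122 =>
  letR (√z122) fun z123 =>
  letR (z177 + z123) fun z178 =>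
  letR z178 fun z190 =>
  letR (z190 ^ 2) fun z191 =>
  letR ((2 : ℝ) - z191) fun z194 =>
  letR (√z194) fun z195 =>
  letR (z178 + z123) fun z215 =>
  letR z215 fun z216 =>
  letR (z176 * z216) fun z217 =>
  letR z217 fun z218 =>
  letR (z195 + z125) fun z220 =>
  invR z220 fun z221 =>
  letR (z218 * z221) fun z222 =>
  letR (z195 - z222) fun z223 =>
  letR z223 fun z264 =>
  letR (z264 ^ 2) fun z265 =>
  letR (z153 * z265) fun z266 =>
  letR (parV gs 4) fun z11 =>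
  letR (parV gs 5) fun z12 =>
  letR (z12 * sg) fun z30 =>
  letR (z11 + z30) fun z31 =>
  letR (parV gs 6) fun z13 =>
  letR (z13 * v) fun z32 =>
  letR (z31 + z32) fun z33 =>
  letR z33 fun z62 =>
  letR ((2 : ℝ) * z50) fun z53 =>
  letR (z53 - z52) fun z54 =>
  letR z54 fun z65 =>
  a_R4 gs ps sg v y z41 z104 z57 z146 z114 z92 z339 z75 z51 z52 z45 z106 z107 z108 z120 z153 z175 z123 z178 z190 z191 z195 z218 z264 z266 z62 z65

theorem a_S3 {ε : Fin 4 → ℝ} (gs : ℕ) (hε : ∀ i, |ε i| ≤ 1) (ps : ℕ) (x0 x1 x2 z41 z104 z50 z57 z146 z114 z92 z339 z75 z51 z52 z45 z106 z107 z108 z120 z125 z153 z115 z175 : AF) (sg v y t41 t104 t50 t57 t146 t114 t92 t339 t75 t51 t52 t45 t106 t107 t108 t120 t125 t153 t115 t175 : ℝ)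
    (h0 : Rel ε x0 sg) (h1 : Rel ε x1 v) (h2 : Rel ε x2 y) (g41 : Rel ε z41 t41) (g104 : Rel ε z104 t104) (g50 : Rel ε z50 t50) (g57 : Rel ε z57 t57) (g146 : Rel ε z146 t146) (g114 : Rel ε z114 t114) (g92 : Rel ε z92 t92) (g339 : Rel ε z339 t339) (g75 : Rel ε z75 t75) (g51 : Rel ε z51 t51) (g52 : Rel ε z52 t52) (g45 : Rel ε z45 t45) (g106 : Rel ε z106 t106) (g107 : Rel ε z107 t107) (g108 : Rel ε z108 t108) (g120 : Rel ε z120 t120) (g125 : Rel ε z125 t125) (g153 : Rel ε z153 t153) (g115 : Rel ε z115 t115) (g175 : Rel ε z175 t175) :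
    a_B3 gs ps x0 x1 x2 z41 z104 z50 z57 z146 z114 z92 z339 z75 z51 z52 z45 z106 z107 z108 z120 z125 z153 z115 z175 = true → a_R3 gs ps sg v y t41 t104 t50 t57 t146 t114 t92 t339 t75 t51 t52 t45 t106 t107 t108 t120 t125 t153 t115 t175 := by
  delta a_B3 a_R3
  exact normS g175 fun z176 t176 g176 =>
  mulS hε g115 g176 fun z177 t177 g177 =>
  rsubS g120 k0 fun z122 t122 g122 =>
  sqrtS hε g122 fun z123 t123 g123 =>
  addS g177 g123 fun z178 t178 g178 =>
  normS g178 fun z190 t190 g190 =>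
  sqrS hε g190 fun z191 t191 g191 =>
  rsubS g191 k6 fun z194 t194 g194 =>
  sqrtS hε g194 fun z195 t195 g195 =>
  addS g178 g123 fun z215 t215 g215 =>
  normS g215 fun z216 t216 g216 =>
  mulS hε g176 g216 fun z217 t217 g217 =>
  normS g217 fun z218 t218 g218 =>
  addS g195 g125 fun z220 t220 g220 =>
  invS hε g220 fun z221 t221 g221 =>
  mulS hε g218 g221 fun z222 t222 g222 =>
  subS g195 g222 fun z223 t223 g223 =>
  normS g223 fun z264 t264 g264 =>
  sqrS hε g264 fun z265 t265 g265 =>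
  mulS hε g153 g265 fun z266 t266 g266 =>
  parS fun z11 t11 g11 =>
  parS fun z12 t12 g12 =>
  mulS hε g12 h0 fun z30 t30 g30 =>
  addS g11 g30 fun z31 t31 g31 =>
  parS fun z13 t13 g13 =>
  mulS hε g13 h1 fun z32 t32 g32 =>
  addS g31 g32 fun z33 t33 g33 =>
  normS g33 fun z62 t62 g62 =>
  smulS hε g50 k7 fun z53 t53 g53 =>
  subS g53 g52 fun z54 t54 g54 =>
  normS g54 fun z65 t65 g65 =>
  a_S4 gs hε ps x0 x1 x2 z41 z104 z57 z146 z114 z92 z339 z75 z51 z52 z45 z106 z107 z108 z120 z153 z175 z123 z178 z190 z191 z195 z218 z264 z266 z62 z65 sg v y t41 t104 t57 t146 t114 t92 t339 t75 t51 t52 t45 t106 t107 t108 t120 t153 t175 t123 t178 t190 t191 t195 t218 t264 t266 t62 t65 h0 h1 h2 g41 g104 g57 g146 g114 g92 g339 g75 g51 g52 g45 g106 g107 g108 g120 g153 g175 g123 g178 g190 g191 g195 g218 g264 g266 g62 g65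

def a_B2 (gs ps : ℕ) (x0 x1 x2 z3 z4 z5 z6 z41 z104 z105 z50 z57 z146 z112 z114 z92 z339 z75 z51 z52 : AF) : Bool :=
  mulK (cst 4722366736197124253286 1) z52 fun z98 =>
  addcK z98 4722366511017142884761 1 fun z99 =>
  mulK z52 z99 fun z100 =>
  rsubK z100 4722366764344621924352 0 fun z101 =>
  mulK z75 z101 fun z102 =>
  normK z102 fun z103 =>
  parK gs 13 fun z20 =>
  parK gs 14 fun z21 =>
  mulK z21 x0 fun z42 =>
  addK z20 z42 fun z43 =>
  parK gs 15 fun z22 =>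
  mulK z22 x1 fun z44 =>
  addK z43 z44 fun z45 =>
  normK z45 fun z106 =>
  sqrK z106 fun z107 =>
  rsubK z107 4722366764344621924352 0 fun z108 =>
  mulK z105 z108 fun z117 =>
  sqrK z112 fun z118 =>
  mulK z117 z118 fun z119 =>
  normK z119 fun z120 =>
  addcK z120 4722366764344621924352 0 fun z124 =>
  sqrtK z124 fun z125 =>
  invK z125 fun z150 =>
  smulK z150 4722366623607133569024 fun z151 =>
  mulK z103 z151 fun z152 =>
  normK z152 fun z153 =>
  addcK z114 4722366201394668503040 0 fun z115 =>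
  mulK z4 x0 fun z170 =>
  addK z3 z170 fun z171 =>
  mulK z5 x1 fun z172 =>
  addK z171 z172 fun z173 =>
  mulK z6 x2 fun z174 =>
  addK z173 z174 fun z175 =>
  a_B3 gs ps x0 x1 x2 z41 z104 z50 z57 z146 z114 z92 z339 z75 z51 z52 z45 z106 z107 z108 z120 z125 z153 z115 z175

def a_R2 (gs ps : ℕ) (sg v y z3 z4 z5 z6 z41 z104 z105 z50 z57 z146 z112 z114 z92 z339 z75 z51 z52 : ℝ) : Prop :=
  letR ((9 / 10 : ℝ) * z52) fun z98 =>
  letR (z98 + (1 / 10 : ℝ)) fun z99 =>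
  letR (z52 * z99) fun z100 =>
  letR ((1 : ℝ) - z100) fun z101 =>
  letR (z75 * z101) fun z102 =>
  letR z102 fun z103 =>
  letR (parV gs 13) fun z20 =>
  letR (parV gs 14) fun z21 =>
  letR (z21 * sg) fun z42 =>
  letR (z20 + z42) fun z43 =>
  letR (parV gs 15) fun z22 =>
  letR (z22 * v) fun z44 =>
  letR (z43 + z44) fun z45 =>
  letR z45 fun z106 =>
  letR (z106 ^ 2) fun z107 =>
  letR ((1 : ℝ) - z107) fun z108 =>
  letR (z105 * z108) fun z117 =>
  letR (z112 ^ 2) fun z118 =>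
  letR (z117 * z118) fun z119 =>
  letR z119 fun z120 =>
  letR (z120 + (1 : ℝ)) fun z124 =>
  letR (√z124) fun z125 =>
  invR z125 fun z150 =>
  letR ((1 / 2 : ℝ) * z150) fun z151 =>
  letR (z103 * z151) fun z152 =>
  letR z152 fun z153 =>
  letR (z114 + (-1 : ℝ)) fun z115 =>
  letR (z4 * sg) fun z170 =>
  letR (z3 + z170) fun z171 =>
  letR (z5 * v) fun z172 =>
  letR (z171 + z172) fun z173 =>
  letR (z6 * y) fun z174 =>
  letR (z173 + z174) fun z175 =>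
  a_R3 gs ps sg v y z41 z104 z50 z57 z146 z114 z92 z339 z75 z51 z52 z45 z106 z107 z108 z120 z125 z153 z115 z175

theorem a_S2 {ε : Fin 4 → ℝ} (gs : ℕ) (hε : ∀ i, |ε i| ≤ 1) (ps : ℕ) (x0 x1 x2 z3 z4 z5 z6 z41 z104 z105 z50 z57 z146 z112 z114 z92 z339 z75 z51 z52 : AF) (sg v y t3 t4 t5 t6 t41 t104 t105 t50 t57 t146 t112 t114 t92 t339 t75 t51 t52 : ℝ)
    (h0 : Rel ε x0 sg) (h1 : Rel ε x1 v) (h2 : Rel ε x2 y) (g3 : Rel ε z3 t3) (g4 : Rel ε z4 t4) (g5 : Rel ε z5 t5) (g6 : Rel ε z6 t6) (g41 : Rel ε z41 t41) (g104 : Rel ε z104 t104) (g105 : Rel ε z105 t105) (g50 : Rel ε z50 t50) (g57 : Rel ε z57 t57) (g146 : Rel ε z146 t146) (g112 : Rel ε z112 t112) (g114 : Rel ε z114 t114) (g92 : Rel ε z92 t92) (g339 : Rel ε z339 t339) (g75 : Rel ε z75 t75) (g51 : Rel ε z51 t51) (g52 : Rel ε z52 t52) :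
    a_B2 gs ps x0 x1 x2 z3 z4 z5 z6 z41 z104 z105 z50 z57 z146 z112 z114 z92 z339 z75 z51 z52 = true → a_R2 gs ps sg v y t3 t4 t5 t6 t41 t104 t105 t50 t57 t146 t112 t114 t92 t339 t75 t51 t52 := by
  delta a_B2 a_R2
  exact mulS hε (cst_rel k1) g52 fun z98 t98 g98 =>
  addcS g98 k3 fun z99 t99 g99 =>
  mulS hε g52 g99 fun z100 t100 g100 =>
  rsubS g100 k0 fun z101 t101 g101 =>
  mulS hε g75 g101 fun z102 t102 g102 =>
  normS g102 fun z103 t103 g103 =>
  parS fun z20 t20 g20 =>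
  parS fun z21 t21 g21 =>
  mulS hε g21 h0 fun z42 t42 g42 =>
  addS g20 g42 fun z43 t43 g43 =>
  parS fun z22 t22 g22 =>
  mulS hε g22 h1 fun z44 t44 g44 =>
  addS g43 g44 fun z45 t45 g45 =>
  normS g45 fun z106 t106 g106 =>
  sqrS hε g106 fun z107 t107 g107 =>
  rsubS g107 k0 fun z108 t108 g108 =>
  mulS hε g105 g108 fun z117 t117 g117 =>
  sqrS hε g112 fun z118 t118 g118 =>
  mulS hε g117 g118 fun z119 t119 g119 =>
  normS g119 fun z120 t120 g120 =>
  addcS g120 k0 fun z124 t124 g124 =>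
  sqrtS hε g124 fun z125 t125 g125 =>
  invS hε g125 fun z150 t150 g150 =>
  smulS hε g150 k4 fun z151 t151 g151 =>
  mulS hε g103 g151 fun z152 t152 g152 =>
  normS g152 fun z153 t153 g153 =>
  addcS g114 k5 fun z115 t115 g115 =>
  mulS hε g4 h0 fun z170 t170 g170 =>
  addS g3 g170 fun z171 t171 g171 =>
  mulS hε g5 h1 fun z172 t172 g172 =>
  addS g171 g172 fun z173 t173 g173 =>
  mulS hε g6 h2 fun z174 t174 g174 =>
  addS g173 g174 fun z175 t175 g175 =>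
  a_S3 gs hε ps x0 x1 x2 z41 z104 z50 z57 z146 z114 z92 z339 z75 z51 z52 z45 z106 z107 z108 z120 z125 z153 z115 z175 sg v y t41 t104 t50 t57 t146 t114 t92 t339 t75 t51 t52 t45 t106 t107 t108 t120 t125 t153 t115 t175 h0 h1 h2 g41 g104 g50 g57 g146 g114 g92 g339 g75 g51 g52 g45 g106 g107 g108 g120 g125 g153 g115 g175

def a_B1 (gs ps : ℕ) (x0 x1 x2 z3 z4 z5 z6 z41 z104 z105 z50 z56 z57 z146 z184 z112 : AF) : Bool :=
  mulK x2 z112 fun z113 =>
  normK z113 fun z114 =>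
  sqrK z114 fun z185 =>
  mulK z185 z114 fun z186 =>
  mulK z184 z186 fun z187 =>
  parK gs 3 fun z10 =>
  addcK z56 4722366511017142884761 1 fun z90 =>
  mulK z50 z90 fun z91 =>
  rsubK z91 4722366764344621924352 0 fun z92 =>
  mulK z10 z92 fun z188 =>
  addK z187 z188 fun z189 =>
  normK z189 fun z339 =>
  parK gs 7 fun z14 =>
  parK gs 8 fun z15 =>
  mulK z15 x0 fun z34 =>
  addK z14 z34 fun z35 =>
  parK gs 9 fun z16 =>
  mulK z16 x1 fun z36 =>
  addK z35 z36 fun z37 =>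
  normK z37 fun z75 =>
  sqrK x1 fun z51 =>
  mulK z50 z51 fun z52 =>
  a_B2 gs ps x0 x1 x2 z3 z4 z5 z6 z41 z104 z105 z50 z57 z146 z112 z114 z92 z339 z75 z51 z52

def a_R1 (gs ps : ℕ) (sg v y z3 z4 z5 z6 z41 z104 z105 z50 z56 z57 z146 z184 z112 : ℝ) : Prop :=
  letR (y * z112) fun z113 =>
  letR z113 fun z114 =>
  letR (z114 ^ 2) fun z185 =>
  letR (z185 * z114) fun z186 =>
  letR (z184 * z186) fun z187 =>
  letR (parV gs 3) fun z10 =>
  letR (z56 + (1 / 10 : ℝ)) fun z90 =>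
  letR (z50 * z90) fun z91 =>
  letR ((1 : ℝ) - z91) fun z92 =>
  letR (z10 * z92) fun z188 =>
  letR (z187 + z188) fun z189 =>
  letR z189 fun z339 =>
  letR (parV gs 7) fun z14 =>
  letR (parV gs 8) fun z15 =>
  letR (z15 * sg) fun z34 =>
  letR (z14 + z34) fun z35 =>
  letR (parV gs 9) fun z16 =>
  letR (z16 * v) fun z36 =>
  letR (z35 + z36) fun z37 =>
  letR z37 fun z75 =>
  letR (v ^ 2) fun z51 =>
  letR (z50 * z51) fun z52 =>
  a_R2 gs ps sg v y z3 z4 z5 z6 z41 z104 z105 z50 z57 z146 z112 z114 z92 z339 z75 z51 z52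

theorem a_S1 {ε : Fin 4 → ℝ} (gs : ℕ) (hε : ∀ i, |ε i| ≤ 1) (ps : ℕ) (x0 x1 x2 z3 z4 z5 z6 z41 z104 z105 z50 z56 z57 z146 z184 z112 : AF) (sg v y t3 t4 t5 t6 t41 t104 t105 t50 t56 t57 t146 t184 t112 : ℝ)
    (h0 : Rel ε x0 sg) (h1 : Rel ε x1 v) (h2 : Rel ε x2 y) (g3 : Rel ε z3 t3) (g4 : Rel ε z4 t4) (g5 : Rel ε z5 t5) (g6 : Rel ε z6 t6) (g41 : Rel ε z41 t41) (g104 : Rel ε z104 t104) (g105 : Rel ε z105 t105) (g50 : Rel ε z50 t50) (g56 : Rel ε z56 t56) (g57 : Rel ε z57 t57) (g146 : Rel ε z146 t146) (g184 : Rel ε z184 t184) (g112 : Rel ε z112 t112) :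
    a_B1 gs ps x0 x1 x2 z3 z4 z5 z6 z41 z104 z105 z50 z56 z57 z146 z184 z112 = true → a_R1 gs ps sg v y t3 t4 t5 t6 t41 t104 t105 t50 t56 t57 t146 t184 t112 := by
  delta a_B1 a_R1
  exact mulS hε h2 g112 fun z113 t113 g113 =>
  normS g113 fun z114 t114 g114 =>
  sqrS hε g114 fun z185 t185 g185 =>
  mulS hε g185 g114 fun z186 t186 g186 =>
  mulS hε g184 g186 fun z187 t187 g187 =>
  parS fun z10 t10 g10 =>
  addcS g56 k3 fun z90 t90 g90 =>
  mulS hε g50 g90 fun z91 t91 g91 =>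
  rsubS g91 k0 fun z92 t92 g92 =>
  mulS hε g10 g92 fun z188 t188 g188 =>
  addS g187 g188 fun z189 t189 g189 =>
  normS g189 fun z339 t339 g339 =>
  parS fun z14 t14 g14 =>
  parS fun z15 t15 g15 =>
  mulS hε g15 h0 fun z34 t34 g34 =>
  addS g14 g34 fun z35 t35 g35 =>
  parS fun z16 t16 g16 =>
  mulS hε g16 h1 fun z36 t36 g36 =>
  addS g35 g36 fun z37 t37 g37 =>
  normS g37 fun z75 t75 g75 =>
  sqrS hε h1 fun z51 t51 g51 =>
  mulS hε g50 g51 fun z52 t52 g52 =>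
  a_S2 gs hε ps x0 x1 x2 z3 z4 z5 z6 z41 z104 z105 z50 z57 z146 z112 z114 z92 z339 z75 z51 z52 sg v y t3 t4 t5 t6 t41 t104 t105 t50 t57 t146 t112 t114 t92 t339 t75 t51 t52 h0 h1 h2 g3 g4 g5 g6 g41 g104 g105 g50 g57 g146 g112 g114 g92 g339 g75 g51 g52

def a_B (gs ps : ℕ) (x0 x1 x2 x3 : AF) : Bool :=
  parK ps 0 fun z3 =>
  parK ps 1 fun z4 =>
  parK ps 2 fun z5 =>
  parK ps 3 fun z6 =>
  parK gs 2 fun z9 =>
  parK gs 10 fun z17 =>
  parK gs 11 fun z18 =>
  mulK z18 x0 fun z38 =>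
  addK z17 z38 fun z39 =>
  parK gs 12 fun z19 =>
  mulK z19 x1 fun z40 =>
  addK z39 z40 fun z41 =>
  normK z41 fun z104 =>
  sqrK z104 fun z105 =>
  rsubK z105 4722366764344621924352 0 fun z110 =>
  sqrtK z110 fun z111 =>
  mulK z111 z110 fun z144 =>
  sqrK x0 fun z50 =>
  mulK (cst 4722366736197124253286 1) z50 fun z56 =>
  rsubK z56 4722367017672100963942 1 fun z57 =>
  mulK z50 z57 fun z59 =>
  normK z59 fun z60 =>
  mulK z144 z60 fun z145 =>
  normK z145 fun z146 =>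
  mulK z9 z146 fun z184 =>
  invK z111 fun z112 =>
  a_B1 gs ps x0 x1 x2 z3 z4 z5 z6 z41 z104 z105 z50 z56 z57 z146 z184 z112

def a_R (gs ps : ℕ) (sg v y u3 : ℝ) : Prop :=
  letR (parV ps 0) fun z3 =>
  letR (parV ps 1) fun z4 =>
  letR (parV ps 2) fun z5 =>
  letR (parV ps 3) fun z6 =>
  letR (parV gs 2) fun z9 =>
  letR (parV gs 10) fun z17 =>
  letR (parV gs 11) fun z18 =>
  letR (z18 * sg) fun z38 =>
  letR (z17 + z38) fun z39 =>
  letR (parV gs 12) fun z19 =>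
  letR (z19 * v) fun z40 =>
  letR (z39 + z40) fun z41 =>
  letR z41 fun z104 =>
  letR (z104 ^ 2) fun z105 =>
  letR ((1 : ℝ) - z105) fun z110 =>
  letR (√z110) fun z111 =>
  letR (z111 * z110) fun z144 =>
  letR (sg ^ 2) fun z50 =>
  letR ((9 / 10 : ℝ) * z50) fun z56 =>
  letR ((19 / 10 : ℝ) - z56) fun z57 =>
  letR (z50 * z57) fun z59 =>
  letR z59 fun z60 =>
  letR (z144 * z60) fun z145 =>
  letR z145 fun z146 =>
  letR (z9 * z146) fun z184 =>
  invR z111 fun z112 =>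
  a_R1 gs ps sg v y z3 z4 z5 z6 z41 z104 z105 z50 z56 z57 z146 z184 z112

theorem a_S {ε : Fin 4 → ℝ} (gs : ℕ) (hε : ∀ i, |ε i| ≤ 1) (ps : ℕ) (x0 x1 x2 x3 : AF) (sg v y u3 : ℝ)
    (h0 : Rel ε x0 sg) (h1 : Rel ε x1 v) (h2 : Rel ε x2 y) (h3 : Rel ε x3 u3) :
    a_B gs ps x0 x1 x2 x3 = true → a_R gs ps sg v y u3 := by
  delta a_B a_R
  exact parS fun z3 t3 g3 =>
  parS fun z4 t4 g4 =>
  parS fun z5 t5 g5 =>
  parS fun z6 t6 g6 =>
  parS fun z9 t9 g9 =>
  parS fun z17 t17 g17 =>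
  parS fun z18 t18 g18 =>
  mulS hε g18 h0 fun z38 t38 g38 =>
  addS g17 g38 fun z39 t39 g39 =>
  parS fun z19 t19 g19 =>
  mulS hε g19 h1 fun z40 t40 g40 =>
  addS g39 g40 fun z41 t41 g41 =>
  normS g41 fun z104 t104 g104 =>
  sqrS hε g104 fun z105 t105 g105 =>
  rsubS g105 k0 fun z110 t110 g110 =>
  sqrtS hε g110 fun z111 t111 g111 =>
  mulS hε g111 g110 fun z144 t144 g144 =>
  sqrS hε h0 fun z50 t50 g50 =>
  mulS hε (cst_rel k1) g50 fun z56 t56 g56 =>
  rsubS g56 k2 fun z57 t57 g57 =>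
  mulS hε g50 g57 fun z59 t59 g59 =>
  normS g59 fun z60 t60 g60 =>
  mulS hε g144 g60 fun z145 t145 g145 =>
  normS g145 fun z146 t146 g146 =>
  mulS hε g9 g146 fun z184 t184 g184 =>
  invS hε g111 fun z112 t112 g112 =>
  a_S1 gs hε ps x0 x1 x2 z3 z4 z5 z6 z41 z104 z105 z50 z56 z57 z146 z184 z112 sg v y t3 t4 t5 t6 t41 t104 t105 t50 t56 t57 t146 t184 t112 h0 h1 h2 g3 g4 g5 g6 g41 g104 g105 g50 g56 g57 g146 g184 g112

/- obtain ⟨pa, pb, pc, pd, b, cb, w110, sb, s3, al, w56, uh, u, su, isb, n, w, K, mu1, v2, a1, W1, ga, g2, w108, k, Ac, cA, e, T, gb, tau, t2, A, jj, d0, mu0, a0, w66, W0, cL, d1, rk, M0c, cM0, rt, M0, rj, e0, M1c, cM1, M1, e1, PhN, cf, iu, ex, LB, E, G, x, xt, s0, s0c, z0, A0, Bc, cW1, s1, s1c, z1, rg, N1c, cP0, rG, w210, xr, p0, p0c, y0, N0c, cP1, p1, p1c, y1, PhF, Phi, Q, PsN, PsF, Psi, h_b, h_cb, h_w110, h_sb, h_s3, h_al, h_w56, h_uh, h_u, h_su, p_isb, h_isb, h_n, h_w, h_K, h_mu1, h_v2, h_a1,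 h_W1, h_ga, h_g2, h_w108, h_k, h_Ac, p_Ac, h_cA, h_e, h_T, h_gb, h_tau, h_t2, h_A, h_jj, p_33, h_d0, h_mu0, h_a0, h_w66, h_W0, p_gb, h_cL, h_d1, h_rk, h_M0c, p_M0c, h_cM0, h_rt, h_M0, h_rj, p_49, h_e0, h_M1c, p_M1c, h_cM1, h_M1, p_55, h_e1, h_PhN, p_b, h_cf, p_iu, h_iu, h_ex, p_63, h_LB, h_E, h_G, h_x, h_xt, h_s0, h_s0c, p_71, h_z0, h_A0, h_Bc, p_Bc, h_cW1, h_s1, h_s1c, p_79, h_z1, h_rg, h_N1c, p_N1c, h_cP0, h_rG, h_w210, h_xr, h_p0, h_p0c, p_90, h_y0, h_N0c, p_N0c, h_cP1, h_p1, h_p1c, p_97, h_y1, h_PhF, h_Phi, p_A, p_tau, h_Q, p_M0, p_M1, h_PsN, p_s0, p_s1, p_p0, p_p1, h_PsF, h_Psi, c0⟩ := h -/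
def a_Spec (rho l4 ku kw ma0 ma1 ma2 mb0 mb1 mb2 bq0 bq1 bq2 gq0 gq1 gq2 xq0 xq1 xq2 am0 am1 bm0 bm1 sg v y : ℝ) : Prop :=
  ∃ pa pb pc pd b cb w110 sb s3 al w56 uh u su isb n w K mu1 v2 a1 W1 ga g2 w108 k Ac cA e T gb tau t2 A jj d0 mu0 a0 w66 W0 cL d1 rk M0c cM0 rt M0 rj e0 M1c cM1 M1 e1 PhN cf iu ex LB E G x xt s0 s0c z0 A0 Bc cW1 s1 s1c z1 rg N1c cP0 rG w210 xr p0 p0c y0 N0c cP1 p1 p1c y1 PhF Phi Q PsN PsF Psi : ℝ,
    b = ((bq0 + (bq1 * sg)) + (bq2 * v)) ∧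
    cb = (b ^ 2) ∧
    w110 = ((1 : ℝ) - cb) ∧
    sb = (√w110) ∧
    s3 = (sb * w110) ∧
    al = (sg ^ 2) ∧
    w56 = ((9 / 10 : ℝ) * al) ∧
    uh = ((19 / 10 : ℝ) - w56) ∧
    u = (al * uh) ∧
    su = (s3 * u) ∧
    0 < sb ∧
    isb = (sb⁻¹) ∧
    n = (y * isb) ∧
    w = ((1 : ℝ) - (al * (w56 + (1 / 10 : ℝ)))) ∧
    K = (((ku * su) * ((n ^ 2) * n)) + (kw * w)) ∧
    mu1 = ((mb0 + (mb1 * sg)) + (mb2 * v)) ∧
    v2 = (v ^ 2) ∧
    a1 = (al * v2) ∧
    W1 = (mu1 * ((1 : ℝ) - (a1 * (((9 / 10 : ℝ) * a1) + (1 / 10 : ℝ))))) ∧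
    ga = ((gq0 + (gq1 * sg)) + (gq2 * v)) ∧
    g2 = (ga ^ 2) ∧
    w108 = ((1 : ℝ) - g2) ∧
    k = ((cb * w108) * (isb ^ 2)) ∧
    Ac = (√(k + (1 : ℝ))) ∧
    0 < Ac ∧
    cA = (W1 * ((1 / 2 : ℝ) * (Ac⁻¹))) ∧
    e = (n + (-1 : ℝ)) ∧
    T = (((pa + (pb * sg)) + (pc * v)) + (pd * y)) ∧
    gb = (√((1 : ℝ) - k)) ∧
    tau = ((e * T) + gb) ∧
    t2 = (tau ^ 2) ∧
    A = (√((2 : ℝ) - t2)) ∧
    jj = (T * (tau + gb)) ∧
    0 < (A + Ac) ∧
    d0 = (A - (jj * ((A + Ac)⁻¹))) ∧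
    mu0 = ((ma0 + (ma1 * sg)) + (ma2 * v)) ∧
    a0 = (((2 : ℝ) * al) - a1) ∧
    w66 = ((9 / 10 : ℝ) * a0) ∧
    W0 = (mu0 * ((1 : ℝ) - (a0 * (w66 + (1 / 10 : ℝ))))) ∧
    0 < gb ∧
    cL = (W0 * ((1 / 2 : ℝ) * (gb⁻¹))) ∧
    d1 = (tau + T) ∧
    rk = (rho * k) ∧
    M0c = (√(rk + (1 : ℝ))) ∧
    0 < M0c ∧
    cM0 = ((1 / 2 : ℝ) * (M0c⁻¹)) ∧
    rt = (rho * ((1 : ℝ) - t2)) ∧
    M0 = (√(rt + (1 : ℝ))) ∧
    rj = (rho * jj) ∧
    0 < (M0 + M0c) ∧
    e0 = (M0 - (rj * ((M0 + M0c)⁻¹))) ∧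
    M1c = (√((1 : ℝ) - rk)) ∧
    0 < M1c ∧
    cM1 = ((1 / 2 : ℝ) * (M1c⁻¹)) ∧
    M1 = (√((1 : ℝ) - rt)) ∧
    0 < (M1 + M1c) ∧
    e1 = (M1 + (rj * ((M1 + M1c)⁻¹))) ∧
    PhN = (((cA * (d0 ^ 2)) + (cL * (d1 ^ 2))) - (w * ((cM0 * (e0 ^ 2)) + (cM1 * (e1 ^ 2))))) ∧
    0 < b ∧
    cf = (su * (b⁻¹)) ∧
    0 < uh ∧
    iu = (uh⁻¹) ∧
    ex = ((xq0 + (xq1 * sg)) + (xq2 * v)) ∧
    0 < (ga + l4) ∧
    LB = ((((mu1 * (v * (v + l4))) * (((19 / 20 : ℝ) - ((9 / 20 : ℝ) * a1)) * iu)) + ex) * ((ga + l4)⁻¹)) ∧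
    E = (n + (1 : ℝ)) ∧
    G = (d1 * ((n * tau) + gb)) ∧
    x = (y ^ 2) ∧
    xt = (x * t2) ∧
    s0 = (√((xt - ((2 : ℝ) * x)) + (1 : ℝ))) ∧
    s0c = (b * ga) ∧
    0 < (s0 + s0c) ∧
    z0 = ((((2 : ℝ) * E) - G) * ((s0 + s0c)⁻¹)) ∧
    A0 = ((mu0 * ((2 : ℝ) - v2)) * (((19 / 10 : ℝ) - w66) * iu)) ∧
    Bc = (√((2 : ℝ) - g2)) ∧
    0 < Bc ∧
    cW1 = (A0 * ((1 / 2 : ℝ) * (Bc⁻¹))) ∧
    s1 = (√((1 : ℝ) - xt)) ∧
    s1c = (b * Bc) ∧
    0 < (s1 + s1c) ∧
    z1 = (G * ((s1 + s1c)⁻¹)) ∧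
    rg = (rho * w108) ∧
    N1c = (√((1 : ℝ) - rg)) ∧
    0 < N1c ∧
    cP0 = ((1 / 2 : ℝ) * (N1c⁻¹)) ∧
    rG = (rho * (E - G)) ∧
    w210 = ((1 : ℝ) - x) ∧
    xr = (x * rt) ∧
    p0 = (√(w210 - xr)) ∧
    p0c = (b * N1c) ∧
    0 < (p0 + p0c) ∧
    y0 = ((E + rG) * ((p0 + p0c)⁻¹)) ∧
    N0c = (√(rg + (1 : ℝ))) ∧
    0 < N0c ∧
    cP1 = ((1 / 2 : ℝ) * (N0c⁻¹)) ∧
    p1 = (√(w210 + xr)) ∧
    p1c = (b * N0c) ∧
    0 < (p1 + p1c) ∧
    y1 = ((E - rG) * ((p1 + p1c)⁻¹)) ∧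
    PhF = (((LB * (z0 ^ 2)) + (cW1 * (z1 ^ 2))) - ((cP0 * (y0 ^ 2)) + (cP1 * (y1 ^ 2)))) ∧
    Phi = (PhN + (cf * PhF)) ∧
    0 < A ∧
    0 < tau ∧
    Q = (d1 * (tau⁻¹)) ∧
    0 < M0 ∧
    0 < M1 ∧
    PsN = (((cA * (d0 * (A⁻¹))) - (cL * Q)) - (w * (rho * ((cM0 * (e0 * (M0⁻¹))) - (cM1 * (e1 * (M1⁻¹))))))) ∧
    0 < s0 ∧
    0 < s1 ∧
    0 < p0 ∧
    0 < p1 ∧
    PsF = (((LB * (z0 * (s0⁻¹))) - (cW1 * (z1 * (s1⁻¹)))) - (rho * ((cP0 * (y0 * (p0⁻¹))) - (cP1 * (y1 * (p1⁻¹)))))) ∧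
    Psi = (PsN + ((n * cf) * PsF)) ∧
    0 ≤ ((K * Phi) - ((2 : ℝ) * (n * (Psi ^ 2))))

theorem a_E {gs ps : ℕ} {sg v y u3 : ℝ} (h : a_R gs ps sg v y u3) : a_Spec (parV gs 0) (parV gs 1) (parV gs 2) (parV gs 3) (parV gs 4) (parV gs 5) (parV gs 6) (parV gs 7) (parV gs 8) (parV gs 9) (parV gs 10) (parV gs 11) (parV gs 12) (parV gs 13) (parV gs 14) (parV gs 15) (parV gs 16) (parV gs 17) (parV gs 18) (parV gs 19) (parV gs 20) (parV gs 21) (parV gs 22) sg v y := by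
  delta a_R at h
  exact letR_ex h fun pa _ h =>
  letR_ex h fun pb _ h =>
  letR_ex h fun pc _ h =>
  letR_ex h fun pd _ h =>
  letR_in h fun h =>
  letR_in h fun h =>
  letR_in h fun h =>
  letR_in h fun h =>
  letR_in h fun h =>
  letR_in h fun h =>
  letR_in h fun h =>
  letR_ex h fun b q1 h =>
  letR_in h fun h =>
  letR_ex h fun cb q2 h =>
  letR_ex h fun w110 q3 h =>
  letR_ex h fun sb q4 h =>
  letR_ex h fun s3 q5 h =>
  letR_ex h fun al q6 h =>
  letR_ex h fun w56 q7 h =>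
  letR_ex h fun uh q8 h =>
  letR_in h fun h =>
  letR_ex h fun u q9 h =>
  letR_in h fun h =>
  letR_ex h fun su q10 h =>
  letR_in h fun h =>
  invR_ex h fun q11 h =>
  letR_ex h fun isb q12 h =>
  (by delta a_R1 at h; exact
  letR_in h fun h =>
  letR_ex h fun n q13 h =>
  letR_in h fun h =>
  letR_in h fun h =>
  letR_in h fun h =>
  letR_in h fun h =>
  letR_in h fun h =>
  letR_in h fun h =>
  letR_ex h fun w q14 h =>
  letR_in h fun h =>
  letR_ex h fun K q15 h =>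
  letR_in h fun h =>
  letR_in h fun h =>
  letR_in h fun h =>
  letR_in h fun h =>
  letR_in h fun h =>
  letR_in h fun h =>
  letR_in h fun h =>
  letR_ex h fun mu1 q16 h =>
  letR_in h fun h =>
  letR_ex h fun v2 q17 h =>
  letR_ex h fun a1 q18 h =>
  (by delta a_R2 at h; exact
  letR_in h fun h =>
  letR_in h fun h =>
  letR_in h fun h =>
  letR_in h fun h =>
  letR_in h fun h =>
  letR_ex h fun W1 q19 h =>
  letR_in h fun h =>
  letR_in h fun h =>
  letR_in h fun h =>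
  letR_in h fun h =>
  letR_in h fun h =>
  letR_in h fun h =>
  letR_ex h fun ga q20 h =>
  letR_in h fun h =>
  letR_ex h fun g2 q21 h =>
  letR_ex h fun w108 q22 h =>
  letR_in h fun h =>
  letR_in h fun h =>
  letR_in h fun h =>
  letR_ex h fun k q23 h =>
  letR_in h fun h =>
  letR_ex h fun Ac q24 h =>
  invR_ex h fun q25 h =>
  letR_in h fun h =>
  letR_in h fun h =>
  letR_in h fun h =>
  letR_ex h fun cA q26 h =>
  letR_ex h fun e q27 h =>
  letR_in h fun h =>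
  letR_in h fun h =>
  letR_in h fun h =>
  letR_in h fun h =>
  letR_in h fun h =>
  letR_ex h fun T q28 h =>
  (by delta a_R3 at h; exact
  letR_in h fun h =>
  letR_in h fun h =>
  letR_in h fun h =>
  letR_ex h fun gb q29 h =>
  letR_ex h fun tau q30 h =>
  letR_in h fun h =>
  letR_ex h fun t2 q31 h =>
  letR_in h fun h =>
  letR_ex h fun A q32 h =>
  letR_in h fun h =>
  letR_in h fun h =>
  letR_in h fun h =>
  letR_ex h fun jj q33 h =>
  letR_in h fun h =>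
  invR_ex h fun q34 h =>
  letR_in h fun h =>
  letR_in h fun h =>
  letR_ex h fun d0 q35 h =>
  letR_in h fun h =>
  letR_in h fun h =>
  letR_in h fun h =>
  letR_in h fun h =>
  letR_in h fun h =>
  letR_in h fun h =>
  letR_in h fun h =>
  letR_in h fun h =>
  letR_in h fun h =>
  letR_ex h fun mu0 q36 h =>
  letR_in h fun h =>
  letR_in h fun h =>
  letR_ex h fun a0 q37 h =>
  letR_in h fun h =>
  (by delta a_R4 at h; exact
  letR_ex h fun w66 q38 h =>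
  letR_in h fun h =>
  letR_in h fun h =>
  letR_in h fun h =>
  letR_in h fun h =>
  letR_ex h fun W0 q39 h =>
  invR_ex h fun q40 h =>
  letR_in h fun h =>
  letR_in h fun h =>
  letR_in h fun h =>
  letR_ex h fun cL q41 h =>
  letR_ex h fun d1 q42 h =>
  letR_in h fun h =>
  letR_in h fun h =>
  letR_in h fun h =>
  letR_in h fun h =>
  letR_in h fun h =>
  letR_ex h fun rk q43 h =>
  letR_in h fun h =>
  letR_ex h fun M0c q44 h =>
  invR_ex h fun q45 h =>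
  letR_in h fun h =>
  letR_ex h fun cM0 q46 h =>
  letR_in h fun h =>
  letR_ex h fun rt q47 h =>
  letR_in h fun h =>
  letR_ex h fun M0 q48 h =>
  letR_ex h fun rj q49 h =>
  letR_in h fun h =>
  invR_ex h fun q50 h =>
  letR_in h fun h =>
  letR_in h fun h =>
  letR_ex h fun e0 q51 h =>
  letR_in h fun h =>
  (by delta a_R5 at h; exact
  letR_in h fun h =>
  letR_in h fun h =>
  letR_in h fun h =>
  letR_ex h fun M1c q52 h =>
  invR_ex h fun q53 h =>
  letR_in h fun h =>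
  letR_ex h fun cM1 q54 h =>
  letR_in h fun h =>
  letR_ex h fun M1 q55 h =>
  letR_in h fun h =>
  invR_ex h fun q56 h =>
  letR_in h fun h =>
  letR_in h fun h =>
  letR_ex h fun e1 q57 h =>
  letR_in h fun h =>
  letR_in h fun h =>
  letR_in h fun h =>
  letR_in h fun h =>
  letR_in h fun h =>
  letR_in h fun h =>
  letR_ex h fun PhN q58 h =>
  invR_ex h fun q59 h =>
  letR_in h fun h =>
  letR_in h fun h =>
  letR_ex h fun cf q60 h =>
  letR_in h fun h =>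
  letR_in h fun h =>
  letR_in h fun h =>
  letR_in h fun h =>
  letR_in h fun h =>
  letR_in h fun h =>
  letR_in h fun h =>
  letR_in h fun h =>
  invR_ex h fun q61 h =>
  letR_ex h fun iu q62 h =>
  letR_in h fun h =>
  letR_in h fun h =>
  letR_in h fun h =>
  (by delta a_R6 at h; exact
  letR_in h fun h =>
  letR_in h fun h =>
  letR_in h fun h =>
  letR_in h fun h =>
  letR_in h fun h =>
  letR_in h fun h =>
  letR_ex h fun ex q63 h =>
  letR_in h fun h =>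
  letR_in h fun h =>
  letR_in h fun h =>
  invR_ex h fun q64 h =>
  letR_in h fun h =>
  letR_in h fun h =>
  letR_ex h fun LB q65 h =>
  letR_ex h fun E q66 h =>
  letR_in h fun h =>
  letR_in h fun h =>
  letR_in h fun h =>
  letR_in h fun h =>
  letR_in h fun h =>
  letR_ex h fun G q67 h =>
  letR_in h fun h =>
  letR_in h fun h =>
  letR_ex h fun x q68 h =>
  letR_in h fun h =>
  letR_ex h fun xt q69 h =>
  letR_in h fun h =>
  letR_in h fun h =>
  letR_in h fun h =>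
  letR_ex h fun s0 q70 h =>
  letR_in h fun h =>
  letR_ex h fun s0c q71 h =>
  letR_in h fun h =>
  invR_ex h fun q72 h =>
  letR_in h fun h =>
  letR_in h fun h =>
  (by delta a_R7 at h; exact
  letR_ex h fun z0 q73 h =>
  letR_in h fun h =>
  letR_in h fun h =>
  letR_in h fun h =>
  letR_in h fun h =>
  letR_in h fun h =>
  letR_in h fun h =>
  letR_in h fun h =>
  letR_in h fun h =>
  letR_in h fun h =>
  letR_ex h fun A0 q74 h =>
  letR_in h fun h =>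
  letR_ex h fun Bc q75 h =>
  invR_ex h fun q76 h =>
  letR_in h fun h =>
  letR_in h fun h =>
  letR_in h fun h =>
  letR_ex h fun cW1 q77 h =>
  letR_in h fun h =>
  letR_ex h fun s1 q78 h =>
  letR_in h fun h =>
  letR_ex h fun s1c q79 h =>
  letR_in h fun h =>
  invR_ex h fun q80 h =>
  letR_in h fun h =>
  letR_in h fun h =>
  letR_ex h fun z1 q81 h =>
  letR_in h fun h =>
  letR_in h fun h =>
  letR_in h fun h =>
  letR_ex h fun rg q82 h =>
  (by delta a_R8 at h; exact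
  letR_in h fun h =>
  letR_ex h fun N1c q83 h =>
  invR_ex h fun q84 h =>
  letR_in h fun h =>
  letR_ex h fun cP0 q85 h =>
  letR_in h fun h =>
  letR_in h fun h =>
  letR_ex h fun rG q86 h =>
  letR_in h fun h =>
  letR_in h fun h =>
  letR_ex h fun w210 q87 h =>
  letR_in h fun h =>
  letR_ex h fun xr q88 h =>
  letR_in h fun h =>
  letR_ex h fun p0 q89 h =>
  letR_in h fun h =>
  letR_ex h fun p0c q90 h =>
  letR_in h fun h =>
  invR_ex h fun q91 h =>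
  letR_in h fun h =>
  letR_in h fun h =>
  letR_ex h fun y0 q92 h =>
  letR_in h fun h =>
  letR_in h fun h =>
  letR_in h fun h =>
  letR_ex h fun N0c q93 h =>
  invR_ex h fun q94 h =>
  letR_in h fun h =>
  letR_ex h fun cP1 q95 h =>
  letR_in h fun h =>
  letR_in h fun h =>
  letR_in h fun h =>
  letR_ex h fun p1 q96 h =>
  letR_in h fun h =>
  letR_ex h fun p1c q97 h =>
  letR_in h fun h =>
  invR_ex h fun q98 h =>
  letR_in h fun h =>
  letR_in h fun h =>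
  letR_ex h fun y1 q99 h =>
  letR_in h fun h =>
  letR_in h fun h =>
  letR_in h fun h =>
  letR_ex h fun PhF q100 h =>
  (by delta a_R9 at h; exact
  letR_in h fun h =>
  letR_in h fun h =>
  letR_ex h fun Phi q101 h =>
  letR_in h fun h =>
  letR_in h fun h =>
  invR_ex h fun q102 h =>
  letR_in h fun h =>
  letR_in h fun h =>
  letR_in h fun h =>
  letR_in h fun h =>
  invR_ex h fun q103 h =>
  letR_in h fun h =>
  letR_in h fun h =>
  letR_ex h fun Q q104 h =>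
  letR_in h fun h =>
  letR_in h fun h =>
  invR_ex h fun q105 h =>
  letR_in h fun h =>
  letR_in h fun h =>
  letR_in h fun h =>
  letR_in h fun h =>
  invR_ex h fun q106 h =>
  letR_in h fun h =>
  letR_in h fun h =>
  letR_in h fun h =>
  letR_in h fun h =>
  letR_in h fun h =>
  letR_in h fun h =>
  letR_in h fun h =>
  letR_in h fun h =>
  letR_ex h fun PsN q107 h =>
  letR_in h fun h =>
  letR_in h fun h =>
  invR_ex h fun q108 h =>
  letR_in h fun h =>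
  letR_in h fun h =>
  letR_in h fun h =>
  letR_in h fun h =>
  invR_ex h fun q109 h =>
  letR_in h fun h =>
  letR_in h fun h =>
  letR_in h fun h =>
  letR_in h fun h =>
  letR_in h fun h =>
  invR_ex h fun q110 h =>
  letR_in h fun h =>
  letR_in h fun h =>
  (by delta a_R10 at h; exact
  letR_in h fun h =>
  letR_in h fun h =>
  invR_ex h fun q111 h =>
  letR_in h fun h =>
  letR_in h fun h =>
  letR_in h fun h =>
  letR_in h fun h =>
  letR_in h fun h =>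
  letR_in h fun h =>
  letR_in h fun h =>
  letR_ex h fun PsF q112 h =>
  letR_in h fun h =>
  letR_in h fun h =>
  letR_ex h fun Psi q113 h =>
  letR_in h fun h =>
  letR_in h fun h =>
  letR_in h fun h =>
  letR_in h fun h =>
  letR_in h fun h =>
  posR_ex h fun q114 h =>
  ⟨pa, pb, pc, pd, b, cb, w110, sb, s3, al, w56, uh, u, su, isb, n, w, K, mu1, v2, a1, W1, ga, g2, w108, k, Ac, cA, e, T, gb, tau, t2, A, jj, d0, mu0, a0, w66, W0, cL, d1, rk, M0c, cM0, rt, M0, rj, e0, M1c, cM1, M1, e1, PhN, cf, iu, ex, LB, E, G, x, xt, s0, s0c, z0, A0, Bc, cW1, s1, s1c, z1, rg, N1c, cP0, rG, w210, xr, p0, p0c, y0, N0c, cP1, p1, p1c, y1, PhF, Phi, Q, PsN, PsF, Psi, q1, q2, q3, q4, q5, q6, q7, q8, q9, q10, q11, q12, q13, q14, q15, q16, q17, q18, q19, q20, q21, q22, q23, q24, q25, q26, q27, q28, q29, q30, q31, q32, q33, q34, q35, q36, q37, q38, q39, q40, q41, q42, q43, q44, q45, q46, q47, q48, q49, q50, q51, q52, q53, q54,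 q55, q56, q57, q58, q59, q60, q61, q62, q63, q64, q65, q66, q67, q68, q69, q70, q71, q72, q73, q74, q75, q76, q77, q78, q79, q80, q81, q82, q83, q84, q85, q86, q87, q88, q89, q90, q91, q92, q93, q94, q95, q96, q97, q98, q99, q100, q101, q102, q103, q104, q105, q106, q107, q108, q109, q110, q111, q112, q113, q114⟩))))))))))

theorem k10 : |2 ^ 48 * (-257 / 1024 : ℝ) - (((4722366412226023129088 : ℕ) : ℝ) - 2 ^ 72)| ≤ ((0 : ℕ) : ℝ) := by norm_num [abs_le]
def d_B (gs ps : ℕ) (x0 x1 x2 x3 : AF) : Bool :=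
  sqrK x0 fun z26 =>
  sqrK x1 fun z27 =>
  rsubK z27 4722366764344621924352 0 fun z28 =>
  mulK z26 z28 fun z29 =>
  addcK z29 4722366412226023129088 0 fun z30 =>
  posK z30 <|
  true

def d_R (gs ps : ℕ) (sg v y u3 : ℝ) : Prop :=
  letR (sg ^ 2) fun z26 =>
  letR (v ^ 2) fun z27 =>
  letR ((1 : ℝ) - z27) fun z28 =>
  letR (z26 * z28) fun z29 =>
  letR (z29 + (-257 / 1024 : ℝ)) fun z30 =>
  posR z30 <|
  True

theorem d_S {ε : Fin 4 → ℝ} (gs : ℕ) (hε : ∀ i, |ε i| ≤ 1) (ps : ℕ) (x0 x1 x2 x3 : AF) (sg v y u3 : ℝ)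
    (h0 : Rel ε x0 sg) (h1 : Rel ε x1 v) (h2 : Rel ε x2 y) (h3 : Rel ε x3 u3) :
    d_B gs ps x0 x1 x2 x3 = true → d_R gs ps sg v y u3 := by
  delta d_B d_R
  exact sqrS hε h0 fun z26 t26 g26 =>
  sqrS hε h1 fun z27 t27 g27 =>
  rsubS g27 k0 fun z28 t28 g28 =>
  mulS hε g26 g28 fun z29 t29 g29 =>
  addcS g29 k10 fun z30 t30 g30 =>
  posS hε g30 <|
  fun _ => trivial

/- obtain ⟨c0⟩ := h -/
def d_Spec (rho l4 ku kw ma0 ma1 ma2 mb0 mb1 mb2 bq0 bq1 bq2 gq0 gq1 gq2 xq0 xq1 xq2 am0 am1 bm0 bm1 sg v y : ℝ) : Prop :=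
  0 ≤ (((sg ^ 2) * ((1 : ℝ) - (v ^ 2))) + (-257 / 1024 : ℝ))

theorem d_E {gs ps : ℕ} {sg v y u3 : ℝ} (h : d_R gs ps sg v y u3) : d_Spec (parV gs 0) (parV gs 1) (parV gs 2) (parV gs 3) (parV gs 4) (parV gs 5) (parV gs 6) (parV gs 7) (parV gs 8) (parV gs 9) (parV gs 10) (parV gs 11) (parV gs 12) (parV gs 13) (parV gs 14) (parV gs 15) (parV gs 16) (parV gs 17) (parV gs 18) (parV gs 19) (parV gs 20) (parV gs 21) (parV gs 22) sg v y := by
  delta d_R at h
  exact letR_in h fun h =>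
  letR_in h fun h =>
  letR_in h fun h =>
  letR_in h fun h =>
  letR_in h fun h =>
  posR_ex h fun q1 h =>
  q1

def PB (gs : ℕ) : Prog := fun j ps x0 x1 x2 x3 =>
  Nat.rec (motive := fun _ => Bool) (a_B gs ps x0 x1 x2 x3) (fun j _ => d_B gs ps x0 x1 x2 x3) j

def PR (gs : ℕ) : ℕ → ℕ → ℝ → ℝ → ℝ → ℝ → Prop := fun j ps sg v y u3 =>
  Nat.rec (motive := fun _ => Prop) (a_R gs ps sg v y u3) (fun j _ => d_R gs ps sg v y u3) j

theorem PS (gs : ℕ) : Sound (PB gs) (PR gs) := fun _ hε j => match j with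
  | 0 => a_S gs hε
  | _ + 1 => d_S gs hε

theorem PE {j gs ps : ℕ} {sg v y u3 : ℝ} : PR gs j ps sg v y u3 → a_Spec (parV gs 0) (parV gs 1) (parV gs 2) (parV gs 3) (parV gs 4) (parV gs 5) (parV gs 6) (parV gs 7) (parV gs 8) (parV gs 9) (parV gs 10) (parV gs 11) (parV gs 12) (parV gs 13) (parV gs 14) (parV gs 15) (parV gs 16) (parV gs 17) (parV gs 18) (parV gs 19) (parV gs 20) (parV gs 21) (parV gs 22) sg v y ∨ d_Spec (parV gs 0) (parV gs 1) (parV gs 2) (parV gs 3) (parV gs 4) (parV gs 5) (parV gs 6) (parV gs 7) (parV gs 8) (parV gs 9) (parV gs 10) (parV gs 11) (parV gs 12) (parV gs 13) (parV gs 14) (parV gs 15) (parV gs 16) (parV gs 17) (parV gs 18) (parV gs 19) (parV gs 20) (parV gs 21) (parV gs 22) sg v y := match j with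
  | 0 => fun h => Or.inl (@a_E gs ps sg v y u3 h)
  | _ + 1 => fun h => Or.inr (@d_E gs ps sg v y u3 h)

theorem of_good {gs l0 h0 l1 h1 l2 h2 l3 h3 : ℕ} (h : Good (PR gs) l0 h0 l1 h1 l2 h2 l3 h3) {sg v y u3 : ℝ}
    (hb : InBox l0 h0 l1 h1 l2 h2 l3 h3 sg v y u3) : a_Spec (parV gs 0) (parV gs 1) (parV gs 2) (parV gs 3) (parV gs 4) (parV gs 5) (parV gs 6) (parV gs 7) (parV gs 8) (parV gs 9) (parV gs 10) (parV gs 11) (parV gs 12) (parV gs 13) (parV gs 14) (parV gs 15) (parV gs 16) (parV gs 17) (parV gs 18) (parV gs 19) (parV gs 20) (parV gs 21) (parV gs 22) sg v y ∨ d_Spec (parV gs 0) (parV gs 1) (parV gs 2) (parV gs 3) (parV gs 4) (parV gs 5) (parV gs 6) (parV gs 7) (parV gs 8) (parV gs 9) (parV gs 10) (parV gs 11) (parV gs 12) (parV gs 13) (parV gs 14) (parV gs 15) (parV gs 16) (parV gs 17) (parV gs 18) (parV gs 19) (parV gs 20) (parV gs 21) (parV gs 22) sg v y := by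
  obtain ⟨j, ps, h⟩ := h sg v y u3 hb
  exact PE h

def l0 : Tree := Tree.leaf 0
def l1 : Tree := Tree.leaf 1

end

end Crest.Agent.R307.BT
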