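import Crest.Agent.R307.B.BDefs
import Crest.Agent.R307.B.BTP

/-! Row 307, regime `δ ≥ 5/8 α`: the chart `x = (a0 + a1) / 2 = 1 - y²`. -/

set_option autoImplicit false
set_option linter.unusedVariables false

namespace Crest.Agent.R307

/-- both square roots scaled by `β` -/
theorem BTm_near {a c β n e S Sc d : ℝ} (hβ : 0 < β) (hn : 0 ≤ n) (hS : 0 < S) (hSc : 0 < Sc) (ha : a = (β * n) ^ 2 * S ^ 2)
    (hc : c = β ^ 2 * Sc ^ 2) (hd : n * S - Sc = e * d) :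
    Bg a c = e ^ 2 * β * (1 / 2 * Sc⁻¹ * d ^ 2) ∧ (0 < n → n * β * Bg' a c = e * (1 / 2 * Sc⁻¹ * (d * S⁻¹))) := by
  have ha' : a = (β * n * S) ^ 2 := by rw [ha]; ring
  have hc' : c = (β * Sc) ^ 2 := by rw [hc]; ring
  constructor
  · rw [B_Bg (by positivity) (by positivity) ha' hc', show β * n * S - β * Sc = β * (e * d) by rw [← hd]; ring]
    field_simp
  · intro h
    rw [B_Bg' (by positivity) (by positivity) ha' hc']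
    field_simp
    linear_combination hd

/-- absolute form -/
theorem BTm_far {a c b s Sc q z : ℝ} (hb : 0 < b) (hs : 0 < s) (hSc : 0 < Sc) (ha : a = s ^ 2) (hc : c = (b * Sc) ^ 2)
    (hz : b * Sc - s = q * z) :
    Bg a c = q ^ 2 * b⁻¹ * (1 / 2 * Sc⁻¹ * z ^ 2) ∧ Bg' a c = -(q * b⁻¹ * (1 / 2 * Sc⁻¹ * (z * s⁻¹))) := by
  constructor
  · rw [B_Bg hs.le (by positivity) ha hc, show s - b * Sc = -(q * z) by rw [← hz]; ring]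
    field_simp
  · rw [B_Bg' hs.le (by positivity) ha hc]
    field_simp
    linear_combination -hz


theorem BT_main {rho l4 ku kw ma0 ma1 ma2 mb0 mb1 mb2 bq0 bq1 bq2 gq0 gq1 gq2 xq0 xq1 xq2 am0 am1 bm0 bm1 σ v y : ℝ} (hp : PtB σ v) (hy : 0 ≤ y)
    (S : SideB rho l4 ku kw (af3 ma0 ma1 ma2 σ v) (af3 mb0 mb1 mb2 σ v) (af3 bq0 bq1 bq2 σ v) (af3 gq0 gq1 gq2 σ v) (af3 xq0 xq1 xq2 σ v) σ v)
    (h : BT.a_Spec rho l4 ku kw ma0 ma1 ma2 mb0 mb1 mb2 bq0 bq1 bq2 gq0 gq1 gq2 xq0 xq1 xq2 am0 am1 bm0 bm1 σ v y)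
    {b0 b1 : ℝ} (hb00 : 0 ≤ b0) (hb01 : b0 ≤ 1) (hb10 : 0 ≤ b1) (hb11 : b1 ≤ 1) (hb : b0 + b1 = 2 * (1 - y ^ 2)) :
    0 ≤ FBb rho (af3 ma0 ma1 ma2 σ v) (af3 mb0 mb1 mb2 σ v) (af3 bq0 bq1 bq2 σ v) (af3 gq0 gq1 gq2 σ v)
      (LBv (af3 mb0 mb1 mb2 σ v) (af3 xq0 xq1 xq2 σ v) (af3 gq0 gq1 gq2 σ v) l4 σ v) σ v b0 b1 := by
  obtain ⟨pa, pb, pc, pd, b, cb, w110, sb, s3, al, h⟩ := h
  obtain ⟨w56, uh, u, su, isb, n, w, K, mu1, v2, h⟩ := h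
  obtain ⟨a1, W1, ga, g2, w108, k, Ac, cA, e, T, h⟩ := h
  obtain ⟨gb, tau, t2, A, jj, d0, mu0, a0, w66, W0, h⟩ := h
  obtain ⟨cL, d1, rk, M0c, cM0, rt, M0, rj, e0, M1c, h⟩ := h
  obtain ⟨cM1, M1, e1, PhN, cf, iu, ex, LB, E, G, h⟩ := h
  obtain ⟨x, xt, s0, s0c, z0, A0, Bc, cW1, s1, s1c, h⟩ := h
  obtain ⟨z1, rg, N1c, cP0, rG, w210, xr, p0, p0c, y0, h⟩ := h
  obtain ⟨N0c, cP1, p1, p1c, y1, PhF, Phi, Q, PsN, PsF, h⟩ := h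
  obtain ⟨Psi, h_b, h_cb, h_w110, h_sb, h_s3, h_al, h_w56, h_uh, h_u, h⟩ := h
  obtain ⟨h_su, p_isb, h_isb, h_n, h_w, h_K, h_mu1, h_v2, h_a1, h_W1, h⟩ := h
  obtain ⟨h_ga, h_g2, h_w108, h_k, h_Ac, p_Ac, h_cA, h_e, h_T, h_gb, h⟩ := h
  obtain ⟨h_tau, h_t2, h_A, h_jj, p_33, h_d0, h_mu0, h_a0, h_w66, h_W0, h⟩ := h
  obtain ⟨p_gb, h_cL, h_d1, h_rk, h_M0c, p_M0c, h_cM0, h_rt, h_M0, h_rj, h⟩ := h
  obtain ⟨p_49, h_e0, h_M1c, p_M1c, h_cM1, h_M1, p_55, h_e1, h_PhN, p_b, h⟩ := h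
  obtain ⟨h_cf, p_iu, h_iu, h_ex, p_63, h_LB, h_E, h_G, h_x, h_xt, h⟩ := h
  obtain ⟨h_s0, h_s0c, p_71, h_z0, h_A0, h_Bc, p_Bc, h_cW1, h_s1, h_s1c, h⟩ := h
  obtain ⟨p_79, h_z1, h_rg, h_N1c, p_N1c, h_cP0, h_rG, h_w210, h_xr, h_p0, h⟩ := h
  obtain ⟨h_p0c, p_90, h_y0, h_N0c, p_N0c, h_cP1, h_p1, h_p1c, p_97, h_y1, h⟩ := h
  obtain ⟨h_PhF, h_Phi, p_A, p_tau, h_Q, p_M0, p_M1, h_PsN, p_s0, p_s1, h⟩ := h
  obtain ⟨p_p0, p_p1, h_PsF, h_Psi, c0⟩ := h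
  have r0 := S.r0
  have r1 := S.r1
  have ku0 := S.ku0
  have kw0 := S.kw0
  have m00 := S.m00
  have m10 := S.m10
  have g0 := S.g0
  have g1 := S.g1
  have c1 := S.c1
  have L0 := S.L0
  have Ku := S.Ku
  have Kw := S.Kw
  clear S
  unfold FBb
  unfold af3 at *
  rw [← h_mu0] at m00
  rw [← h_mu1] at m10
  rw [← h_ga] at g0 g1
  rw [← h_ga, ← h_b] at c1
  rw [← h_mu1, ← h_ex, ← h_ga] at L0
  rw [← h_mu0, ← h_mu1, ← h_ex, ← h_ga, ← h_b] at Ku ⊢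
  rw [← h_mu0, ← h_mu1] at Kw
  obtain ⟨σ0, σ1, v0, v1, d4⟩ := hp
  have hd0 : 0 ≤ dB σ v := mul_nonneg (sq_nonneg _) (by nlinarith only [v0, v1])
  have hd1 : dB σ v ≤ σ ^ 2 := by unfold dB; nlinarith only [mul_nonneg (sq_nonneg σ) (sq_nonneg v)]
  have hσ2 : 0 < σ ^ 2 := by have : 0 < σ := by linarith only [σ0]
                             positivity
  have hu : 0 < uf (σ ^ 2) := B_uf_pos hσ2 (by linarith only [σ1])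
  have hw : 0 < uf (1 - σ ^ 2) := B_uf_pos (by linarith only [σ1]) (by linarith only [hσ2])
  have hU0 : 0 ≤ mu0 * uf (σ ^ 2 + dB σ v) :=
    mul_nonneg m00 (HBa_uf_nonneg (by linarith only [hσ2, hd0]) (by linarith only [σ1, d4]))
  have hW0 : 0 ≤ mu0 * uf (1 - (σ ^ 2 + dB σ v)) :=
    mul_nonneg m00 (HBa_uf_nonneg (by linarith only [σ1, d4]) (by linarith only [hσ2, hd0]))
  have hW1 : 0 ≤ mu1 * uf (1 - (σ ^ 2 - dB σ v)) :=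
    mul_nonneg m10 (HBa_uf_nonneg (by linarith only [σ1, hd0]) (by linarith only [hd1]))
  have fL : LBv mu1 ex ga l4 σ v = LB := by
    unfold LBv; rw [h_LB, h_iu, h_a1, h_v2, h_uh, h_w56, h_al]
  have fu : uf (σ ^ 2) = u := by rw [h_u, h_uh, h_w56, h_al]; unfold uf; ring
  have fw : uf (1 - σ ^ 2) = w := by rw [h_w, h_w56, h_al]; unfold uf; ring
  have fU0 : mu0 * uf (σ ^ 2 + dB σ v) = u * A0 := by
    have : u * iu = al := by rw [h_u, h_iu]; field_simp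
    rw [h_A0, show u * (mu0 * (2 - v2) * ((19 / 10 - w66) * iu)) = u * iu * (mu0 * (2 - v2) * (19 / 10 - w66)) by ring, this,
      h_w66, h_a0, h_a1, h_v2, h_al]
    unfold uf dB; ring
  have fW0 : mu0 * uf (1 - (σ ^ 2 + dB σ v)) = W0 := by rw [h_W0, h_w66, h_a0, h_a1, h_v2, h_al]; unfold uf dB; ring
  have fW1 : mu1 * uf (1 - (σ ^ 2 - dB σ v)) = W1 := by rw [h_W1, h_a1, h_v2, h_al]; unfold uf dB; ring
  rw [fL] at L0 Ku ⊢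
  rw [fU0] at hU0 Ku ⊢
  rw [fW0] at hW0 Kw ⊢
  rw [fW1] at hW1 Kw ⊢
  rw [fu] at hu Ku ⊢
  rw [fw] at hw Kw ⊢
  have sb2 := B_sq h_sb p_isb
  have sAc := B_sq h_Ac p_Ac
  have sgb := B_sq h_gb p_gb
  have sA := B_sq h_A p_A
  have sM0c := B_sq h_M0c p_M0c
  have sM0 := B_sq h_M0 p_M0
  have sM1c := B_sq h_M1c p_M1c
  have sM1 := B_sq h_M1 p_M1
  have ss0 := B_sq h_s0 p_s0
  have ss1 := B_sq h_s1 p_s1
  have sBc := B_sq h_Bc p_Bc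
  have sN1 := B_sq h_N1c p_N1c
  have sN0 := B_sq h_N0c p_N0c
  have sp0 := B_sq h_p0 p_p0
  have sp1 := B_sq h_p1 p_p1
  have hn : 0 ≤ n := by rw [h_n, h_isb]; positivity
  have hne : n = e + 1 := by rw [h_e]; ring
  have hy' : y = sb * n := by rw [h_n, h_isb]; field_simp
  have hx : x = (sb * n) ^ 2 := by rw [h_x, hy']
  have hb2 : b ^ 2 = 1 - sb ^ 2 := by rw [sb2, h_w110, h_cb]; ring
  have hk : sb ^ 2 * k = b ^ 2 * (1 - ga ^ 2) := by rw [h_k, h_isb, h_w108, h_g2, h_cb]; field_simp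
  have hj : tau ^ 2 - gb ^ 2 = e * jj := by rw [h_jj, h_tau]; ring
  have hd1' : n * tau - gb = e * d1 := by rw [hne, h_d1, h_tau]; ring
  have hG : n ^ 2 * tau ^ 2 - gb ^ 2 = e * G := by rw [h_G, ← mul_assoc, ← hd1']; ring
  have hE : n ^ 2 - 1 = e * E := by rw [h_E, hne]; ring
  have D0 := B_dnear hne (show A ^ 2 - Ac ^ 2 = -(e * jj) by rw [sA, sAc, h_t2]; linear_combination -hj - sgb) p_33 h_d0
  have D1 := B_dnear hne (show M0 ^ 2 - M0c ^ 2 = -(e * rj) by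
    rw [sM0, sM0c, h_rt, h_rk, h_rj, h_t2]; linear_combination -rho * hj - rho * sgb) p_49 h_e0
  have D2 := B_dnear (j := -rj) (d := e1) hne (show M1 ^ 2 - M1c ^ 2 = -(e * -rj) by
    rw [sM1, sM1c, h_rt, h_rk, h_rj, h_t2]; linear_combination rho * hj + rho * sgb) p_55 (by rw [h_e1]; ring)
  have Z0 := B_dfar (c := sb ^ 2 * e) (show s0c ^ 2 - s0 ^ 2 = sb ^ 2 * e * (2 * E - G) by
    rw [ss0, h_s0c, h_xt, hx, h_t2]
    linear_combination hb2 + hk + 2 * sb ^ 2 * hE - sb ^ 2 * hG - sb ^ 2 * sgb) p_71 h_z0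
  have Z1 := B_dfar (c := sb ^ 2 * e) (show s1c ^ 2 - s1 ^ 2 = sb ^ 2 * e * G by
    rw [ss1, h_s1c, mul_pow, sBc, h_xt, hx, h_t2, h_g2]
    linear_combination hb2 - hk + sb ^ 2 * hG + sb ^ 2 * sgb) p_79 h_z1
  have Z2 := B_dfar (c := sb ^ 2 * e) (show p0c ^ 2 - p0 ^ 2 = sb ^ 2 * e * (E + rG) by
    rw [sp0, h_p0c, mul_pow, sN1, h_w210, h_xr, hx, h_rt, h_rG, h_rg, h_w108, h_t2, h_g2]
    linear_combination hb2 + rho * hk + (1 + rho) * sb ^ 2 * hE - rho * sb ^ 2 * hG - rho * sb ^ 2 * sgb) p_90 h_y0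
  have Z3 := B_dfar (c := sb ^ 2 * e) (show p1c ^ 2 - p1 ^ 2 = sb ^ 2 * e * (E - rG) by
    rw [sp1, h_p1c, mul_pow, sN0, h_w210, h_xr, hx, h_rt, h_rG, h_rg, h_w108, h_t2, h_g2]
    linear_combination hb2 - rho * hk + (1 - rho) * sb ^ 2 * hE + rho * sb ^ 2 * hG + rho * sb ^ 2 * sgb) p_97 h_y1
  rw [h_s1c] at Z1
  rw [h_p0c] at Z2
  rw [h_p1c] at Z3
  rw [h_s0c] at Z0
  obtain ⟨F1, G1⟩ := BTm_far (a := s1 ^ 2) (c := b ^ 2 * (2 - ga ^ 2)) p_b p_s1 p_Bc rfl (by rw [mul_pow, sBc, h_g2]) Z1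
  obtain ⟨F2, G2⟩ := BTm_far (a := (1 + rho) / 2 * s1 ^ 2 + (1 - rho) / 2 * s0 ^ 2)
    (c := (1 + rho) / 2 * (b ^ 2 * (2 - ga ^ 2)) + (1 - rho) / 2 * (b * ga) ^ 2) p_b p_p1 p_N0c
    (by rw [ss1, ss0, sp1, h_w210, h_xr, h_xt, h_rt]; ring) (by rw [mul_pow b N0c, sN0, h_rg, h_w108, h_g2]; ring) Z3
  obtain ⟨F3, G3⟩ := BTm_far (a := (1 - rho) / 2 * s1 ^ 2 + (1 + rho) / 2 * s0 ^ 2)
    (c := (1 - rho) / 2 * (b ^ 2 * (2 - ga ^ 2)) + (1 + rho) / 2 * (b * ga) ^ 2) p_b p_p0 p_N1c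
    (by rw [ss1, ss0, sp0, h_w210, h_xr, h_xt, h_rt]; ring) (by rw [mul_pow b N1c, sN1, h_rg, h_w108, h_g2]; ring) Z2
  obtain ⟨F4, G4⟩ := BTm_near (a := 1 - s1 ^ 2) (c := 1 - b ^ 2 * (2 - ga ^ 2)) p_isb hn p_tau p_gb
    (by rw [ss1, h_xt, hx, h_t2]; ring) (by rw [sgb]; linear_combination -hb2 + hk) hd1'
  obtain ⟨F5, G5⟩ := BTm_near (a := 1 - s0 ^ 2) (c := 1 - (b * ga) ^ 2) p_isb hn p_A p_Ac
    (by rw [ss0, sA, h_xt, hx]; ring) (by rw [sAc]; linear_combination -hb2 - hk) D0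
  obtain ⟨F6, G6⟩ := BTm_near (a := 1 - ((1 + rho) / 2 * s1 ^ 2 + (1 - rho) / 2 * s0 ^ 2))
    (c := 1 - ((1 + rho) / 2 * (b ^ 2 * (2 - ga ^ 2)) + (1 - rho) / 2 * (b * ga) ^ 2)) p_isb hn p_M1 p_M1c
    (by rw [ss1, ss0, sM1, h_xt, h_rt, hx]; ring) (by rw [sM1c, h_rk]; linear_combination -hb2 + rho * hk) D2
  obtain ⟨F7, G7⟩ := BTm_near (a := 1 - ((1 - rho) / 2 * s1 ^ 2 + (1 + rho) / 2 * s0 ^ 2))
    (c := 1 - ((1 - rho) / 2 * (b ^ 2 * (2 - ga ^ 2)) + (1 + rho) / 2 * (b * ga) ^ 2)) p_isb hn p_M0 p_M0c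
    (by rw [ss1, ss0, sM0, h_xt, h_rt, hx]; ring) (by rw [sM0c, h_rk]; linear_combination -hb2 - rho * hk) D1
  have hs3 : s3 = sb ^ 3 := by rw [h_s3, ← sb2]; ring
  have hF : FB rho u w (u * A0) (LB * u / b) W0 W1 (b ^ 2 * (2 - ga ^ 2)) (b * ga) (s1 ^ 2) (s0 ^ 2) = e ^ 2 * sb * Phi := by
    unfold FB
    rw [F1, F2, F3, F4, F5, F6, F7, Real.sqrt_sq p_s0.le, show s0 - b * ga = -(sb ^ 2 * e * z0) by rw [← Z0]; ring,
      h_Phi, h_PhN, h_PhF, h_cf, h_su, hs3, h_cA, h_cL, h_cM0, h_cM1, h_cW1, h_cP0, h_cP1]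
    ring
  have hK0 : 0 < K := by
    rw [h_K, h_su, hs3]; positivity
  rcases hn.eq_or_lt with hn0 | hn0
  · have hx0 : x = 0 := by rw [hx, ← hn0]; ring
    have hb' : b0 + b1 = 2 := by rw [hb, ← h_x, hx0]; ring
    have e0' : b0 = s1 ^ 2 := by rw [ss1, h_xt, hx0]; linarith only [hb', hb01, hb11]
    have e1' : b1 = s0 ^ 2 := by rw [ss0, h_xt, hx0]; linarith only [hb', hb01, hb11]
    rw [e0', e1', hF]
    have := B_Phi hn hK0 c0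
    positivity
  have hy0 : 0 < y := by rw [hy']; positivity
  have hX0 : 0 < 1 - y ^ 2 := by
    have : p0 ^ 2 + p1 ^ 2 = 2 * (1 - y ^ 2) := by rw [sp0, sp1, h_w210, h_x]; ring
    have : 0 < p0 ^ 2 + p1 ^ 2 := by positivity
    linarith only [this, ‹p0 ^ 2 + p1 ^ 2 = 2 * (1 - y ^ 2)›]
  have hX1 : 1 - y ^ 2 < 1 := by have : 0 < y ^ 2 := by positivity
                                 linarith only [this]
  have hF' : n * sb * FB' rho u w (u * A0) (LB * u / b) W0 W1 (b ^ 2 * (2 - ga ^ 2)) (b * ga) (s1 ^ 2) (s0 ^ 2) (b * ga * s0⁻¹)⁻¹ =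
      e * Psi := by
    have Z0' : 1 - 1 / (b * ga * s0⁻¹)⁻¹ = -(sb ^ 2 * e * (z0 * s0⁻¹)) := by
      rw [one_div, inv_inv, ← mul_assoc, ← Z0]; field_simp; ring
    unfold FB'
    rw [G1, G2, G3, Z0', h_Psi, h_PsN, h_PsF, h_Q, h_cf, h_su, hs3, h_cA, h_cL, h_cM0, h_cM1, h_cW1, h_cP0, h_cP1]
    linear_combination -W0 * G4 hn0 + W1 * G5 hn0 + rho * w * G6 hn0 - rho * w * G7 hn0
  have hKt : K ≤ (u * ku / ((1 - y ^ 2) * √(1 - y ^ 2)) + w * kw / ((1 - (1 - y ^ 2)) * √(1 - (1 - y ^ 2)))) * (sb * n) ^ 3 := by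
    rw [sub_sub_cancel, Real.sqrt_sq hy, ← hy']
    have t1 : √(1 - y ^ 2) ≤ 1 := Real.sqrt_le_one.2 hX1.le
    have t0 := Real.sqrt_pos.2 hX0
    have t2' : u * ku ≤ u * ku / ((1 - y ^ 2) * √(1 - y ^ 2)) :=
      le_div_self (by positivity) (by positivity) (mul_le_one₀ hX1.le t0.le t1)
    have t3 := mul_le_mul_of_nonneg_right t2' (show 0 ≤ y ^ 3 by positivity)
    have t4 : w * kw / (y ^ 2 * y) * y ^ 3 = w * kw := by field_simp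
    have t5 : K = u * ku * y ^ 3 + w * kw := by rw [h_K, h_su, hs3, hy']; ring
    rw [add_mul, t4, t5]
    linarith only [t3]
  obtain ⟨hκ, hP⟩ := B_fin p_isb hn0 hK0 hF hF' hKt c0
  have hg2 : ga ^ 2 ≤ 1 := by nlinarith only [g0, g1]
  have hr1 : (b * ga) ^ 2 < 1 := by nlinarith only [c1, hg2, sq_nonneg b]
  refine FB_ref2 r0 r1 hu hw hU0 (by positivity) hW0 hW1 (mul_pos (by positivity) (by linarith only [hg2])) c1 (by positivity)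
    (by nlinarith only [hr1]) Ku Kw hX0 hX1 p_s0.le (by positivity) (by field_simp) (by rw [ss1, ss0, h_x]; ring) (by positivity)
    ?_ ?_ hκ hP hb00 hb01 hb10 hb11 hb
  · have : 0 < xt := by rw [h_xt, h_x, h_t2]; positivity
    rw [ss1]; linarith only [this]
  · have : 0 < x * A ^ 2 := by rw [h_x]; positivity
    rw [sA] at this
    rw [ss0, h_xt]; linarith only [this]

end Crest.Agent.R307
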