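import Crest.Agent.R307.B.BSm

/-! Row 307, regime `δ ≥ 5/8 α`: vertex certificates and interpolation. -/

set_option autoImplicit false
set_option linter.unusedVariables false

namespace Crest.Agent.R307

theorem BV_vx {ρ l4 ku kw m0 m1 b γ ex σ v : ℝ} (hp : PtB σ v) (S : SideB ρ l4 ku kw m0 m1 b γ ex σ v)
    (hF : ∀ b0 b1 : ℝ, 0 ≤ b0 → b0 ≤ 1 → 0 ≤ b1 → b1 ≤ 1 → 0 ≤ FBb ρ m0 m1 b γ (LBv m1 ex γ l4 σ v) σ v b0 b1) :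
    Vx ρ (σ ^ 2) (dB σ v) m0 m1 (etav ex γ l4 σ)
      (2 * psiH (σ ^ 2) (σ ^ 2) - m0 * psiH (σ ^ 2 + dB σ v) (σ ^ 2 + dB σ v) - m1 * psiH (σ ^ 2 - dB σ v) (σ ^ 2 - dB σ v)
        - etav ex γ l4 σ * √(σ ^ 2 - dB σ v) - Nnv ρ l4 m0 m1 b γ ex σ v) := by
  have hη := BSm_eta hp S
  obtain ⟨σ0, σ1, v0, v1, d4⟩ := hp
  have hd0 : 0 ≤ dB σ v := mul_nonneg (sq_nonneg _) (by nlinarith only [v0, v1])
  have hd1 : dB σ v ≤ σ ^ 2 := by unfold dB; nlinarith only [mul_nonneg (sq_nonneg σ) (sq_nonneg v)]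
  have hb : 0 < b := by linarith [S.b0]
  have g0 := S.g0
  have gl := S.gl
  have hg2 : γ ^ 2 ≤ 1 := by nlinarith only [g0, S.g1]
  have hr1 : (b * γ) ^ 2 < 1 := by nlinarith only [S.c1, hg2, sq_nonneg b]
  have huh : (19 / 10 - 9 / 10 * σ ^ 2 : ℝ) ≠ 0 := by linarith
  have hU : 2 * (b * γ) * (LBv m1 ex γ l4 σ v * uf (σ ^ 2) / b) = m1 * uf (σ ^ 2 - dB σ v) + etav ex γ l4 σ := by
    have e : γ * (v + l4) * (γ + l4)⁻¹ = v := by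
      rcases S.mode with h | h
      · rw [h, add_zero] at gl; rw [h]; field_simp; ring
      · rw [h] at gl ⊢; field_simp
    have e2 : (19 / 10 - 9 / 10 * σ ^ 2)⁻¹ * uf (σ ^ 2) = σ ^ 2 := by
      rw [show uf (σ ^ 2) = (19 / 10 - 9 / 10 * σ ^ 2) * σ ^ 2 by unfold uf; ring, ← mul_assoc, inv_mul_cancel₀ huh, one_mul]
    have e3 : uf (σ ^ 2 - dB σ v) = σ ^ 2 * v ^ 2 * (2 * (19 / 20 - 9 / 20 * (σ ^ 2 * v ^ 2))) := by unfold uf dB; ring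
    have e4 : 2 * (b * γ) * (LBv m1 ex γ l4 σ v * uf (σ ^ 2) / b) = 2 * γ * (LBv m1 ex γ l4 σ v * uf (σ ^ 2)) := by field_simp
    rw [e4, e3]
    unfold LBv etav
    generalize (19 / 10 - 9 / 10 * σ ^ 2)⁻¹ = iu at *
    generalize (γ + l4)⁻¹ = ig at *
    generalize 19 / 20 - 9 / 20 * (σ ^ 2 * v ^ 2) = f
    linear_combination 2 * m1 * v * f * iu * uf (σ ^ 2) * e + 2 * m1 * v ^ 2 * f * e2
  have hV := Vx_of_FB S.r0 S.r1 hd0 hd1 (by linarith) S.m00 S.m10 hη (mul_pos (by positivity) (by linarith : 0 < 2 - γ ^ 2)) S.c1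
    (by positivity) (by nlinarith only [hr1]) hU hF
  refine Vx_mono hV (le_of_eq ?_)
  unfold Nnv FBb
  ring

theorem BV_interval {ρ β θ σ v ρa l4a kua kwa m0a m1a ba γa exa ρb l4b kub kwb m0b m1b bb γb exb : ℝ} (hp : PtB σ v) (hρ : 0 ≤ ρ)
    (h0 : 0 ≤ θ) (h1 : θ ≤ 1) (hr : ρ ^ 2 = (1 - θ) * ρa ^ 2 + θ * ρb ^ 2)
    (Sa : SideB ρa l4a kua kwa m0a m1a ba γa exa σ v) (Sb : SideB ρb l4b kub kwb m0b m1b bb γb exb σ v)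
    (Fa : ∀ b0 b1 : ℝ, 0 ≤ b0 → b0 ≤ 1 → 0 ≤ b1 → b1 ≤ 1 → 0 ≤ FBb ρa m0a m1a ba γa (LBv m1a exa γa l4a σ v) σ v b0 b1)
    (Fb : ∀ b0 b1 : ℝ, 0 ≤ b0 → b0 ≤ 1 → 0 ≤ b1 → b1 ≤ 1 → 0 ≤ FBb ρb m0b m1b bb γb (LBv m1b exb γb l4b σ v) σ v b0 b1)
    (hS : SB ρ β ((1 - θ) * m0a + θ * m0b) ((1 - θ) * m1a + θ * m1b) ((1 - θ) * etav exa γa l4a σ + θ * etav exb γb l4b σ)
      ((1 - θ) * Nnv ρa l4a m0a m1a ba γa exa σ v + θ * Nnv ρb l4b m0b m1b bb γb exb σ v) σ v) :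
    HS ρ β (σ ^ 2) (dB σ v) := by
  have hV := Vx_interp h0 h1 hρ Sa.r0 Sa.r1.le Sb.r0 Sb.r1.le hr (sq_nonneg σ) (by linarith [hp.s1]) (BV_vx hp Sa Fa) (BV_vx hp Sb Fb)
  refine HS_of_Vx hV ?_
  unfold SB at hS
  linarith

end Crest.Agent.R307
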