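import Crest.Agent.R307.B.BRegX
import Crest.Agent.R307.B.BN
import Crest.Agent.R307.B.BT
import Crest.Agent.R307.B.BK
import Crest.Agent.R307.B.BD
import Crest.Agent.R307.B.BA
import Crest.Agent.R307.B.BB

/-! Row 307: the regime `δ ≥ 5/8 α` (generated assembly). -/

set_option autoImplicit false
set_option maxRecDepth 100000

namespace Crest.Agent.R307
open AA

theorem BR_empty {l0 h0 l1 h1 : ℕ} (h : 0 ≤ val l0 ∧ val h1 ≤ 1 ∧ 1 / 4 < val l0 ^ 2 * (1 - val h1 ^ 2)) :
    Good QB l0 h0 l1 h1 4722366482869645213696 4722366482869645213696 4722366482869645213696 4722366482869645213696 := by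
  intro σ v _ _ hb
  refine ⟨0, 0, fun ρ β _ _ _ _ hp => ?_⟩
  exfalso
  have h4 := hp.d4
  have a1 : val l0 ^ 2 ≤ σ ^ 2 := pow_le_pow_left₀ h.1 hb.1.1 2
  have a2 : v ^ 2 ≤ val h1 ^ 2 := pow_le_pow_left₀ hp.v0 hb.2.1.2 2
  have a3 : val h1 ^ 2 ≤ 1 := pow_le_one₀ (hp.v0.trans hb.2.1.2) h.2.1
  have a4 : val l0 ^ 2 * (1 - val h1 ^ 2) ≤ σ ^ 2 * (1 - v ^ 2) :=
    mul_le_mul a1 (by linarith) (by linarith) (sq_nonneg σ)
  unfold dB at h4
  linarith [h.2.2]

theorem BR_hr : val 4722366201394668503040 ≤ -1 ∧ 105 / 16 ≤ val 4722368453194482188288 ∧ val 4722366482869645213696 ≤ 0 ∧ 2889 / 4096 ≤ val 4722366682431005655040 ∧ val 4722366482869645213696 ≤ 0 ∧ 1 ≤ val 4722366764344621924352 := by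
  norm_num [val]

theorem BR_ht : val 4722366482869645213696 ≤ 0 ∧ 1 ≤ val 4722366764344621924352 := by norm_num [val]

theorem hregB0 : Good QB 4722366518054017302528 4722366531248156835840 4722366482869645213696 4722366509257924280320 4722366482869645213696 4722366482869645213696 4722366482869645213696 4722366482869645213696 :=
  BR_region BN.good0 BT.good0 BD.good0 BK.good0 BN.good1 BT.good1 BD.good1 BK.good1 BN.good2 BT.good2 BD.good2 BK.good2 BN.good3 BT.good3 BD.good3 BK.good3 BN.good4 BT.good4 BD.good4 BK.good4 BN.good5 BT.good5 BD.good5 BK.good5
    BA.good0 BB.good0 BB.good1 BB.good2 BB.good3 BR_hr BR_ht (by decide +kernel)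

theorem hregB1 : Good QB 4722366531248156835840 4722366546641319624704 4722366482869645213696 4722366509257924280320 4722366482869645213696 4722366482869645213696 4722366482869645213696 4722366482869645213696 :=
  BR_region BN.good6 BT.good6 BD.good6 BK.good6 BN.good7 BT.good7 BD.good7 BK.good7 BN.good8 BT.good8 BD.good8 BK.good8 BN.good9 BT.good9 BD.good9 BK.good9 BN.good10 BT.good10 BD.good10 BK.good10 BN.good11 BT.good11 BD.good11 BK.good11
    BA.good1 BB.good4 BB.good5 BB.good6 BB.good7 BR_hr BR_ht (by decide +kernel)

theorem hregB2 : Good QB 4722366546641319624704 4722366566432528924672 4722366482869645213696 4722366509257924280320 4722366482869645213696 4722366482869645213696 4722366482869645213696 4722366482869645213696 :=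
  BR_region BN.good12 BT.good12 BD.good12 BK.good12 BN.good13 BT.good13 BD.good13 BK.good13 BN.good14 BT.good14 BD.good14 BK.good14 BN.good15 BT.good15 BD.good15 BK.good15 BN.good16 BT.good16 BD.good16 BK.good16 BN.good17 BT.good17 BD.good17 BK.good17
    BA.good2 BB.good8 BB.good9 BB.good10 BB.good11 BR_hr BR_ht (by decide +kernel)

theorem hregB3 : Good QB 4722366566432528924672 4722366588422761480192 4722366482869645213696 4722366509257924280320 4722366482869645213696 4722366482869645213696 4722366482869645213696 4722366482869645213696 :=
  BR_region BN.good18 BT.good18 BD.good18 BK.good18 BN.good19 BT.good19 BD.good19 BK.good19 BN.good20 BT.good20 BD.good20 BK.good20 BN.good21 BT.good21 BD.good21 BK.good21 BN.good22 BT.good22 BD.good22 BK.good22 BN.good23 BT.good23 BD.good23 BK.good23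
    BA.good3 BB.good12 BB.good13 BB.good14 BB.good15 BR_hr BR_ht (by decide +kernel)

theorem hregB4 : Good QB 4722366588422761480192 4722366606014947524608 4722366482869645213696 4722366509257924280320 4722366482869645213696 4722366482869645213696 4722366482869645213696 4722366482869645213696 :=
  BR_region BN.good24 BT.good24 BD.good24 BK.good24 BN.good25 BT.good25 BD.good25 BK.good25 BN.good26 BT.good26 BD.good26 BK.good26 BN.good27 BT.good27 BD.good27 BK.good27 BN.good28 BT.good28 BD.good28 BK.good28 BN.good29 BT.good29 BD.good29 BK.good29
    BA.good4 BB.good16 BB.good17 BB.good18 BB.good19 BR_hr BR_ht (by decide +kernel)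

theorem hregB5 : Good QB 4722366606014947524608 4722366649995412635648 4722366482869645213696 4722366509257924280320 4722366482869645213696 4722366482869645213696 4722366482869645213696 4722366482869645213696 :=
  BR_region BN.good30 BT.good30 BD.good30 BK.good30 BN.good31 BT.good31 BD.good31 BK.good31 BN.good32 BT.good32 BD.good32 BK.good32 BN.good33 BT.good33 BD.good33 BK.good33 BN.good34 BT.good34 BD.good34 BK.good34 BN.good35 BT.good35 BD.good35 BK.good35
    BA.good5 BB.good20 BB.good21 BB.good22 BB.good23 BR_hr BR_ht (by decide +kernel)

theorem hregE0 : Good QB 4722366649995412635648 4722366660990528913408 4722366482869645213696 4722366509257924280320 4722366482869645213696 4722366482869645213696 4722366482869645213696 4722366482869645213696 :=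
  BR_empty (by norm_num [val])

theorem hregB6 : Good QB 4722366518054017302528 4722366531248156835840 4722366509257924280320 4722366544442296369152 4722366482869645213696 4722366482869645213696 4722366482869645213696 4722366482869645213696 :=
  BR_region BN.good36 BT.good36 BD.good36 BK.good36 BN.good37 BT.good37 BD.good37 BK.good37 BN.good38 BT.good38 BD.good38 BK.good38 BN.good39 BT.good39 BD.good39 BK.good39 BN.good40 BT.good40 BD.good40 BK.good40 BN.good41 BT.good41 BD.good41 BK.good41
    BA.good6 BB.good24 BB.good25 BB.good26 BB.good27 BR_hr BR_ht (by decide +kernel)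

theorem hregB7 : Good QB 4722366531248156835840 4722366546641319624704 4722366509257924280320 4722366544442296369152 4722366482869645213696 4722366482869645213696 4722366482869645213696 4722366482869645213696 :=
  BR_region BN.good42 BT.good42 BD.good42 BK.good42 BN.good43 BT.good43 BD.good43 BK.good43 BN.good44 BT.good44 BD.good44 BK.good44 BN.good45 BT.good45 BD.good45 BK.good45 BN.good46 BT.good46 BD.good46 BK.good46 BN.good47 BT.good47 BD.good47 BK.good47
    BA.good7 BB.good28 BB.good29 BB.good30 BB.good31 BR_hr BR_ht (by decide +kernel)

theorem hregB8 : Good QB 4722366546641319624704 4722366566432528924672 4722366509257924280320 4722366544442296369152 4722366482869645213696 4722366482869645213696 4722366482869645213696 4722366482869645213696 :=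
  BR_region BN.good48 BT.good48 BD.good48 BK.good48 BN.good49 BT.good49 BD.good49 BK.good49 BN.good50 BT.good50 BD.good50 BK.good50 BN.good51 BT.good51 BD.good51 BK.good51 BN.good52 BT.good52 BD.good52 BK.good52 BN.good53 BT.good53 BD.good53 BK.good53
    BA.good8 BB.good32 BB.good33 BB.good34 BB.good35 BR_hr BR_ht (by decide +kernel)

theorem hregB9 : Good QB 4722366566432528924672 4722366597218854502400 4722366509257924280320 4722366544442296369152 4722366482869645213696 4722366482869645213696 4722366482869645213696 4722366482869645213696 :=
  BR_region BN.good54 BT.good54 BD.good54 BK.good54 BN.good55 BT.good55 BD.good55 BK.good55 BN.good56 BT.good56 BD.good56 BK.good56 BN.good57 BT.good57 BD.good57 BK.good57 BN.good58 BT.good58 BD.good58 BK.good58 BN.good59 BT.good59 BD.good59 BK.good59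
    BA.good9 BB.good36 BB.good37 BB.good38 BB.good39 BR_hr BR_ht (by decide +kernel)

theorem hregB10 : Good QB 4722366597218854502400 4722366614811040546816 4722366509257924280320 4722366544442296369152 4722366482869645213696 4722366482869645213696 4722366482869645213696 4722366482869645213696 :=
  BR_region BN.good60 BT.good60 BD.good60 BK.good60 BN.good61 BT.good61 BD.good61 BK.good61 BN.good62 BT.good62 BD.good62 BK.good62 BN.good63 BT.good63 BD.good63 BK.good63 BN.good64 BT.good64 BD.good64 BK.good64 BN.good65 BT.good65 BD.good65 BK.good65
    BA.good10 BB.good40 BB.good41 BB.good42 BB.good43 BR_hr BR_ht (by decide +kernel)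

theorem hregB11 : Good QB 4722366614811040546816 4722366641199319613440 4722366509257924280320 4722366544442296369152 4722366482869645213696 4722366482869645213696 4722366482869645213696 4722366482869645213696 :=
  BR_region BN.good66 BT.good66 BD.good66 BK.good66 BN.good67 BT.good67 BD.good67 BK.good67 BN.good68 BT.good68 BD.good68 BK.good68 BN.good69 BT.good69 BD.good69 BK.good69 BN.good70 BT.good70 BD.good70 BK.good70 BN.good71 BT.good71 BD.good71 BK.good71
    BA.good11 BB.good44 BB.good45 BB.good46 BB.good47 BR_hr BR_ht (by decide +kernel)

theorem hregE1 : Good QB 4722366641199319613440 4722366660990528913408 4722366509257924280320 4722366544442296369152 4722366482869645213696 4722366482869645213696 4722366482869645213696 4722366482869645213696 :=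
  BR_empty (by norm_num [val])

theorem hregB12 : Good QB 4722366518054017302528 4722366531248156835840 4722366544442296369152 4722366584024714969088 4722366482869645213696 4722366482869645213696 4722366482869645213696 4722366482869645213696 :=
  BR_region BN.good72 BT.good72 BD.good72 BK.good72 BN.good73 BT.good73 BD.good73 BK.good73 BN.good74 BT.good74 BD.good74 BK.good74 BN.good75 BT.good75 BD.good75 BK.good75 BN.good76 BT.good76 BD.good76 BK.good76 BN.good77 BT.good77 BD.good77 BK.good77
    BA.good12 BB.good48 BB.good49 BB.good50 BB.good51 BR_hr BR_ht (by decide +kernel)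

theorem hregB13 : Good QB 4722366531248156835840 4722366540044249858048 4722366544442296369152 4722366584024714969088 4722366482869645213696 4722366482869645213696 4722366482869645213696 4722366482869645213696 :=
  BR_region BN.good78 BT.good78 BD.good78 BK.good78 BN.good79 BT.good79 BD.good79 BK.good79 BN.good80 BT.good80 BD.good80 BK.good80 BN.good81 BT.good81 BD.good81 BK.good81 BN.good82 BT.good82 BD.good82 BK.good82 BN.good83 BT.good83 BD.good83 BK.good83
    BA.good13 BB.good52 BB.good53 BB.good54 BB.good55 BR_hr BR_ht (by decide +kernel)

theorem hregB14 : Good QB 4722366540044249858048 4722366553238389391360 4722366544442296369152 4722366584024714969088 4722366482869645213696 4722366482869645213696 4722366482869645213696 4722366482869645213696 :=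
  BR_region BN.good84 BT.good84 BD.good84 BK.good84 BN.good85 BT.good85 BD.good85 BK.good85 BN.good86 BT.good86 BD.good86 BK.good86 BN.good87 BT.good87 BD.good87 BK.good87 BN.good88 BT.good88 BD.good88 BK.good88 BN.good89 BT.good89 BD.good89 BK.good89
    BA.good14 BB.good56 BB.good57 BB.good58 BB.good59 BR_hr BR_ht (by decide +kernel)

theorem hregB15 : Good QB 4722366553238389391360 4722366579626668457984 4722366544442296369152 4722366584024714969088 4722366482869645213696 4722366482869645213696 4722366482869645213696 4722366482869645213696 :=
  BR_region BN.good90 BT.good90 BD.good90 BK.good90 BN.good91 BT.good91 BD.good91 BK.good91 BN.good92 BT.good92 BD.good92 BK.good92 BN.good93 BT.good93 BD.good93 BK.good93 BN.good94 BT.good94 BD.good94 BK.good94 BN.good95 BT.good95 BD.good95 BK.good95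
    BA.good15 BB.good60 BB.good61 BB.good62 BB.good63 BR_hr BR_ht (by decide +kernel)

theorem hregB16 : Good QB 4722366579626668457984 4722366597218854502400 4722366544442296369152 4722366584024714969088 4722366482869645213696 4722366482869645213696 4722366482869645213696 4722366482869645213696 :=
  BR_region BN.good96 BT.good96 BD.good96 BK.good96 BN.good97 BT.good97 BD.good97 BK.good97 BN.good98 BT.good98 BD.good98 BK.good98 BN.good99 BT.good99 BD.good99 BK.good99 BN.good100 BT.good100 BD.good100 BK.good100 BN.good101 BT.good101 BD.good101 BK.good101
    BA.good16 BB.good64 BB.good65 BB.good66 BB.good67 BR_hr BR_ht (by decide +kernel)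

theorem hregB17 : Good QB 4722366597218854502400 4722366632403226591232 4722366544442296369152 4722366584024714969088 4722366482869645213696 4722366482869645213696 4722366482869645213696 4722366482869645213696 :=
  BR_region BN.good102 BT.good102 BD.good102 BK.good102 BN.good103 BT.good103 BD.good103 BK.good103 BN.good104 BT.good104 BD.good104 BK.good104 BN.good105 BT.good105 BD.good105 BK.good105 BN.good106 BT.good106 BD.good106 BK.good106 BN.good107 BT.good107 BD.good107 BK.good107
    BA.good17 BB.good68 BB.good69 BB.good70 BB.good71 BR_hr BR_ht (by decide +kernel)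

theorem hregB18 : Good QB 4722366632403226591232 4722366641199319613440 4722366544442296369152 4722366584024714969088 4722366482869645213696 4722366482869645213696 4722366482869645213696 4722366482869645213696 :=
  BR_region BN.good108 BT.good108 BD.good108 BK.good108 BN.good109 BT.good109 BD.good109 BK.good109 BN.good110 BT.good110 BD.good110 BK.good110 BN.good111 BT.good111 BD.good111 BK.good111 BN.good112 BT.good112 BD.good112 BK.good112 BN.good113 BT.good113 BD.good113 BK.good113
    BA.good18 BB.good72 BB.good73 BB.good74 BB.good75 BR_hr BR_ht (by decide +kernel)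

theorem hregE2 : Good QB 4722366641199319613440 4722366660990528913408 4722366544442296369152 4722366584024714969088 4722366482869645213696 4722366482869645213696 4722366482869645213696 4722366482869645213696 :=
  BR_empty (by norm_num [val])

theorem hregB19 : Good QB 4722366518054017302528 4722366526850110324736 4722366584024714969088 4722366623607133569024 4722366482869645213696 4722366482869645213696 4722366482869645213696 4722366482869645213696 :=
  BR_region BN.good114 BT.good114 BD.good114 BK.good114 BN.good115 BT.good115 BD.good115 BK.good115 BN.good116 BT.good116 BD.good116 BK.good116 BN.good117 BT.good117 BD.good117 BK.good117 BN.good118 BT.good118 BD.good118 BK.good118 BN.good119 BT.good119 BD.good119 BK.good119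
    BA.good19 BB.good76 BB.good77 BB.good78 BB.good79 BR_hr BR_ht (by decide +kernel)

theorem hregB20 : Good QB 4722366526850110324736 4722366540044249858048 4722366584024714969088 4722366623607133569024 4722366482869645213696 4722366482869645213696 4722366482869645213696 4722366482869645213696 :=
  BR_region BN.good120 BT.good120 BD.good120 BK.good120 BN.good121 BT.good121 BD.good121 BK.good121 BN.good122 BT.good122 BD.good122 BK.good122 BN.good123 BT.good123 BD.good123 BK.good123 BN.good124 BT.good124 BD.good124 BK.good124 BN.good125 BT.good125 BD.good125 BK.good125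
    BA.good20 BB.good80 BB.good81 BB.good82 BB.good83 BR_hr BR_ht (by decide +kernel)

theorem hregB21 : Good QB 4722366540044249858048 4722366559835459158016 4722366584024714969088 4722366623607133569024 4722366482869645213696 4722366482869645213696 4722366482869645213696 4722366482869645213696 :=
  BR_region BN.good126 BT.good126 BD.good126 BK.good126 BN.good127 BT.good127 BD.good127 BK.good127 BN.good128 BT.good128 BD.good128 BK.good128 BN.good129 BT.good129 BD.good129 BK.good129 BN.good130 BT.good130 BD.good130 BK.good130 BN.good131 BT.good131 BD.good131 BK.good131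
    BA.good21 BB.good84 BB.good85 BB.good86 BB.good87 BR_hr BR_ht (by decide +kernel)

theorem hregB22 : Good QB 4722366559835459158016 4722366588422761480192 4722366584024714969088 4722366623607133569024 4722366482869645213696 4722366482869645213696 4722366482869645213696 4722366482869645213696 :=
  BR_region BN.good132 BT.good132 BD.good132 BK.good132 BN.good133 BT.good133 BD.good133 BK.good133 BN.good134 BT.good134 BD.good134 BK.good134 BN.good135 BT.good135 BD.good135 BK.good135 BN.good136 BT.good136 BD.good136 BK.good136 BN.good137 BT.good137 BD.good137 BK.good137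
    BA.good22 BB.good88 BB.good89 BB.good90 BB.good91 BR_hr BR_ht (by decide +kernel)

theorem hregB23 : Good QB 4722366588422761480192 4722366606014947524608 4722366584024714969088 4722366623607133569024 4722366482869645213696 4722366482869645213696 4722366482869645213696 4722366482869645213696 :=
  BR_region BN.good138 BT.good138 BD.good138 BK.good138 BN.good139 BT.good139 BD.good139 BK.good139 BN.good140 BT.good140 BD.good140 BK.good140 BN.good141 BT.good141 BD.good141 BK.good141 BN.good142 BT.good142 BD.good142 BK.good142 BN.good143 BT.good143 BD.good143 BK.good143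
    BA.good23 BB.good92 BB.good93 BB.good94 BB.good95 BR_hr BR_ht (by decide +kernel)

theorem hregB24 : Good QB 4722366606014947524608 4722366623607133569024 4722366584024714969088 4722366623607133569024 4722366482869645213696 4722366482869645213696 4722366482869645213696 4722366482869645213696 :=
  BR_region BN.good144 BT.good144 BD.good144 BK.good144 BN.good145 BT.good145 BD.good145 BK.good145 BN.good146 BT.good146 BD.good146 BK.good146 BN.good147 BT.good147 BD.good147 BK.good147 BN.good148 BT.good148 BD.good148 BK.good148 BN.good149 BT.good149 BD.good149 BK.good149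
    BA.good24 BB.good96 BB.good97 BB.good98 BB.good99 BR_hr BR_ht (by decide +kernel)

theorem hregB25 : Good QB 4722366623607133569024 4722366641199319613440 4722366584024714969088 4722366623607133569024 4722366482869645213696 4722366482869645213696 4722366482869645213696 4722366482869645213696 :=
  BR_region BN.good150 BT.good150 BD.good150 BK.good150 BN.good151 BT.good151 BD.good151 BK.good151 BN.good152 BT.good152 BD.good152 BK.good152 BN.good153 BT.good153 BD.good153 BK.good153 BN.good154 BT.good154 BD.good154 BK.good154 BN.good155 BT.good155 BD.good155 BK.good155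
    BA.good25 BB.good100 BB.good101 BB.good102 BB.good103 BR_hr BR_ht (by decide +kernel)

theorem hregB26 : Good QB 4722366641199319613440 4722366649995412635648 4722366584024714969088 4722366623607133569024 4722366482869645213696 4722366482869645213696 4722366482869645213696 4722366482869645213696 :=
  BR_region BN.good156 BT.good156 BD.good156 BK.good156 BN.good157 BT.good157 BD.good157 BK.good157 BN.good158 BT.good158 BD.good158 BK.good158 BN.good159 BT.good159 BD.good159 BK.good159 BN.good160 BT.good160 BD.good160 BK.good160 BN.good161 BT.good161 BD.good161 BK.good161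
    BA.good26 BB.good104 BB.good105 BB.good106 BB.good107 BR_hr BR_ht (by decide +kernel)

theorem hregE3 : Good QB 4722366649995412635648 4722366660990528913408 4722366584024714969088 4722366623607133569024 4722366482869645213696 4722366482869645213696 4722366482869645213696 4722366482869645213696 :=
  BR_empty (by norm_num [val])

theorem hregB27 : Good QB 4722366518054017302528 4722366531248156835840 4722366623607133569024 4722366655492970774528 4722366482869645213696 4722366482869645213696 4722366482869645213696 4722366482869645213696 :=
  BR_region BN.good162 BT.good162 BD.good162 BK.good162 BN.good163 BT.good163 BD.good163 BK.good163 BN.good164 BT.good164 BD.good164 BK.good164 BN.good165 BT.good165 BD.good165 BK.good165 BN.good166 BT.good166 BD.good166 BK.good166 BN.good167 BT.good167 BD.good167 BK.good167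
    BA.good27 BB.good108 BB.good109 BB.good110 BB.good111 BR_hr BR_ht (by decide +kernel)

theorem hregB28 : Good QB 4722366531248156835840 4722366546641319624704 4722366623607133569024 4722366655492970774528 4722366482869645213696 4722366482869645213696 4722366482869645213696 4722366482869645213696 :=
  BR_region BN.good168 BT.good168 BD.good168 BK.good168 BN.good169 BT.good169 BD.good169 BK.good169 BN.good170 BT.good170 BD.good170 BK.good170 BN.good171 BT.good171 BD.good171 BK.good171 BN.good172 BT.good172 BD.good172 BK.good172 BN.good173 BT.good173 BD.good173 BK.good173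
    BA.good28 BB.good112 BB.good113 BB.good114 BB.good115 BR_hr BR_ht (by decide +kernel)

theorem hregB29 : Good QB 4722366546641319624704 4722366573029598691328 4722366623607133569024 4722366655492970774528 4722366482869645213696 4722366482869645213696 4722366482869645213696 4722366482869645213696 :=
  BR_region BN.good174 BT.good174 BD.good174 BK.good174 BN.good175 BT.good175 BD.good175 BK.good175 BN.good176 BT.good176 BD.good176 BK.good176 BN.good177 BT.good177 BD.good177 BK.good177 BN.good178 BT.good178 BD.good178 BK.good178 BN.good179 BT.good179 BD.good179 BK.good179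
    BA.good29 BB.good116 BB.good117 BB.good118 BB.good119 BR_hr BR_ht (by decide +kernel)

theorem hregB30 : Good QB 4722366573029598691328 4722366606014947524608 4722366623607133569024 4722366655492970774528 4722366482869645213696 4722366482869645213696 4722366482869645213696 4722366482869645213696 :=
  BR_region BN.good180 BT.good180 BD.good180 BK.good180 BN.good181 BT.good181 BD.good181 BK.good181 BN.good182 BT.good182 BD.good182 BK.good182 BN.good183 BT.good183 BD.good183 BK.good183 BN.good184 BT.good184 BD.good184 BK.good184 BN.good185 BT.good185 BD.good185 BK.good185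
    BA.good30 BB.good120 BB.good121 BB.good122 BB.good123 BR_hr BR_ht (by decide +kernel)

theorem hregB31 : Good QB 4722366606014947524608 4722366623607133569024 4722366623607133569024 4722366655492970774528 4722366482869645213696 4722366482869645213696 4722366482869645213696 4722366482869645213696 :=
  BR_region BN.good186 BT.good186 BD.good186 BK.good186 BN.good187 BT.good187 BD.good187 BK.good187 BN.good188 BT.good188 BD.good188 BK.good188 BN.good189 BT.good189 BD.good189 BK.good189 BN.good190 BT.good190 BD.good190 BK.good190 BN.good191 BT.good191 BD.good191 BK.good191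
    BA.good31 BB.good124 BB.good125 BB.good126 BB.good127 BR_hr BR_ht (by decide +kernel)

theorem hregB32 : Good QB 4722366623607133569024 4722366641199319613440 4722366623607133569024 4722366655492970774528 4722366482869645213696 4722366482869645213696 4722366482869645213696 4722366482869645213696 :=
  BR_region BN.good192 BT.good192 BD.good192 BK.good192 BN.good193 BT.good193 BD.good193 BK.good193 BN.good194 BT.good194 BD.good194 BK.good194 BN.good195 BT.good195 BD.good195 BK.good195 BN.good196 BT.good196 BD.good196 BK.good196 BN.good197 BT.good197 BD.good197 BK.good197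
    BA.good32 BB.good128 BB.good129 BB.good130 BB.good131 BR_hr BR_ht (by decide +kernel)

theorem hregB33 : Good QB 4722366641199319613440 4722366649995412635648 4722366623607133569024 4722366655492970774528 4722366482869645213696 4722366482869645213696 4722366482869645213696 4722366482869645213696 :=
  BR_region BN.good198 BT.good198 BD.good198 BK.good198 BN.good199 BT.good199 BD.good199 BK.good199 BN.good200 BT.good200 BD.good200 BK.good200 BN.good201 BT.good201 BD.good201 BK.good201 BN.good202 BT.good202 BD.good202 BK.good202 BN.good203 BT.good203 BD.good203 BK.good203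
    BA.good33 BB.good132 BB.good133 BB.good134 BB.good135 BR_hr BR_ht (by decide +kernel)

theorem hregB34 : Good QB 4722366649995412635648 4722366660990528913408 4722366623607133569024 4722366655492970774528 4722366482869645213696 4722366482869645213696 4722366482869645213696 4722366482869645213696 :=
  BR_region BN.good204 BT.good204 BD.good204 BK.good204 BN.good205 BT.good205 BD.good205 BK.good205 BN.good206 BT.good206 BD.good206 BK.good206 BN.good207 BT.good207 BD.good207 BK.good207 BN.good208 BT.good208 BD.good208 BK.good208 BN.good209 BT.good209 BD.good209 BK.good209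
    BA.good34 BB.good136 BB.good137 BB.good138 BB.good139 BR_hr BR_ht (by decide +kernel)

theorem hregBAll : Good QB 4722366518054017302528 4722366660990528913408 4722366482869645213696 4722366655492970774528 4722366482869645213696 4722366482869645213696 4722366482869645213696 4722366482869645213696 :=
  (Good.s1 (Good.s0 hregB0 (Good.s0 hregB1 (Good.s0 hregB2 (Good.s0 hregB3 (Good.s0 hregB4 (Good.s0 hregB5 hregE0)))))) (Good.s1 (Good.s0 hregB6 (Good.s0 hregB7 (Good.s0 hregB8 (Good.s0 hregB9 (Good.s0 hregB10 (Good.s0 hregB11 hregE1)))))) (Good.s1 (Good.s0 hregB12 (Good.s0 hregB13 (Good.s0 hregB14 (Good.s0 hregB15 (Good.s0 hregB16 (Good.s0 hregB17 (Good.s0 hregB18 hregE2))))))) (Good.s1 (Good.s0 hregB19 (Good.s0 hregB20 (Good.s0 hregB21 (Good.s0 hregB22 (Good.s0 hregB23 (Good.s0 hregB24 (Good.s0 hregB25 (Good.s0 hregB26 hregE3)))))))) (Good.s0 hregB27 (Good.s0 hregB28 (Good.s0 hregB29 (Good.s0 hregB30 (Good.s0 hregB31 (Good.s0 hregB32 (Good.s0 hregB33 hregB34)))))))))))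

theorem hstepB {ρ β α δ : ℝ} (h0 : 0 ≤ ρ) (h1 : ρ ≤ 4 / 5) (hβ : 0 ≤ β) (h : ρ ^ 2 + β ^ 2 = 1)
    (hα0 : 1 / 64 ≤ α) (hα : α ≤ 1 / 2) (hδ0 : 0 ≤ δ) (hδ : δ ≤ α) (hδ4 : δ ≤ 1 / 4) (hδ5 : 5 / 8 * α ≤ δ) : HS ρ β α δ :=
  BR_final hregBAll (by norm_num [val]) h0 h1 hβ h hα0 hδ5 hδ hδ4

end Crest.Agent.R307
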